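import Vale.Agent.P354XF.Lev

/-!
The commuted Teukolsky equations.
-/

namespace Vale.Agent.P354XF

open P354XG (GHP D_mul D_num D_add D_sub D_neg D_one D_zero)

variable {A : Type*} [CommRing A] [Algebra ℂ A]

/-- The exact weights of the frozen words when the vector fields are invariant. -/
theorem frz_wt {B κ : Type} [Fintype B] (Z : B → Der A) (c : κ → B → A) (V : Der A) (lam : B → ℂ)
    (hV : ∀ b f, V (Z b f) = Z b (V f) + lam b • Z b f) (hc : ∀ k b, V (c k b) = -(lam b • c k b))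
    {f : A} {p : ℂ} (hf : V f = p • f) (I : List κ) (w : List B) :
    V (frz Z c I w f) = (p + (w.map lam).sum) • frz Z c I w f := by
  induction I generalizing w with
  | nil =>
    have : ∀ u : List B, V (wd Z u f) = (p + (u.map lam).sum) • wd Z u f := fun u => by
      induction u with
      | nil => simpa [wd] using hf
      | cons b u ih =>
        rw [wd, hV, ih, Derivation.map_smul, ← add_smul, List.map_cons, List.sum_cons]
        congr 1
        ring
    rw [frz, this, List.map_reverse, List.sum_reverse]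
  | cons k I ih =>
    rw [frz, map_sum, Finset.smul_sum]
    refine Finset.sum_congr rfl fun b _ => ?_
    rw [D_mul, ih, hc, List.map_cons, List.sum_cons]
    simp only [Algebra.smul_def, map_add]
    ring

namespace Tv

/-- Real vector fields with components c, and an ideal K modulo which the solution has type D and
the vector fields are commuting Killing fields. -/
structure Kil (T : Tv A) (κ : Type) where
  c : κ → Fin 6 → A
  K : Ideal A
  real : ∀ k b, T.G.c (c k b) = c k (bar b)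
  Kc : ∀ f ∈ K, T.G.c f ∈ K
  KD : ∀ b, ∀ f ∈ K, fr T.G b f ∈ K
  K0 : T.G.P0 ∈ K
  K4 : T.G.P4 ∈ K
  K2 : ∀ k, ∑ b, c k b * fr T.G b T.G.P2 ∈ K
  Kdel : ∀ k a e, fr T.G a (c k e) + ∑ b, c k b * gam T.G a b e ∈ K
  KL : ∀ k k' e, ∑ b, c k b * fr T.G b (c k' e) ∈ K

variable (T : Tv A)

theorem ka_eq : T.G.ka = T.Pi * (T.G.ep T.G.P0 - T.G.ta' * T.G.P0) := by
  linear_combination T.Pi * T.is.tr_ka T.h1 - T.G.ka * T.inv

theorem si_eq : T.G.si = T.Pi * (T.G.tp T.G.P0 - T.G.rh' * T.G.P0) := by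
  linear_combination T.Pi * T.is.tr_si T.h1 - T.G.si * T.inv

theorem ka'_eq : T.G.ka' = T.Pi * (T.G.et T.G.P4 - T.G.ta * T.G.P4) := by
  have : 3 * T.G.ka' * T.G.P2 = T.G.et T.G.P4 - T.G.ta * T.G.P4 := T.is.pr.tr_ka T.h3
  linear_combination T.Pi * this - T.G.ka' * T.inv

theorem si'_eq : T.G.si' = T.Pi * (T.G.th T.G.P4 - T.G.rh * T.G.P4) := by
  have : 3 * T.G.si' * T.G.P2 = T.G.th T.G.P4 - T.G.rh * T.G.P4 := T.is.pr.tr_si T.h3
  linear_combination T.Pi * this - T.G.si' * T.inv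

variable {T} {κ : Type} (V : T.Kil κ)

namespace Kil

/-- The vector fields. -/
noncomputable def X (k : κ) : Der A := ∑ b, V.c k b • fr T.G b

theorem X_ap (k : κ) (f : A) : V.X k f = ∑ b, V.c k b * fr T.G b f := sum_ap _ _ _ _

theorem sb_mem (i : Fin 6) : T.sb i ∈ V.K := by
  have k : ∀ {f}, f ∈ V.K → ∀ b p, T.Pi * (fr T.G b f - p * f) ∈ V.K := fun h b p =>
    V.K.mul_mem_left _ (V.K.sub_mem (V.KD b _ h) (V.K.mul_mem_left _ h))
  fin_cases i <;> simp only [sb, Fin.reduceFinMk, Matrix.cons_val]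
  exacts [V.K0, V.K4, T.ka_eq ▸ k V.K0 3 _, T.si_eq ▸ k V.K0 1 _, T.ka'_eq ▸ k V.K4 2 _,
    T.si'_eq ▸ k V.K4 0 _]

theorem jet_mem (i : Fin 6) (w : List (Fin 6)) : wd (fr T.G) w (T.sb i) ∈ V.K := by
  induction w with
  | nil => exact V.sb_mem i
  | cons b w ih => exact V.KD b _ ih

theorem sm_mem (x : Bool × Gn) (h : T.gen.sm x) : T.gen.x x ∈ V.K := by
  obtain ⟨s, x⟩ := x
  cases x with
  | jet i w =>
    cases s
    exacts [V.jet_mem i w, V.Kc _ (V.jet_mem i w)]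
  | _ => exact h.elim

theorem X_c (k : κ) (f : A) : V.X k (T.G.c f) = T.G.c (V.X k f) := by
  simp only [X_ap, map_mul, V.real, T.fr_c, Fin.sum_univ_six, map_add]
  simp only [bar, Matrix.cons_val]
  have e : ∀ a, T.G.c (fr T.G a f) = fr T.G (bar a) (T.G.c f) := fun a => by
    rw [T.fr_c]
    fin_cases a <;> rfl
  simp only [e, bar, Matrix.cons_val]
  ring

theorem X_fr (k : κ) (a : Fin 6) {f : A} (h : V.X k f ∈ V.K) : V.X k (fr T.G a f) ∈ V.K := by
  have e : V.X k (fr T.G a f) = fr T.G a (V.X k f) -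
      ∑ e, (fr T.G a (V.c k e) + ∑ b, V.c k b * gam T.G a b e) * fr T.G e f := by
    simp only [X_ap, map_sum, D_mul, add_mul, mul_add, Finset.sum_mul, Finset.mul_sum,
      Finset.sum_add_distrib, mul_assoc, T.comm a]
    rw [Finset.sum_comm (f := fun e b => V.c k b * (gam T.G a b e * fr T.G e f))]
    simp only [mul_comm (fr T.G _ f) (fr T.G a _)]
    ring
  rw [e]
  exact V.K.sub_mem (V.KD a _ h) (Ideal.sum_mem _ fun e _ => V.K.mul_mem_right _ (V.Kdel k a e))

theorem X_mem (k : κ) {f : A} (h : f ∈ V.K) : V.X k f ∈ V.K := by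
  rw [X_ap]
  exact Ideal.sum_mem _ fun b _ => V.K.mul_mem_left _ (V.KD b _ h)

theorem X_val (k : κ) (x : Gn) : V.X k (T.val x) ∈ V.K := by
  have h2 : V.X k T.G.P2 ∈ V.K := by
    rw [X_ap]
    exact V.K2 k
  have hi : V.X k T.Pi ∈ V.K := by
    rw [fr_Pi]
    exact V.K.neg_mem (V.K.mul_mem_left _ (V.K.mul_mem_left _ h2))
  have hy : ∀ e, V.X k (T.y e) ∈ V.K := fun e => by
    have : T.y e = T.Pi * (fr T.G e T.G.P2 - T.u e * T.v e) := by
      linear_combination -T.Pi * T.fr_P2 e - T.y e * T.inv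
    rw [this, D_mul, D_sub]
    exact V.K.add_mem (V.K.mul_mem_left _ (V.K.sub_mem (V.X_fr k e h2)
      (V.X_mem k (V.K.mul_mem_left _ ((T.mv e).mem V.sm_mem le_rfl))))) (V.K.mul_mem_left _ hi)
  cases x with
  | p2 => exact h2
  | pi => exact hi
  | y e => exact hy e
  | dy b e => exact V.X_fr k b (hy e)
  | jet i w => exact V.X_mem k (V.jet_mem i w)

/-- The frozen calculus of the transverse frame. -/
noncomputable def base : Base T.gen (Fin 6) κ where
  Z := fr T.G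
  c := V.c
  ga := gam T.G
  K := V.K
  cl0 _ := rfl
  up := T.up
  mga := T.mga
  comm := T.comm
  KD := V.KD
  KZ k := by
    rintro ⟨_ | _, x⟩ <;> rw [← X_ap]
    · exact V.X_val k x
    · exact (V.X_c k _).symm ▸ V.Kc _ (V.X_val k x)
  Kdel := V.Kdel
  KL := V.KL

end Kil

variable (T)

/-- The Teukolsky operators for P0 and for P4. -/
def tk0 (f : A) : A :=
  T.G.th (T.G.tp f) - T.G.et (T.G.ep f) - T.G.rh' * T.G.th f - (4 * T.G.rh + T.G.c T.G.rh) * T.G.tp f +
    T.G.ta' * T.G.et f + (4 * T.G.ta + T.G.c T.G.ta') * T.G.ep f +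
    (4 * (T.G.rh * T.G.rh') - 4 * (T.G.ta * T.G.ta') - 2 * T.G.P2) * f

def tk4 (f : A) : A :=
  T.G.tp (T.G.th f) - T.G.ep (T.G.et f) - T.G.rh * T.G.tp f - (4 * T.G.rh' + T.G.c T.G.rh') * T.G.th f +
    T.G.ta * T.G.ep f + (4 * T.G.ta' + T.G.c T.G.ta) * T.G.et f +
    (4 * (T.G.rh * T.G.rh') - 4 * (T.G.ta * T.G.ta') - 2 * T.G.P2) * f

theorem tk0_P0 : T.tk0 T.G.P0 = 4 * ((T.G.si * T.G.si' - T.G.ka * T.G.ka') * T.G.P0) := by
  have := T.is.teukolsky T.h1 T.h3
  simp only [D_sub, D_mul, T.is.r6'] at this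
  unfold tk0
  linear_combination this

theorem tk4_P4 : T.tk4 T.G.P4 = 4 * ((T.G.si * T.G.si' - T.G.ka * T.G.ka') * T.G.P4) := by
  have := T.is.teukolsky' T.h1 T.h3
  simp only [D_sub, D_mul, T.is.r6] at this
  unfold tk4
  linear_combination this

theorem m_c0 :
    M T.gen 1 2 0 0 (4 * (T.G.rh * T.G.rh') - 4 * (T.G.ta * T.G.ta') - 2 * T.G.P2) :=
  (((M.num (n := 0) 4).mul (m11 (T.my 0) (T.my 1))).sub
    ((M.num (n := 0) 4).mul (m11 (T.my 2) (T.my 3)))).sub ((M.num (n := 0) 2).mul (m01 T.mP2))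

theorem m_cub {f : A} (h : M T.gen 0 0 1 0 f) :
    M T.gen 1 2 2 0 (4 * ((T.G.si * T.G.si' - T.G.ka * T.G.ka') * f)) :=
  (M.num (n := 0) 4).mul (((T.msi.mul T.msi').sub (T.mka.mul T.mka')).mul' (a := 2) (n := 2) h
    le_rfl (by omega) le_rfl (by omega) le_rfl le_rfl)

variable {T}

/-- The commuted Teukolsky equation for P0. -/
theorem Kil.teuk0 (I : List κ) (u : List (Fin 6)) :
    V.base.Bd (I.length + 1 + u.length) (I.length + 3 + u.length) (2 + u.length)
      (wd (fr T.G) u (T.tk0 (V.base.U I T.G.P0))) := by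
  have e : ∀ f, T.tk0 f = V.base.op 0 1 2 3 ![-T.G.rh', -(4 * T.G.rh + T.G.c T.G.rh), T.G.ta',
      4 * T.G.ta + T.G.c T.G.ta', 0, 0]
      (4 * (T.G.rh * T.G.rh') - 4 * (T.G.ta * T.G.ta') - 2 * T.G.P2) f := fun f => by
    simp only [tk0, Base.op, Kil.base, fr, Fin.sum_univ_six, Matrix.cons_val]
    ring
  rw [e]
  refine Base.op_U (S := V.base) (fun i => ?_) T.m_c0 T.mP0 (by
    rw [← e, tk0_P0]
    exact T.m_cub T.mP0) I u
  fin_cases i
  exacts [(T.my 1).neg, (((M.num (n := 0) 4).mul (T.my 0)).add (conj (T.my 0))).neg, T.my 3,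
    ((M.num (n := 0) 4).mul (T.my 2)).add (conj (T.my 3)), M.zero _ _ _ _, M.zero _ _ _ _]

/-- The commuted Teukolsky equation for P4. -/
theorem Kil.teuk4 (I : List κ) (u : List (Fin 6)) :
    V.base.Bd (I.length + 1 + u.length) (I.length + 3 + u.length) (2 + u.length)
      (wd (fr T.G) u (T.tk4 (V.base.U I T.G.P4))) := by
  have e : ∀ f, T.tk4 f = V.base.op 1 0 3 2 ![-(4 * T.G.rh' + T.G.c T.G.rh'), -T.G.rh,
      4 * T.G.ta' + T.G.c T.G.ta, T.G.ta, 0, 0]
      (4 * (T.G.rh * T.G.rh') - 4 * (T.G.ta * T.G.ta') - 2 * T.G.P2) f := fun f => by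
    simp only [tk4, Base.op, Kil.base, fr, Fin.sum_univ_six, Matrix.cons_val]
    ring
  rw [e]
  refine Base.op_U (S := V.base) (fun i => ?_) T.m_c0 T.mP4 (by
    rw [← e, tk4_P4]
    exact T.m_cub T.mP4) I u
  fin_cases i
  exacts [(((M.num (n := 0) 4).mul (T.my 1)).add (conj (T.my 1))).neg, (T.my 0).neg,
    ((M.num (n := 0) 4).mul (T.my 3)).add (conj (T.my 2)), T.my 2, M.zero _ _ _ _, M.zero _ _ _ _]

end Tv

end Vale.Agent.P354XF
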