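import Vale.Agent.P354XF.Fam
import Vale.Agent.P354XF.Teu

/-!
The family of frozen operators for a transverse solution and a type D reference solution.
-/

namespace Vale.Agent.P354XF

open P354XG (GHP)
open Op TensorProduct

section
variable {A A' : Type*} [CommRing A] [Algebra ℂ A] [CommRing A'] [Algebra ℂ A']

/-- The product of two GHP structures. -/
def prG (G : GHP A) (G' : GHP A') : GHP (A × A') where
  c := G.c.prodMap G'.c
  th := prD G.th G'.th
  tp := prD G.tp G'.tp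
  et := prD G.et G'.et
  ep := prD G.ep G'.ep
  H := prD G.H G'.H
  Hb := prD G.Hb G'.Hb
  ka := (G.ka, G'.ka)
  si := (G.si, G'.si)
  rh := (G.rh, G'.rh)
  ta := (G.ta, G'.ta)
  ka' := (G.ka', G'.ka')
  si' := (G.si', G'.si')
  rh' := (G.rh', G'.rh')
  ta' := (G.ta', G'.ta')
  P0 := (G.P0, G'.P0)
  P1 := (G.P1, G'.P1)
  P2 := (G.P2, G'.P2)
  P3 := (G.P3, G'.P3)
  P4 := (G.P4, G'.P4)

theorem prG_half {G : GHP A} {G' : GHP A'} (h : G.Half) (h' : G'.Half) : (prG G G').Half where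
  cc f := Prod.ext (h.cc f.1) (h'.cc f.2)
  calg z := Prod.ext (h.calg z) (h'.calg z)
  c_th f := Prod.ext (h.c_th f.1) (h'.c_th f.2)
  c_et f := Prod.ext (h.c_et f.1) (h'.c_et f.2)
  c_H f := Prod.ext (h.c_H f.1) (h'.c_H f.2)
  H_Hb f := Prod.ext (h.H_Hb f.1) (h'.H_Hb f.2)
  H_th f := Prod.ext (h.H_th f.1) (h'.H_th f.2)
  H_et f := Prod.ext (h.H_et f.1) (h'.H_et f.2)
  H_ka := Prod.ext h.H_ka h'.H_ka
  Hb_ka := Prod.ext h.Hb_ka h'.Hb_ka
  H_si := Prod.ext h.H_si h'.H_si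
  Hb_si := Prod.ext h.Hb_si h'.Hb_si
  H_rh := Prod.ext h.H_rh h'.H_rh
  Hb_rh := Prod.ext h.Hb_rh h'.Hb_rh
  H_ta := Prod.ext h.H_ta h'.H_ta
  Hb_ta := Prod.ext h.Hb_ta h'.Hb_ta
  H_P0 := Prod.ext h.H_P0 h'.H_P0
  Hb_P0 := Prod.ext h.Hb_P0 h'.Hb_P0
  H_P1 := Prod.ext h.H_P1 h'.H_P1
  Hb_P1 := Prod.ext h.Hb_P1 h'.Hb_P1
  H_P2 := Prod.ext h.H_P2 h'.H_P2
  Hb_P2 := Prod.ext h.Hb_P2 h'.Hb_P2
  th_tp f := Prod.ext (h.th_tp f.1) (h'.th_tp f.2)
  th_et f := Prod.ext (h.th_et f.1) (h'.th_et f.2)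
  et_ep f := Prod.ext (h.et_ep f.1) (h'.et_ep f.2)
  r1 := Prod.ext h.r1 h'.r1
  r2 := Prod.ext h.r2 h'.r2
  r3 := Prod.ext h.r3 h'.r3
  r4 := Prod.ext h.r4 h'.r4
  r5 := Prod.ext h.r5 h'.r5
  r6 := Prod.ext h.r6 h'.r6
  b1 := Prod.ext h.b1 h'.b1
  b2 := Prod.ext h.b2 h'.b2
  b3 := Prod.ext h.b3 h'.b3
  b4 := Prod.ext h.b4 h'.b4

/-- The product of two transverse structures. -/
def Tv.prod (T : Tv A) (T' : Tv A') : Tv (A × A') where
  G := prG T.G T'.G
  Pi := (T.Pi, T'.Pi)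
  is := ⟨prG_half T.is.h T'.is.h, prG_half T.is.p T'.is.p⟩
  h1 := Prod.ext T.h1 T'.h1
  h3 := Prod.ext T.h3 T'.h3
  inv := Prod.ext T.inv T'.inv

theorem fr_prod (G : GHP A) (G' : GHP A') (b : Fin 6) :
    fr (prG G G') b = prD (fr G b) (fr G' b) := by fin_cases b <;> rfl

theorem gam_prod (G : GHP A) (G' : GHP A') (a b e : Fin 6) :
    gam (prG G G') a b e = (gam G a b e, gam G' a b e) := by
  have : ∀ a b e, g0 (prG G G') a b e = (g0 G a b e, g0 G' a b e) := fun a b e => by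
    fin_cases a <;> fin_cases b <;> fin_cases e <;> rfl
  rw [gam, this, this]
  rfl

theorem wd_prod (G : GHP A) (G' : GHP A') (w : List (Fin 6)) (p : A × A') :
    wd (fr (prG G G')) w p = (wd (fr G) w p.1, wd (fr G') w p.2) := by
  induction w with
  | nil => rfl
  | cons b w ih => rw [wd, ih, fr_prod]; rfl

theorem wd_zero {B : Type*} (Z : B → Der A) (w : List B) : wd Z w 0 = 0 := by
  induction w <;> simp [wd, *]

end

variable {A : Type*} [CommRing A] [Algebra ℂ A]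

/-- A transverse solution T and a type D reference solution K on the same algebra, the reference
functions kf, and the change of frame. -/
structure Cmp (A : Type*) [CommRing A] [Algebra ℂ A] (ι : Type) where
  T : Tv A
  K : Tv A
  kf : ι → A
  sg : Fin 6 → Fin 6 → A
  ta : Fin 6 → Fin 6 → A
  K0 : K.G.P0 = 0
  K4 : K.G.P4 = 0
  SY : ∀ b i, fr K.G b (kf i) ∈ Algebra.adjoin ℂ (Set.range kf)
  Sy : ∀ e, K.y e ∈ Algebra.adjoin ℂ (Set.range kf) ∧
    K.G.c (K.y e) ∈ Algebra.adjoin ℂ (Set.range kf)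
  S2 : K.G.P2 ∈ Algebra.adjoin ℂ (Set.range kf) ∧ K.G.c K.G.P2 ∈ Algebra.adjoin ℂ (Set.range kf)
  ZY : ∀ b f, fr T.G b f = fr K.G b f + ∑ e, sg b e * fr K.G e f
  YZ : ∀ b f, fr K.G b f = fr T.G b f + ∑ e, ta b e * fr T.G e f

namespace Cmp

variable {ι : Type} (C : Cmp A ι)

theorem sb_zero (i : Fin 6) : C.K.sb i = 0 := by
  fin_cases i <;> simp [Tv.sb, C.K0, C.K4, C.K.ka_eq, C.K.si_eq, C.K.ka'_eq, C.K.si'_eq]

/-- The generators: pairs of a quantity on the solution and on the reference solution. -/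
def gen : Gen (Bool × Gn) (A × A) := (C.T.prod C.K).gen

theorem sb_prod (i : Fin 6) : (C.T.prod C.K).sb i = (C.T.sb i, 0) := by
  rw [← C.sb_zero i]
  fin_cases i <;> rfl

theorem jet_prod (i : Fin 6) (w : List (Fin 6)) :
    (C.T.prod C.K).val (.jet i w) = (wd (fr C.T.G) w (C.T.sb i), 0) := by
  rw [Tv.val, sb_prod]
  exact (wd_prod _ _ _ _).trans (by rw [wd_zero])

theorem mjet (i : Fin 6) (w : List (Fin 6)) :
    M C.gen (lv i + w.length) (lv i + w.length) 1 0 (wd (fr C.T.G) w (C.T.sb i), 0) :=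
  C.jet_prod i w ▸ (C.T.prod C.K).mjet i w

theorem g0_mem (a b e : Fin 6) : g0 C.K.G a b e ∈ Algebra.adjoin ℂ (Set.range C.kf) := by
  have a1 := C.Sy 0
  have a2 := C.Sy 1
  have a3 := C.Sy 2
  have a4 := C.Sy 3
  have z2 := C.sb_zero 2
  have z3 := C.sb_zero 3
  have z4 := C.sb_zero 4
  have z5 := C.sb_zero 5
  simp only [Tv.y, Tv.sb, Matrix.cons_val] at a1 a2 a3 a4 z2 z3 z4 z5
  obtain ⟨⟨_, _⟩, ⟨_, _⟩, ⟨_, _⟩, ⟨_, _⟩, _, _⟩ := And.intro a1 (And.intro a2 (And.intro a3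
    (And.intro a4 C.S2)))
  fin_cases a <;> fin_cases b <;> fin_cases e <;>
    simp only [g0, Fin.reduceFinMk, Matrix.cons_val, Pi.zero_apply, z2, z3, z4, z5, map_zero] <;>
    repeat' first
      | exact zero_mem _ | exact one_mem _ | assumption
      | apply neg_mem | apply add_mem | apply sub_mem | apply mul_mem

/-- The two frames. -/
noncomputable def duo : Duo C.gen (Fin 6) ι where
  Z := fr C.T.G
  Y := fr C.K.G
  ga := gam C.T.G
  gk := gam C.K.G
  sg := C.sg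
  ta := C.ta
  kf := C.kf
  cl0 _ := rfl
  up b := fr_prod C.T.G C.K.G b ▸ (C.T.prod C.K).up b
  mga a b e := gam_prod C.T.G C.K.G a b e ▸ (C.T.prod C.K).mga a b e
  sm0 := by
    rintro ⟨s, x⟩ h
    cases x with
    | jet i w =>
      cases s <;> simp only [gen, Tv.gen, cond, jet_prod]
      exact map_zero C.K.G.c
    | _ => exact h.elim
  commZ := C.T.comm
  commY := C.K.comm
  SY := C.SY
  Sg a b e := sub_mem (C.g0_mem a b e) (C.g0_mem b a e)
  ZY := C.ZY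
  YZ := C.YZ

/-- The coefficients of the Teukolsky operators. -/
def co0 (T : Tv A) : Fin 6 → A :=
  ![-T.G.rh', -(4 * T.G.rh + T.G.c T.G.rh), T.G.ta', 4 * T.G.ta + T.G.c T.G.ta', 0, 0]

def co4 (T : Tv A) : Fin 6 → A :=
  ![-(4 * T.G.rh' + T.G.c T.G.rh'), -T.G.rh, 4 * T.G.ta' + T.G.c T.G.ta, T.G.ta, 0, 0]

def cz (T : Tv A) : A := 4 * (T.G.rh * T.G.rh') - 4 * (T.G.ta * T.G.ta') - 2 * T.G.P2

theorem tk0_eq (T : Tv A) (f : A) : T.tk0 f = fr T.G 0 (fr T.G 1 f) - fr T.G 2 (fr T.G 3 f) +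
    ∑ c, co0 T c * fr T.G c f + cz T * f := by
  simp only [Tv.tk0, co0, cz, fr, Fin.sum_univ_six, Matrix.cons_val]
  ring

theorem tk4_eq (T : Tv A) (f : A) : T.tk4 f = fr T.G 1 (fr T.G 0 f) - fr T.G 3 (fr T.G 2 f) +
    ∑ c, co4 T c * fr T.G c f + cz T * f := by
  simp only [Tv.tk4, co4, cz, fr, Fin.sum_univ_six, Matrix.cons_val]
  ring

/-- The Teukolsky operators of the reference solution as formal operators. -/
noncomputable def o0 : Op A (Fin 6) := Duo.opO 0 1 2 3 (co0 C.K) (cz C.K)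
noncomputable def o4 : Op A (Fin 6) := Duo.opO 1 0 3 2 (co4 C.K) (cz C.K)

theorem ev_o0 (f : A) : C.o0.ev (fr C.K.G) id f = C.K.tk0 f :=
  (Duo.ev_opO _ (RingHom.id A) _ _ _ _ _ _ _).trans (tk0_eq _ f).symm

theorem ev_o4 (f : A) : C.o4.ev (fr C.K.G) id f = C.K.tk4 f :=
  (Duo.ev_opO _ (RingHom.id A) _ _ _ _ _ _ _).trans (tk4_eq _ f).symm

theorem co_mem : (∀ e, co0 C.K e ∈ C.duo.S) ∧ (∀ e, co4 C.K e ∈ C.duo.S) ∧ cz C.K ∈ C.duo.S := by
  have n4 : (4 : A) ∈ C.duo.S := ofNat_mem _ 4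
  refine ⟨fun e => ?_, fun e => ?_, sub_mem (sub_mem (mul_mem n4 (mul_mem (C.Sy 0).1 (C.Sy 1).1))
    (mul_mem n4 (mul_mem (C.Sy 2).1 (C.Sy 3).1))) (mul_mem (ofNat_mem _ 2) C.S2.1)⟩ <;> fin_cases e
  exacts [neg_mem (C.Sy 1).1, neg_mem (add_mem (mul_mem n4 (C.Sy 0).1) (C.Sy 0).2), (C.Sy 3).1,
    add_mem (mul_mem n4 (C.Sy 2).1) (C.Sy 3).2, zero_mem _, zero_mem _,
    neg_mem (add_mem (mul_mem n4 (C.Sy 1).1) (C.Sy 1).2), neg_mem (C.Sy 0).1,
    add_mem (mul_mem n4 (C.Sy 3).1) (C.Sy 2).2, (C.Sy 2).1, zero_mem _, zero_mem _]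

theorem ok_o0 : Ok C.duo.S C.o0 3 := Duo.ok_opO C.co_mem.1 C.co_mem.2.2
theorem ok_o4 : Ok C.duo.S C.o4 3 := Duo.ok_opO C.co_mem.2.1 C.co_mem.2.2

theorem m_co (T : Tv A) (e : Fin 6) : M T.gen 1 1 0 0 (co0 T e) ∧ M T.gen 1 1 0 0 (co4 T e) := by
  constructor <;> fin_cases e
  exacts [(T.my 1).neg, (((M.num (n := 0) 4).mul (T.my 0)).add (Tv.conj (T.my 0))).neg, T.my 3,
    ((M.num (n := 0) 4).mul (T.my 2)).add (Tv.conj (T.my 3)), M.zero _ _ _ _, M.zero _ _ _ _,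
    (((M.num (n := 0) 4).mul (T.my 1)).add (Tv.conj (T.my 1))).neg, (T.my 0).neg,
    ((M.num (n := 0) 4).mul (T.my 3)).add (Tv.conj (T.my 2)), T.my 2, M.zero _ _ _ _,
    M.zero _ _ _ _]

theorem m_two (i : Fin 6) (hi : lv i = 0) :
    M C.gen 1 2 2 0 (4 * ((C.T.G.si * C.T.G.si' - C.T.G.ka * C.T.G.ka') * C.T.sb i), 0) := by
  have h := C.mjet i []
  rw [hi] at h
  have := (C.T.prod C.K).m_cub h
  refine cast (congrArg (M C.gen 1 2 2 0) ?_) this
  refine Prod.ext rfl ?_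
  simp [wd]

variable {e : Op A (Fin 6)} {k : ℕ}

/-- The Teukolsky equation for the family generated by P0. -/
theorem wave0 (he : Ok C.duo.S e (k + 1)) :
    C.duo.Qa (k + 1) (k + 3) 2 (C.T.tk0 (C.duo.F e C.T.G.P0) - C.duo.F (C.o0.comp e) C.T.G.P0) ∧
    C.duo.Qa (k + 1) (k + 3) 0 (C.duo.F (e.comp C.o0) C.T.G.P0) := by
  rw [tk0_eq]
  refine Duo.wave (U := C.duo) (fun c => ?_) (C.T.prod C.K).m_c0 C.co_mem.1 C.co_mem.2.2
    (C.mjet 0 []) ?_ he
  · refine cast (congrArg _ ?_) (m_co (C.T.prod C.K) c).1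
    fin_cases c <;> rfl
  · have := C.m_two 0 rfl
    rwa [show C.T.sb 0 = C.T.G.P0 from rfl, ← Tv.tk0_P0, tk0_eq] at this

/-- The Teukolsky equation for the family generated by P4. -/
theorem wave4 (he : Ok C.duo.S e (k + 1)) :
    C.duo.Qa (k + 1) (k + 3) 2 (C.T.tk4 (C.duo.F e C.T.G.P4) - C.duo.F (C.o4.comp e) C.T.G.P4) ∧
    C.duo.Qa (k + 1) (k + 3) 0 (C.duo.F (e.comp C.o4) C.T.G.P4) := by
  rw [tk4_eq]
  refine Duo.wave (U := C.duo) (fun c => ?_) (C.T.prod C.K).m_c0 C.co_mem.2.1 C.co_mem.2.2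
    (C.mjet 1 []) ?_ he
  · refine cast (congrArg _ ?_) (m_co (C.T.prod C.K) c).2
    fin_cases c <;> rfl
  · have := C.m_two 1 rfl
    rwa [show C.T.sb 1 = C.T.G.P4 from rfl, ← Tv.tk4_P4, tk4_eq] at this

/-- If the commutator of the reference operators is u, then u gives the source of the equation. -/
theorem wave0' (hs : Span (fr C.K.G)) {u : Op A (Fin 6)} (he : Ok C.duo.S e (k + 1))
    (hu : Ok C.duo.S u (k + 3)) (h : ∀ f, C.K.tk0 (e.ev (fr C.K.G) id f) =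
      e.ev (fr C.K.G) id (C.K.tk0 f) + u.ev (fr C.K.G) id f) :
    C.duo.Qa (k + 1) (k + 3) 2 (C.T.tk0 (C.duo.F e C.T.G.P0) - C.duo.F u C.T.G.P0) := by
  have k1 := Duo.transfer' (U := C.duo) (k := k + 1) (e := C.o0.comp e)
    (e' := (e.comp C.o0).add u) hs ((C.ok_o0.comp he).mono (by omega))
    (((he.comp C.ok_o0).mono (by omega)).add hu)
    (fun f => by
      have := h f
      rwa [← ev_o0, ← ev_o0, ← ev_comp, ← ev_comp] at this) (C.mjet 0 [])
  have := ((C.wave0 he).1.add (k1.mono (by simp [lv]) (by simp [lv]) (by omega))).add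
    ((C.wave0 he).2.mono le_rfl le_rfl (by omega))
  rw [Duo.F_add] at this
  refine cast (congrArg _ ?_) this
  simp only [wd, Tv.sb, Matrix.cons_val]
  ring

theorem wave4' (hs : Span (fr C.K.G)) {u : Op A (Fin 6)} (he : Ok C.duo.S e (k + 1))
    (hu : Ok C.duo.S u (k + 3)) (h : ∀ f, C.K.tk4 (e.ev (fr C.K.G) id f) =
      e.ev (fr C.K.G) id (C.K.tk4 f) + u.ev (fr C.K.G) id f) :
    C.duo.Qa (k + 1) (k + 3) 2 (C.T.tk4 (C.duo.F e C.T.G.P4) - C.duo.F u C.T.G.P4) := by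
  have k1 := Duo.transfer' (U := C.duo) (k := k + 1) (e := C.o4.comp e)
    (e' := (e.comp C.o4).add u) hs ((C.ok_o4.comp he).mono (by omega))
    (((he.comp C.ok_o4).mono (by omega)).add hu)
    (fun f => by
      have := h f
      rwa [← ev_o4, ← ev_o4, ← ev_comp, ← ev_comp] at this) (C.mjet 1 [])
  have := ((C.wave4 he).1.add (k1.mono (by simp [lv]) (by simp [lv]) (by omega))).add
    ((C.wave4 he).2.mono le_rfl le_rfl (by omega))
  rw [Duo.F_add] at this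
  refine cast (congrArg _ ?_) this
  simp only [wd, Tv.sb, Matrix.cons_val]
  ring

end Cmp

/-- The weights of formal operators. -/
inductive Op.Wt {B : Type*} (V : Der A) (lam : B → ℂ) : Op A B → ℂ → Prop
  | one : Wt V lam .one 0
  | zero (p : ℂ) : Wt V lam .zero p
  | smul {a : A} {e : Op A B} {p q : ℂ} : V a = q • a → Wt V lam e p → Wt V lam (.smul a e) (q + p)
  | der (b : B) {e : Op A B} {p : ℂ} : Wt V lam e p → Wt V lam (.der b e) (lam b + p)
  | add {e e' : Op A B} {p : ℂ} : Wt V lam e p → Wt V lam e' p → Wt V lam (.add e e') p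

/-- The exact weights of the family when the vertical field V is common to both frames. -/
theorem Duo.F_wt {G : Type*} {g : Gen G (A × A)} {B ι : Type} [Fintype B] (U : Duo g B ι)
    {V : Der A} {lam : B → ℂ} (hZ : ∀ b f, V (U.Z b f) = U.Z b (V f) + lam b • U.Z b f)
    (hY : ∀ b f, V (U.Y b f) = U.Y b (V f) + lam b • U.Y b f) {f : A} {q p : ℂ} (hf : V f = q • f)
    {e : Op A B} (he : e.Wt V lam p) : V (U.F e f) = (p + q) • U.F e f := by
  set W : Der (Duo.Rg A) := tD (prD V V) (prD V V) with hW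
  have h1 : ∀ P, Duo.e1 A (W P) = V (Duo.e1 A P) := fun P => by
    induction P using TensorProduct.induction_on with
    | zero => simp
    | add p p' k1 k2 => simp only [map_add, k1, k2]
    | tmul p q => simp [hW, tD_ap, Duo.e1_ap, prD_ap, mul_comm, add_comm]
  have h2 : ∀ b P, W (U.dl b P) = U.dl b (W P) + lam b • U.dl b P := fun b P => by
    have := tD_ext (d := ⁅W, U.dl b⁆) (d' := lam b • U.dl b) (fun p => by
      simp only [Derivation.commutator_apply, hW, Duo.dl, tD_ap, Derivation.map_one_eq_zero,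
        tmul_zero, add_zero, ← sub_tmul, Derivation.smul_apply, smul_tmul']
      refine congrArg (· ⊗ₜ[ℂ] 1) (Prod.ext ?_ ?_) <;> simp [prD_ap, hZ, hY]) (fun p => by
      simp only [Derivation.commutator_apply, hW, Duo.dl, tD_ap, Derivation.map_one_eq_zero,
        zero_tmul, zero_add, ← tmul_sub, Derivation.smul_apply, ← tmul_smul]
      refine congrArg ((1 : A × A) ⊗ₜ[ℂ] ·) (Prod.ext ?_ ?_) <;> simp [prD_ap, hY]) P
    rw [Derivation.commutator_apply, Derivation.smul_apply] at this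
    rw [← this, add_sub_cancel]
  have h3 : W (U.Fr e f) = (p + q) • U.Fr e f := by
    unfold Duo.Fr
    induction he with
    | one => simp [ev, hW, tD_ap, prD_ap, hf, smul_tmul']
    | zero => simp [ev]
    | @smul a e p r ha _ ih =>
      have : W (Duo.io A a) = r • Duo.io A a := by
        rw [← map_smul, ← ha]
        simp [hW, tD_ap, prD_ap, Duo.io_ap]
      simp only [ev, Derivation.leibniz, ih, this, smul_eq_mul, mul_smul_comm, add_smul,
        mul_add]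
      ring
    | der b _ ih =>
      rw [ev, h2, ih, Derivation.map_smul, ← add_smul]
      exact congrArg (· • _) (by ring)
    | add _ _ k1 k2 => simp only [ev, map_add, k1, k2, smul_add]
  rw [Duo.F, ← h1, h3, map_smul]

end Vale.Agent.P354XF
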