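import Vale.Agent.P354XF.Abs

/-!
The pointwise inequalities for the family.
-/

namespace Vale.Agent.P354XF

open Filter

variable {A : Type*} [CommRing A] [Algebra ℂ A] {ι : Type}

theorem ev_words {κ : Type} [Finite κ] (m : ℕ) {p : List κ → ℝ → Prop}
    (h : ∀ J, J.length ≤ m → ∀ᶠ C in atTop, p J C) :
    ∀ᶠ C in atTop, ∀ J, J.length ≤ m → p J C :=
  (eventually_all_finite (List.finite_length_le κ m)).2 h

theorem ev_le (m : ℕ) {p : ℕ → ℝ → Prop} (h : ∀ j ≤ m, ∀ᶠ C in atTop, p j C) :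
    ∀ᶠ C in atTop, ∀ j ≤ m, p j C := (eventually_all_finite (Set.finite_le_nat m)).2 h

theorem ev_imp {q : Prop} {p : ℝ → Prop} (h : q → ∀ᶠ C in atTop, p C) :
    ∀ᶠ C in atTop, q → p C := by
  by_cases k : q
  · exact (h k).mono fun _ h _ => h
  · exact .of_forall fun _ h => absurd h k

namespace Brg

variable (b : Brg A ι)

/-- The hypotheses at the point φ: the coefficients are bounded by K, and the distance to the
reference solution is at most d. -/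
structure Pq (L N : ℕ) (K d : ℝ) (φ : A →ₐ[ℂ] ℂ) : Prop where
  cj : ∀ f, ‖φ (b.T.G.c f)‖ = ‖φ f‖
  big : ∀ x, ¬ b.gen.sm x → ‖φ (b.gen.x x).1‖ ≤ K ∧ ‖φ (b.gen.x x).2‖ ≤ K ∧
    ‖φ (b.gen.x x).1 - φ (b.gen.x x).2‖ ≤ d
  ref : ∀ i, ‖φ (b.kf i)‖ ≤ K
  jet : ∀ c e w, List.length w < L →
    ‖φ (wd b.Y w (b.sg c e))‖ ≤ d ∧ ‖φ (wd b.Y w (b.ta c e))‖ ≤ d
  low : ∀ i w, lv i + List.length w ≤ N / 2 → ‖φ (wd (fr b.T.G) w (b.T.sb i))‖ ≤ d
  one : d ≤ 1
  dK : d ≤ K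

/-- The members of level at most m are bounded by x. -/
def Nb (φ : A →ₐ[ℂ] ℂ) (σ : Bool) (m : ℕ) (x : ℝ) : Prop :=
  ∀ J : List (Fin 5), J.length ≤ m → ‖φ (b.fm σ J)‖ ≤ x

/-- The inequalities; t is the top level. -/
structure Out (t L : ℕ) (C d : ℝ) (φ : A →ₐ[ℂ] ℂ) : Prop where
  jets : ∀ m ≤ t, ∀ x, (∀ σ, b.Nb φ σ m x) → ∀ i w, lv i + List.length w ≤ m →
    ‖φ (wd (fr b.T.G) w (b.T.sb i))‖ ≤ C * x
  up : ∀ σ J, List.length J ≤ t → ∀ p,
    (∀ w, List.length w ≤ J.length → ‖φ (wd (fr b.T.G) w (b.T.ps σ))‖ ≤ p) → ‖φ (b.fm σ J)‖ ≤ C * p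
  del : ∀ a a' J, List.length J + 1 ≤ L → ‖φ (wd b.X J (b.del a a'))‖ ≤ C * d
  hon : ∀ σ (J J' : List (Fin 5)), J.length ≤ L → J.length + J'.length ≤ t →
    ∀ x, (∀ σ, b.Nb φ σ t x) → ‖φ (wd b.X J (b.fm σ J') - b.fm σ (J ++ J'))‖ ≤ C * d * x
  eqY : ∀ σ (W J : List (Fin 5)), (∀ c ∈ W, c = 0 ∨ c = 4) → J.length + 2 ≤ L →
    W.length + J.length + 1 ≤ t → ∀ x, (∀ σ, b.Nb φ σ t x) →
    ‖φ (wd b.X J (b.P (spn σ) (spn σ) (b.fm σ W) + b.Q (b.fm σ W)))‖ ≤ C * d * x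
  swap : ∀ σ c e (p q : List (Fin 5)), p.length + q.length + 1 ≤ t →
    ∀ x, (∀ σ, b.Nb φ σ t x) → ∀ y, b.Nb φ σ (p.length + q.length + 1) y →
    ‖φ (b.fm σ (p ++ c :: e :: q) - b.fm σ (p ++ e :: c :: q))‖ ≤ C * (y + d * x)
  eqA : ∀ σ (J : List (Fin 5)), J.length + 1 ≤ t → ∀ x, (∀ σ, b.Nb φ σ t x) →
    ∀ y, b.Nb φ σ (J.length + 1) y →
    ‖φ (b.P (spn σ) (spn σ) (b.fm σ J) + b.Q (b.fm σ J))‖ ≤ C * (y + d * x)
  eqR : ∀ σ (j : ℕ) (W : List (Fin 5)), (∀ c ∈ W, c = 0 ∨ c = 4) → j + W.length + 1 ≤ t →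
    ∀ x, (∀ σ, b.Nb φ σ t x) → ∀ y, b.Nb φ σ (j + W.length) y →
    ‖φ (b.P (spn σ - j) (spn σ) (b.fm σ (List.replicate j 1 ++ W)) +
      b.Q (b.fm σ (List.replicate j 1 ++ W)))‖ ≤ C * (y + d * x)

variable {b} {L N t m j n l : ℕ} {K d x : ℝ} {φ : A →ₐ[ℂ] ℂ} {σ : Bool} {f : A}

theorem Nb.nn (h : b.Nb φ σ m x) : 0 ≤ x := (norm_nonneg _).trans (h [] (Nat.zero_le _))

theorem Nb.mono (h : b.Nb φ σ m x) (e : j ≤ m) : b.Nb φ σ j x := fun J k => h J (k.trans e)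

theorem Pq.nn (q : b.Pq L N K d φ) : 0 ≤ d := (norm_nonneg _).trans (q.low 0 [] (Nat.zero_le _))

theorem Pq.small (q : b.Pq L N K d φ) (x) (h : b.gen.sm x) :
    ‖φ (b.gen.x x).1‖ ≤ b.T.al φ (b.gen.lev x) := by
  obtain ⟨s, x⟩ := x
  cases x with
  | jet i w =>
    have := b.T.le_al φ i w le_rfl
    cases s <;> simp only [Cmp.gen, Tv.gen, cond, Cmp.jet_prod]
    exacts [this, (q.cj _).trans_le this]
  | _ => exact h.elim

theorem Pq.pt (q : b.Pq L N K d φ) : b.U.Pt L N K d d (b.T.al φ) φ :=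
  ⟨q.big, q.small, q.ref, q.jet, b.T.al_mono φ, b.T.al_nn φ 0, b.T.al_le φ q.low, q.one, q.nn, q.dK⟩

theorem Pq.sz (q : b.Pq L N K d φ) :
    Sz (b.T.prod b.K).gen L N K d (b.T.al φ) (φ.comp (AlgHom.fst ℂ A A)) :=
  ⟨fun x h _ => (q.big x h).1, q.small, q.pt.mono, q.pt.pos, q.pt.half, q.one⟩

variable (b) in
/-- Statements which hold for all large constants at the points of small distance. -/
def Al (L N : ℕ) (K : ℝ) (p : ℝ → ℝ → (A →ₐ[ℂ] ℂ) → Prop) : Prop :=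
  ∀ᶠ C in atTop, ∀ d φ, b.Pq L N K d φ → C * d ≤ 1 → p C d φ

variable (h : b.Is)
include h

theorem Is.al_le (hm : m + 2 ≤ N) :
    b.Al L N K fun C _ φ => ∀ x, (∀ σ, b.Nb φ σ m x) → b.T.al φ m ≤ C * x := by
  have k1 : ∀ᶠ C in atTop, ∀ σ, ∀ w : List (Fin 6), w.length ≤ m → ∀ d φ, b.Pq L N K d φ → ∀ x,
      b.Nb φ σ m x → ‖φ (wd (fr b.T.G) w (b.T.ps σ))‖ ≤ C * (x + (d + d) * b.T.al φ m) :=
    eventually_all.2 fun σ => ev_words m fun w hw => by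
      obtain ⟨C, c0, k⟩ := (h.jets σ w).bd K
      filter_upwards [eventually_ge_atTop C] with C' hC d φ q x hx
      have := q.nn
      have := hx.nn
      have := b.T.al_nn φ w.length
      exact (k L N d d _ φ q.pt (Nat.zero_le _) (by omega) x (hx.mono hw)).trans
        (mul_le_mul hC (by gcongr; exact b.T.al_mono φ hw) (by positivity) (c0.trans hC))
  have k2 : ∀ᶠ C in atTop, ∀ i, ∀ w : List (Fin 6), w.length ≤ m → lv i + w.length ≤ m → ∀ d φ,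
      b.Pq L N K d φ → ∀ p, (∀ σ, ∀ w : List (Fin 6), w.length ≤ m →
        ‖φ (wd (fr b.T.G) w (b.T.ps σ))‖ ≤ p) →
      ‖φ (wd (fr b.T.G) w (b.T.sb i))‖ ≤ C * (p + d * b.T.al φ m) :=
    eventually_all.2 fun i => ev_words m fun w _ => ev_imp fun hw => by
      obtain ⟨C, c0, k⟩ := (Tv.Lp.jet (b.T.prod b.K) i w).bd K
      filter_upwards [eventually_ge_atTop C] with C' hC d φ q p hp
      have := q.nn
      have := (norm_nonneg _).trans (hp true [] (Nat.zero_le _))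
      have := b.T.al_nn φ (lv i + w.length)
      have e := k L N d _ _ q.sz (by omega) p fun s w' hw' => by
        rw [b.toCmp.wd_pp]
        simpa [Tv.ps] using hp (!s) w' (by omega)
      rw [show wd _ w ((b.T.prod b.K).sb i) = _ from b.toCmp.jet_prod i w] at e
      exact e.trans (mul_le_mul hC (by gcongr; exact b.T.al_mono φ hw) (by positivity)
        (c0.trans hC))
  obtain ⟨C1, k1, c1⟩ := (k1.and (eventually_ge_atTop 0)).exists
  obtain ⟨C2, k2, c2⟩ := (k2.and (eventually_ge_atTop 0)).exists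
  filter_upwards [eventually_ge_atTop (2 * (2 * C1 * C2 + C2))] with C hC d φ q hd x hx
  have a1 := q.nn
  have a2 := (hx true).nn
  have a3 := b.T.al_nn φ m
  have e := b.T.al_le φ fun i w hw => k2 i w (by omega) hw d φ q _ fun σ w hw =>
    k1 σ w hw d φ q x (hx σ)
  have e1 := mul_le_mul_of_nonneg_right ((mul_le_mul_of_nonneg_right hC a1).trans hd) a3
  have e2 := mul_le_mul_of_nonneg_right hC a2
  nlinarith [mul_nonneg c2 a2, mul_nonneg (mul_nonneg c1 c2) a2]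

theorem Is.al_q (hf : b.U.Qa j n l f) (h1 : j ≤ t) (h2 : n ≤ t + 2) (h3 : l ≤ L) :
    b.Al L (t + 2) K fun C d φ => ∀ x, (∀ σ, b.Nb φ σ t x) → ‖φ f‖ ≤ C * d * x := by
  obtain ⟨C0, k0⟩ := eventually_atTop.1 ((h.al_le (L := L) (K := K) (le_refl (t + 2))).and
    (eventually_ge_atTop 0))
  obtain ⟨C1, c1, k1⟩ := hf.bd K
  obtain ⟨k0, c0⟩ := k0 C0 le_rfl
  filter_upwards [eventually_ge_atTop C0, eventually_ge_atTop (2 * C1 * C0)] with C hC hC' d φ q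
    hd x hx
  have a1 := q.nn
  have e := (b.T.al_mono φ h1).trans
    (k0 d φ q ((mul_le_mul_of_nonneg_right hC a1).trans hd) x hx)
  refine (k1 L _ d d _ φ q.pt h3 h2).trans ?_
  have := (hx true).nn
  calc C1 * ((d + d) * b.T.al φ j) ≤ C1 * ((d + d) * (C0 * x)) := by gcongr
    _ = 2 * C1 * C0 * d * x := by ring
    _ ≤ C * d * x := by gcongr

theorem Is.al_c (hf : b.Cq σ m j n l f) (h1 : j ≤ t) (h2 : n ≤ t + 2) (h3 : l ≤ L) :
    b.Al L (t + 2) K fun C d φ => ∀ x, (∀ σ, b.Nb φ σ t x) → ∀ y, b.Nb φ σ m y →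
      ‖φ f‖ ≤ C * (y + d * x) := by
  obtain ⟨g, k1, k2⟩ := hf
  obtain ⟨C1, c1, k1⟩ := k1.bd K
  filter_upwards [h.al_q (K := K) k2 h1 h2 h3, eventually_ge_atTop C1] with C k2 hC d φ q hd x hx
    y hy
  rw [← add_sub_cancel g f, map_add, mul_add, ← mul_assoc]
  exact norm_add_le_of_le ((k1 L _ d d _ φ q.pt y hy).trans (mul_le_mul_of_nonneg_right hC hy.nn))
    (k2 d φ q hd x hx)

/-- All inequalities hold with one constant. -/
theorem Is.out (t L : ℕ) (hL : 2 ≤ L) (K : ℝ) : b.Al L (t + 2) K fun C d φ => b.Out t L C d φ := by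
  have k1 := ev_le t fun m hm => h.al_le (L := L) (K := K) (show m + 2 ≤ t + 2 by omega)
  have k2 : ∀ᶠ C in atTop, ∀ σ, ∀ J : List (Fin 5), J.length ≤ t → ∀ d φ, b.Pq L (t + 2) K d φ →
      ∀ p, (∀ w, List.length w ≤ J.length → ‖φ (wd (fr b.T.G) w (b.T.ps σ))‖ ≤ p) →
        ‖φ (b.fm σ J)‖ ≤ C * p := eventually_all.2 fun σ => ev_words t fun J _ => by
    obtain ⟨C, -, k⟩ := (Duo.Cj.Fr (U := b.U) (h.ok_fm σ J) (b.T.ps σ)).bd K
    filter_upwards [eventually_ge_atTop C] with C' hC d φ q p hp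
    exact (k _ _ _ _ _ φ q.pt p hp).trans
      (mul_le_mul_of_nonneg_right hC ((norm_nonneg _).trans (hp [] (Nat.zero_le _))))
  have k3 : ∀ᶠ C in atTop, ∀ a a', ∀ J : List (Fin 5), J.length ≤ L → J.length + 1 ≤ L → ∀ d φ,
      b.Pq L (t + 2) K d φ → ‖φ (wd b.X J (b.del a a'))‖ ≤ C * d :=
    eventually_all.2 fun a => eventually_all.2 fun a' => ev_words L fun J _ => ev_imp fun hJ => by
      obtain ⟨C, -, k⟩ := (h.g_del a a' J).bd K
      filter_upwards [eventually_ge_atTop C] with C' hC d φ q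
      exact (k _ _ _ _ _ φ q.pt hJ).trans (mul_le_mul_of_nonneg_right hC q.nn)
  have k4 := eventually_all.2 fun σ => ev_words L fun J hJ => ev_words t fun J' _ =>
    ev_imp fun hJ' : J.length + J'.length ≤ t => h.al_q (K := K) (h.hon σ J J') hJ' (by omega) hJ
  have k5 := eventually_all.2 fun σ => ev_words t fun W _ => ev_words t fun J _ =>
    ev_imp fun hW : ∀ c ∈ W, c = 0 ∨ c = 4 => ev_imp fun h1 : J.length + 2 ≤ L =>
    ev_imp fun h2 : W.length + J.length + 1 ≤ t =>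
      h.al_q (K := K) (t := t) (L := L) (h.eqY σ hW J) (by omega) (by omega) (by omega)
  have k6 := eventually_all.2 fun σ => eventually_all.2 fun c => eventually_all.2 fun e =>
    ev_words t fun p _ => ev_words t fun q _ => ev_imp fun h1 : p.length + q.length + 1 ≤ t =>
      h.al_c (K := K) (L := L) (h.swap σ p q c e) h1 (by omega) (by omega)
  have k7 := eventually_all.2 fun σ => ev_words t fun J _ => ev_imp fun h1 : J.length + 1 ≤ t =>
    h.al_c (K := K) (h.eqA σ J) h1 (by omega) hL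
  have k8 := eventually_all.2 fun σ => ev_le t fun j _ => ev_words t fun W _ =>
    ev_imp fun hW : ∀ c ∈ W, c = 0 ∨ c = 4 => ev_imp fun h1 : j + W.length + 1 ≤ t =>
      h.al_c (K := K) (h.eqR σ hW j) h1 (by omega) hL
  filter_upwards [k1, k2, k3, k4, k5, k6, k7, k8] with C k1 k2 k3 k4 k5 k6 k7 k8 d φ q hd
  exact ⟨fun m hm x hx i w hw => (b.T.le_al φ i w hw).trans (k1 m hm d φ q hd x hx),
    fun σ J hJ => k2 σ J hJ d φ q, fun a a' J h1 => k3 a a' J (by omega) h1 d φ q,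
    fun σ J J' h1 h3 => k4 σ J h1 J' (by omega) h3 d φ q hd,
    fun σ W J h3 h4 h5 => k5 σ W (by omega) J (by omega) h3 h4 h5 d φ q hd,
    fun σ c e p p' h3 => k6 σ c e p (by omega) p' (by omega) h3 d φ q hd,
    fun σ J h2 => k7 σ J (by omega) h2 d φ q hd,
    fun σ j W h3 h4 => k8 σ j (by omega) W (by omega) h3 h4 d φ q hd⟩

omit h in
theorem Out.mono {C C' d' : ℝ} (o : b.Out t L C d φ) (h0 : 0 ≤ d) (h1 : 0 ≤ C) (hC : C ≤ C')
    (hd : d ≤ d') : b.Out t L C' d' φ := by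
  have := h1.trans hC
  have := h0.trans hd
  have k1 : ∀ {x u : ℝ} {m : ℕ}, (∀ σ, b.Nb φ σ m x) → u ≤ C * d * x → u ≤ C' * d' * x :=
    fun hx h => h.trans (by have := (hx true).nn; gcongr)
  have k2 : ∀ {x y u : ℝ} {σ : Bool} {m : ℕ}, (∀ σ, b.Nb φ σ t x) → b.Nb φ σ m y →
      u ≤ C * (y + d * x) → u ≤ C' * (y + d' * x) :=
    fun hx hy h => h.trans (by have := (hx true).nn; have := hy.nn; gcongr)
  exact ⟨fun m hm x hx i w hw => (o.jets m hm x hx i w hw).trans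
      (mul_le_mul_of_nonneg_right hC (hx true).nn),
    fun σ J hJ p hp => (o.up σ J hJ p hp).trans
      (mul_le_mul_of_nonneg_right hC ((norm_nonneg _).trans (hp [] (Nat.zero_le _)))),
    fun a a' J hJ => (o.del a a' J hJ).trans (by gcongr),
    fun σ J J' e1 e2 x hx => k1 hx (o.hon σ J J' e1 e2 x hx),
    fun σ W J e1 e2 e3 x hx => k1 hx (o.eqY σ W J e1 e2 e3 x hx),
    fun σ c e p q e1 x hx y hy => k2 hx hy (o.swap σ c e p q e1 x hx y hy),
    fun σ J e1 x hx y hy => k2 hx hy (o.eqA σ J e1 x hx y hy),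
    fun σ j W e1 e2 x hx y hy => k2 hx hy (o.eqR σ j W e1 e2 x hx y hy)⟩

omit h in
theorem Pq.mono {L' N' : ℕ} {K' d' : ℝ} (q : b.Pq L N K d φ) (e1 : L' ≤ L) (e2 : N' ≤ N)
    (e3 : K ≤ K') (e4 : d ≤ d') (e5 : d' ≤ 1) (e6 : d' ≤ K') : b.Pq L' N' K' d' φ :=
  ⟨q.cj, fun x h => ⟨(q.big x h).1.trans e3, (q.big x h).2.1.trans e3, (q.big x h).2.2.trans e4⟩,
    fun i => (q.ref i).trans e3, fun c e w h => ⟨(q.jet c e w (by omega)).1.trans e4,
      (q.jet c e w (by omega)).2.trans e4⟩, fun i w h => (q.low i w (by omega)).trans e4, e5, e6⟩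

end Brg

end Vale.Agent.P354XF
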