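import Vale.Agent.P354XF.Da

/-!
The family of the words in the five fields T, R, L 0, L 1, L 2 of the reference solution.
-/

namespace Vale.Agent.P354XF

open Op

/-- The weights of the letters. -/
def lam (v : Bool) : Fin 6 → ℂ := cond v ![1, -1, -1, 1, 0, 0] ![1, -1, 1, -1, 0, 0]

/-- The vertical letters. -/
def vt (v : Bool) : Fin 6 := cond v 5 4

/-- The spin, and the weights of the variable. -/
def spn (σ : Bool) : ℂ := cond σ 2 (-2)
def wgt (σ v : Bool) : ℂ := cond v (-spn σ) (spn σ)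

variable {A : Type*} [CommRing A] [Algebra ℂ A]

/-- The terms of the operator P s k. -/
noncomputable def PL (r M a w : A) (s k : ℂ) : List (A × List (Fin 5)) :=
  [(r * r - 2 * M * r + a * a, [1, 1]), (algebraMap ℂ A (1 - s) * (2 * r - 2 * M), [1]),
    (2 * (r * r + a * a), [0, 1]), (2 * a, [4, 1]), (algebraMap ℂ A (2 * (1 - 2 * s)) * r, [0]),
    (algebraMap ℂ A (s ^ 2 - s), []), (1, [2, 2]), (1, [3, 3]), (1, [4, 4]),
    (a * a * (1 - w * w), [0, 0]), (2 * a, [0, 4]), (-(algebraMap ℂ A (2 * k * Complex.I) * a * w), [0])]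

noncomputable def PP (X : Fin 5 → Der A) (r M a w : A) (s k : ℂ) (u : A) : A :=
  ((PL r M a w s k).map fun p => p.1 * wd X p.2 u).sum

/-- The curvature components and their operators. -/
def Tv.ps (T : Tv A) (σ : Bool) : A := T.pp (!σ)
def Tv.tk (T : Tv A) (σ : Bool) (f : A) : A := cond σ (T.tk0 f) (T.tk4 f)

/-- The data. -/
structure Brg (A : Type*) [CommRing A] [Algebra ℂ A] (ι : Type) extends Cmp A ι where
  X : Fin 5 → Der A
  cX : Fin 5 → Fin 6 → A
  yX : Fin 6 → Fin 5 → A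
  vX : Fin 6 → Bool → A
  w : Bool → A
  wi : Bool → A
  sm : A
  smi : A
  r : A
  M : A
  a : A
  x : A
  e : Bool → Bool → Fin 6 → A
  u : Bool → Bool → A

namespace Brg

variable {ι : Type} (b : Brg A ι)

/-- The reference frame, the reference functions and the operator P. -/
abbrev Y : Fin 6 → Der A := fr b.K.G
noncomputable abbrev U : Duo b.gen (Fin 6) ι := b.toCmp.duo
noncomputable abbrev S : Subalgebra ℂ A := b.U.S
noncomputable abbrev P (s k : ℂ) (u : A) : A := PP b.X b.r b.M b.a b.x s k u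

/-- The relations. -/
structure Is : Prop where
  span : Span b.Y
  vert : ∀ v, fr b.T.G (vt v) = b.Y (vt v)
  cX : ∀ a e, b.cX a e ∈ b.S
  yX : ∀ e a, b.yX e a ∈ b.S
  vX : ∀ e v, b.vX e v ∈ b.S
  w : ∀ σ, b.w σ ∈ b.S
  wi : ∀ σ, b.wi σ ∈ b.S
  sm : b.sm ∈ b.S
  smi : b.smi ∈ b.S
  r : b.r ∈ b.S
  M : b.M ∈ b.S
  a : b.a ∈ b.S
  x : b.x ∈ b.S
  e : ∀ σ v c, b.e σ v c ∈ b.S
  u : ∀ σ v, b.u σ v ∈ b.S
  XY : ∀ a f, b.X a f = ∑ e, b.cX a e * b.Y e f
  YX : ∀ e f, b.Y e f = ∑ a, b.yX e a * b.X a f + ∑ v, b.vX e v * b.Y (vt v) f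
  VX : ∀ v a f, b.Y (vt v) (b.X a f) = b.X a (b.Y (vt v) f)
  ww : ∀ σ, b.w σ * b.wi σ = 1
  ss : b.sm * b.smi = 1
  Vw : ∀ σ v, b.Y (vt v) (b.wi σ) = (-spn σ) • b.wi σ
  teu : ∀ σ f, b.K.tk σ (b.w σ * f) = b.w σ * (-(b.sm * b.P (spn σ) (spn σ) f) +
    ∑ v, (∑ c, b.e σ v c * b.Y c (b.Y (vt v) f - wgt σ v • f) +
      b.u σ v * (b.Y (vt v) f - wgt σ v • f)))
  RP : ∀ s k f, b.X 1 (b.P s k f) =
    b.P (s - 1) k (b.X 1 f) + algebraMap ℂ A (2 * (1 - 2 * s)) * b.X 0 f
  YP : ∀ c, c = 0 ∨ c = 4 → ∀ s k f, b.X c (b.P s k f) = b.P s k (b.X c f)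

/-- The words as formal operators. -/
noncomputable def XO (a : Fin 5) (e : Op A (Fin 6)) : Op A (Fin 6) :=
  lsum (Finset.univ.toList.map fun c => .smul (b.cX a c) (.der c e))

noncomputable def XW (e : Op A (Fin 6)) : List (Fin 5) → Op A (Fin 6)
  | [] => e
  | a :: J => b.XO a (XW e J)

noncomputable def OP (s k : ℂ) (e : Op A (Fin 6)) : Op A (Fin 6) :=
  lsum ((PL b.r b.M b.a b.x s k).map fun p => .smul p.1 (b.XW e p.2))

/-- The family. -/
noncomputable def e0 (σ : Bool) : Op A (Fin 6) := .smul (b.wi σ) .one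
noncomputable def fm (σ : Bool) (J : List (Fin 5)) : A := b.U.F (b.XW (b.e0 σ) J) (b.T.ps σ)

/-- The components of the frame of the solution and the perturbation. -/
noncomputable def zX (c : Fin 6) (a : Fin 5) : A := b.yX c a + ∑ e, b.sg c e * b.yX e a
noncomputable def E (c d : Fin 6) (a a' : Fin 5) : A := b.zX c a * b.zX d a' - b.yX c a * b.yX d a'
noncomputable def del (a a' : Fin 5) : A :=
  -(b.smi * (algebraMap ℂ A (1 / 2) * (b.E 0 1 a a' + b.E 1 0 a a' - b.E 2 3 a a' - b.E 3 2 a a')))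
noncomputable def Q (u : A) : A := ∑ a, ∑ a', b.del a a' * b.X a (b.X a' u)

theorem ev_XO {R : Type*} [CommRing R] [Algebra ℂ R] (D : Fin 6 → Der R) (i : A → R) (a : Fin 5)
    (e : Op A (Fin 6)) (P : R) : (b.XO a e).ev D i P = ∑ c, i (b.cX a c) * D c (e.ev D i P) := by
  simp [XO, ev_lsum, ev, Function.comp_def]

theorem ev_XW' {R : Type*} [CommRing R] [Algebra ℂ R] (D : Fin 6 → Der R) (i : A → R)
    (e : Op A (Fin 6)) (J : List (Fin 5)) (P : R) :
    (b.XW e J).ev D i P = (b.XW .one J).ev D i (e.ev D i P) := by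
  induction J with
  | nil => rfl
  | cons a J ih => simp only [XW, ev_XO, ih]

theorem XW_append (e : Op A (Fin 6)) (J J' : List (Fin 5)) :
    b.XW e (J ++ J') = b.XW (b.XW e J') J := by
  induction J with
  | nil => rfl
  | cons a J ih => simp only [List.cons_append, XW, ih]

theorem F_XO (a : Fin 5) (e : Op A (Fin 6)) (f : A) :
    b.U.F (b.XO a e) f = ∑ c, b.cX a c * b.U.F (.der c e) f := by
  simp [XO, Duo.F_lsum, Duo.F_smul, Function.comp_def]

theorem mps (σ : Bool) : P354XF.M b.gen 0 0 1 0 (b.T.ps σ, 0) := b.toCmp.m_pp (!σ) []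

variable {b} (h : b.Is) {j n l k m : ℕ} {e : Op A (Fin 6)} {f : A}
include h

theorem Is.ev_XW (e : Op A (Fin 6)) (J : List (Fin 5)) (f : A) :
    (b.XW e J).ev b.Y id f = wd b.X J (e.ev b.Y id f) := by
  induction J with
  | nil => rfl
  | cons a J ih => simp only [XW, ev_XO, ih, wd, h.XY, id]

theorem Is.ev_OP (s k : ℂ) (e : Op A (Fin 6)) (f : A) :
    (b.OP s k e).ev b.Y id f = b.P s k (e.ev b.Y id f) := by
  simp only [OP, ev_lsum, List.map_map, Function.comp_def, ev, h.ev_XW, id, PP]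

theorem Is.ok_XW (he : Ok b.S e (k + 1)) (J : List (Fin 5)) : Ok b.S (b.XW e J) (k + J.length + 1) := by
  induction J with
  | nil => exact he
  | cons a J ih =>
    refine Ok.lsum ?_
    simp only [List.mem_map]
    rintro _ ⟨c, -, rfl⟩
    exact (ih.der c).smul (h.cX a c)

theorem Is.PL_mem (s k : ℂ) : ∀ p ∈ PL b.r b.M b.a b.x s k, p.1 ∈ b.S ∧ p.2.length ≤ 2 := by
  have := h.r
  have := h.M
  have := h.a
  have := h.x
  have : (2 : A) ∈ b.S := ofNat_mem _ 2
  simp only [PL, List.forall_mem_cons, List.length_cons, List.length_nil, List.not_mem_nil,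
    false_imp_iff, implies_true, and_true, Nat.reduceAdd, Nat.reduceLeDiff, le_refl]
  refine ⟨?_, ?_, ?_, ?_, ?_, ?_, ?_, ?_, ?_, ?_, ?_, ?_⟩ <;> repeat' first
    | assumption | exact one_mem _ | exact Subalgebra.algebraMap_mem _ _
    | apply neg_mem | apply add_mem | apply sub_mem | apply mul_mem

theorem Is.ok_OP (s k' : ℂ) (he : Ok b.S e (k + 1)) : Ok b.S (b.OP s k' e) (k + 3) := by
  refine Ok.lsum ?_
  simp only [List.mem_map]
  rintro _ ⟨p, hp, rfl⟩
  have := h.PL_mem s k' p hp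
  exact ((h.ok_XW he p.2).mono (by omega)).smul this.1

theorem Is.ok_e0 (σ : Bool) : Ok b.S (b.e0 σ) 1 := (Ok.one 0).smul (h.wi σ)

theorem Is.ok_fm (σ : Bool) (J : List (Fin 5)) : Ok b.S (b.XW (b.e0 σ) J) (J.length + 1) := by
  simpa using h.ok_XW (h.ok_e0 σ) J

theorem Is.m_fm (σ : Bool) (J : List (Fin 5)) : b.U.Ma J.length J.length 1 0 (b.fm σ J) := by
  simpa [fm] using Duo.Ma.F (h.ok_fm σ J) (b.mps σ)

theorem Is.qX (a : Fin 5) (q : b.U.Qa j n l f) : b.U.Qa (j + 1) (n + 1) (l + 1) (b.X a f) := by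
  rw [h.XY]
  exact Duo.Qa.sum _ fun c _ => (q.Y c).smul (h.cX a c)

theorem Is.qwd (J : List (Fin 5)) (q : b.U.Qa j n l f) :
    b.U.Qa (j + J.length) (n + J.length) (l + J.length) (wd b.X J f) := by
  induction J with
  | nil => exact q
  | cons a J ih => exact h.qX a ih

theorem Is.mX {a' : ℕ} (a : Fin 5) (q : b.U.Ma j n a' l f) :
    b.U.Ma (j + 1) (n + 1) a' (l + 1) (b.X a f) := by
  rw [h.XY]
  exact Duo.Ma.sum _ fun c _ => (q.Y c).smul (h.cX a c)

theorem Is.gX (a : Fin 5) (q : b.U.Ga l f) : b.U.Ga (l + 1) (b.X a f) := by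
  rw [h.XY]
  exact Duo.Ga.sum _ fun c _ => (q.Y c).smul (h.cX a c)

theorem Is.sX (a : Fin 5) (q : f ∈ b.S) : b.X a f ∈ b.S := by
  rw [h.XY]
  exact sum_mem fun c _ => mul_mem (h.cX a c) (Duo.SY' c q)

theorem Is.mV {a' : ℕ} (v : Bool) (q : b.U.Ma j n a' l f) : b.U.Ma j n a' (l + 1) (b.Y (vt v) f) :=
  q.V (fun x => fr_prod b.T.G b.K.G (vt v) ▸ (b.T.prod b.K).up0 (vt v) (by cases v <;> decide) x)
    (h.vert v)

theorem Is.X_F (a : Fin 5) (he : Ok b.S e (k + 1)) (hf : P354XF.M b.gen j n 1 0 (f, 0)) :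
    b.U.Qa (j + k + 1) (n + k + 1) 1 (b.X a (b.U.F e f) - b.U.F (b.XO a e) f) := by
  rw [h.XY, F_XO, ← Finset.sum_sub_distrib]
  exact Duo.Qa.sum _ fun c _ => mul_sub (b.cX a c) _ _ ▸ (Duo.Y_F c he hf).smul (h.cX a c)

/-- Honest derivatives of the family. -/
theorem Is.hon (σ : Bool) (J J' : List (Fin 5)) :
    b.U.Qa (J.length + J'.length) (J.length + J'.length) J.length
      (wd b.X J (b.fm σ J') - b.fm σ (J ++ J')) := by
  induction J with
  | nil => simpa [wd] using Duo.Qa.zero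
  | cons a J ih =>
    have := ((h.qX a ih).mono (j' := (a :: J).length + J'.length) (n' := (a :: J).length + J'.length)
      (by simp +arith) (by simp +arith) le_rfl).add
      ((h.X_F a (h.ok_fm σ (J ++ J')) (b.mps σ)).mono (by simp +arith) (by simp +arith) (by simp))
    rw [map_sub] at this
    exact cast (congrArg _ (sub_add_sub_cancel _ _ _)) this

omit h in
theorem V_fr (T : Tv A) (v : Bool) (c : Fin 6) (f : A) :
    fr T.G (vt v) (fr T.G c f) = fr T.G c (fr T.G (vt v) f) + lam v c • fr T.G c f := by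
  rw [T.comm]
  cases v <;> fin_cases c <;> simp [vt, lam, gam, g0, Fin.sum_univ_six]

theorem Is.wt_XW (v : Bool) {p : ℂ} (he : e.Wt (b.Y (vt v)) (lam v) p) (J : List (Fin 5)) :
    (b.XW e J).Wt (b.Y (vt v)) (lam v) p := by
  have k : ∀ a c, b.Y (vt v) (b.cX a c) = (-lam v c) • b.cX a c := fun a c => by
    have := h.span (fun c => MvPolynomial.C (b.Y (vt v) (b.cX a c) + lam v c • b.cX a c))
      (fun x => by
        have := h.VX v a x
        simp only [h.XY a, map_sum, Derivation.leibniz, smul_eq_mul, V_fr, mul_add,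
          Finset.sum_add_distrib] at this
        simp only [← map_mul, ← map_sum, mul_add, Finset.sum_add_distrib, mul_smul_comm,
          MvPolynomial.C_eq_zero]
        simp only [mul_comm (b.cX a _), smul_mul_assoc] at this
        linear_combination this) c
    rw [neg_smul]
    exact eq_neg_of_add_eq_zero_left (MvPolynomial.C_eq_zero.1 this)
  induction J with
  | nil => exact he
  | cons a J ih =>
    have : ∀ L : List (Fin 6), (lsum (L.map fun c => .smul (b.cX a c) (.der c (b.XW e J)))).Wt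
        (b.Y (vt v)) (lam v) p := fun L => by
      induction L with
      | nil => exact .zero _
      | cons c L ih' => exact .add (by simpa using (ih.der c).smul (k a c)) ih'
    exact this _

theorem Is.V_ps (σ v : Bool) : b.Y (vt v) (b.T.ps σ) = (wgt σ v + spn σ) • b.T.ps σ := by
  have t := b.T.is
  rw [← h.vert]
  cases σ <;> cases v <;> simp [vt, fr, Tv.ps, Tv.pp, wgt, spn, t.H_P0, t.H_P4, t.Hb_P0, t.Hb_P4,
    Algebra.smul_def, map_ofNat] <;> ring

theorem Is.Fr_V (σ v : Bool) (J : List (Fin 5)) :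
    b.U.dl (vt v) (b.U.Fr (b.XW (b.e0 σ) J) (b.T.ps σ)) =
      wgt σ v • b.U.Fr (b.XW (b.e0 σ) J) (b.T.ps σ) := by
  have := Duo.Fr_wt (U := b.U) (h.vert v) (fun c f => by
    have := V_fr b.T v c f
    rwa [h.vert] at this) (V_fr b.K v) (h.V_ps σ v) (h.wt_XW v (Wt.one.smul (h.Vw σ v)) J)
  rwa [show -spn σ + 0 + (wgt σ v + spn σ) = wgt σ v by ring] at this

/-- The exact weights of the family. -/
theorem Is.V_fm (σ v : Bool) (J : List (Fin 5)) : b.Y (vt v) (b.fm σ J) = wgt σ v • b.fm σ J := by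
  have := Duo.F_wt b.U (fun c f => by
    have := V_fr b.T v c f
    rwa [h.vert] at this) (V_fr b.K v) (h.V_ps σ v) (h.wt_XW v (Wt.one.smul (h.Vw σ v)) J)
  rwa [show -spn σ + 0 + (wgt σ v + spn σ) = wgt σ v by ring] at this

theorem Is.g_E (c d : Fin 6) (a a' : Fin 5) : b.U.Ga 1 (b.E c d a a') := by
  have k : ∀ c a, b.U.Ga 1 (∑ e, b.sg c e * b.yX e a) := fun c a =>
    Duo.Ga.sum _ fun e _ => mul_comm (b.yX e a) _ ▸ (Duo.Ga.sg c e).smul (h.yX e a)
  refine cast (congrArg _ ?_) ((((k d a').smul (h.yX c a)).add ((k c a).smul (h.yX d a'))).add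
    ((k c a).mul (k d a')))
  simp only [E, zX]
  ring

theorem Is.g_del (a a' : Fin 5) (J : List (Fin 5)) :
    b.U.Ga (J.length + 1) (wd b.X J (b.del a a')) := by
  induction J with
  | nil =>
    have := (((((h.g_E 0 1 a a').add (h.g_E 1 0 a a')).sub (h.g_E 2 3 a a')).sub
      (h.g_E 3 2 a a')).smul (b.S.algebraMap_mem (1 / 2))).smul (neg_mem h.smi)
    rwa [neg_mul] at this
  | cons c J ih => exact h.gX c ih

end Brg

end Vale.Agent.P354XF
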