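import Vale.Agent.P354XF.Top
import Vale.Agent.P354XR.Nat
import Vale.Agent.P354BO.TwO

/-!
Constants which do not depend on the solution, and the family on a cylinder.
-/

open scoped ContDiff
open Filter Set

namespace Vale.Agent.P354XR

open P354XF P354XT P354BO P354XI
open P354XI.Ibp (rl)

namespace Raw

variable {A : Type} [CommRing A] [Algebra ℂ A] (R : Raw A) {t L N : ℕ} {K C d : ℝ}
  {φ : A →ₐ[ℂ] ℂ}

theorem pq_up (q : R.brg.Pq L N K d φ) : univ.brg.Pq L N K d (R.up φ) :=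
  ⟨fun f => q.cj (f R.ix), (R.pt_up q.pt).big, (R.pt_up q.pt).ref, (R.pt_up q.pt).jet,
    fun i w h => (congrArg (‖φ ·‖) (R.val_ix (.jet i w))).trans_le (q.low i w h), q.one, q.dK⟩

theorem nb_up {σ : Bool} {m : ℕ} {x : ℝ} (h : R.brg.Nb φ σ m x) : univ.brg.Nb (R.up φ) σ m x :=
  fun J hJ => (congrArg (‖φ ·‖) (R.fm_ix σ J)).trans_le (h J hJ)

theorem out_down (o : univ.brg.Out t L C d (R.up φ)) : R.brg.Out t L C d φ where
  jets m hm x hx i w hw := (congrArg (‖φ ·‖) (R.val_ix (.jet i w))).symm.trans_le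
    (o.jets m hm x (fun σ => R.nb_up (hx σ)) i w hw)
  up σ J hJ p hp := (congrArg (‖φ ·‖) (R.fm_ix σ J)).symm.trans_le (o.up σ J hJ p fun w hw =>
    (congrArg (‖φ ·‖) ((R.wdT_ix w _).trans (congrArg _ (R.ps_ix σ)))).trans_le (hp w hw))
  del a a' J hJ := by simpa only [up_ap, wdX_ix, del_ix] using o.del a a' J hJ
  hon σ J J' h1 h2 x hx := by
    simpa only [up_ap, Pi.sub_apply, wdX_ix, fm_ix] using
      o.hon σ J J' h1 h2 x fun σ => R.nb_up (hx σ)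
  eqY σ W J h1 h2 h3 x hx := by
    simpa only [up_ap, Pi.add_apply, wdX_ix, P_ix, Q_ix, fm_ix] using
      o.eqY σ W J h1 h2 h3 x fun σ => R.nb_up (hx σ)
  swap σ c e p q h1 x hx y hy := by
    simpa only [up_ap, Pi.sub_apply, fm_ix] using
      o.swap σ c e p q h1 x (fun σ => R.nb_up (hx σ)) y (R.nb_up hy)
  eqA σ J h1 x hx y hy := by
    simpa only [up_ap, Pi.add_apply, P_ix, Q_ix, fm_ix] using
      o.eqA σ J h1 x (fun σ => R.nb_up (hx σ)) y (R.nb_up hy)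
  eqR σ j W h1 h2 x hx y hy := by
    simpa only [up_ap, Pi.add_apply, P_ix, Q_ix, fm_ix] using
      o.eqR σ j W h1 h2 x (fun σ => R.nb_up (hx σ)) y (R.nb_up hy)

end Raw

/-- The inequalities hold with one constant for all solutions. -/
theorem uni_out (t L : ℕ) (hL : 2 ≤ L) (K : ℝ) : ∀ᶠ C in atTop,
    ∀ (A : Type) [CommRing A] [Algebra ℂ A] (R : Raw A) d φ, R.brg.Pq L (t + 2) K d φ →
      C * d ≤ 1 → R.brg.Out t L C d φ :=
  (univ.brg_is.out t L hL K).mono fun _ h _ _ _ R d _ q hd => R.out_down (h d _ (R.pq_up q) hd)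

/-- The hypotheses of the estimate of top order with constants which do not depend on the
solution; Cf depends only on the bound K0 in the near region. -/
theorem fam_uni (n k : ℕ) (K0 : ℝ) : ∃ Cf : ℝ, ∀ K1 : ℝ, ∃ C1 : ℝ, 1 ≤ C1 ∧
    ∀ (A : Type) [CommRing A] [Algebra ℂ A] (R : Raw A) (A' : Type) [CommRing A'] [Algebra ℂ A']
      (Φ : Fld A') (π : A →ₐ[ℂ] A') (M a : ℝ) (σ : Bool) (D : Dat A') (rm rI R0 R1 eps : ℝ)
      (d : Φ.B.Pt → ℝ) (h : Φ.Is), R.brg.Hom Φ π M a → Φ.s = sp σ →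
      (∀ f, (∀ v, R.brg.Y (vt v) f = wgt σ v • f) → π f ∈ Φ.Sp) →
      (∀ c e, Φ.B.Re (π (R.brg.del c e))) → D.f = R.brg.fp π σ →
      (D.del = fun c e => π (R.brg.del c e)) → 2 ≤ D.K →
      Icc D.t1 (D.t1 + D.K + 2) ×ˢ Icc D.r00 (4 * R1) ⊆ Φ.Om → ContDiff ℝ ∞ D.ch → Monotone D.ch →
      (∀ r, r ≤ D.r00 → D.ch r = 0) → (∀ r, rI ≤ r → D.ch r = 1) → rm ≤ D.r00 →
      (∀ j, 0 < D.h j ∧ D.h j ≤ eps) → Φ.B.Re D.rho → (∀ x, 0 ≤ Φ.B.val x D.rho) →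
      3 * R0 ≤ 4 * R1 →
      (∀ x, Φ.pr x ∈ Icc D.t1 (D.t1 + D.K + 2) ×ˢ Icc D.r00 (4 * R1) →
        (C1 * d x) ^ 2 * Φ.B.val x (R.brg.lv2 Φ π (n + k + 1)) ≤ Φ.B.val x D.rho) →
      (∀ j ≤ D.K, ∀ x, Φ.pr x ∈ Icc (D.t1 + j) (D.t1 + j + 2) ×ˢ Icc D.r00 (4 * R1) →
        C1 * d x ≤ D.h j) →
      (∀ x, Φ.pr x ∈ Icc D.t1 (D.t1 + D.K + 2) ×ˢ Icc D.r00 (4 * R1) → C1 * d x ≤ 1 ∧
        R.brg.Pq (n + 2) (n + k + 3) K1 (d x) ((evA h.B x).comp π)) →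
      (∀ x, Φ.pr x ∈ Icc D.t1 (D.t1 + D.K + 2) ×ˢ Icc D.r00 (3 * R0) →
        R.brg.Pq (n + 2) (n + k + 3) K0 (d x) ((evA h.B x).comp π)) →
      Fam Φ D M a n k Cf rm rI R0 R1 eps := by
  obtain ⟨C0, k0, c0⟩ := ((uni_out (n + k + 1) (n + 2) (by omega) K0).and
    (eventually_ge_atTop 1)).exists
  refine ⟨2 * C0 ^ 2, fun K1 => ?_⟩
  obtain ⟨C1, k1, c1⟩ := ((uni_out (n + k + 1) (n + 2) (by omega) K1).and
    (eventually_ge_atTop (2 * C0))).exists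
  refine ⟨C1, by linarith, fun A _ _ R A' _ _ Φ π M a σ D rm rI R0 R1 eps d h H a1 a2 a3 a4 a5 a6
    a7 a8 a9 b1 b2 b3 b4 b5 b6 b7 b8 b9 p1 p0 => Brg.fam h H R.brg_is a1 a2 a3 a4 a5 a6 a7 a8 a9 b1
      b2 b3 b4 b5 b6 b7 (by nlinarith) b8 b9 (fun x hx => k1 A R _ _ (p1 x hx).2 (p1 x hx).1)
      fun x hx => k0 A R _ _ (p0 x hx) ?_⟩
  have := (p1 x ⟨hx.1, hx.2.1, hx.2.2.trans b7⟩).1
  nlinarith [(p0 x hx).nn]

/-- The spin as an integer. -/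
def sz (σ : Bool) : ℤ := cond σ 2 (-2)

namespace Raw

variable {A : Type} [CommRing A] [Algebra ℂ A] (R : Raw A) {U : Set (ℝ × ℝ)} (hU : IsOpen U)
  {π : A →ₐ[ℂ] Rg U} (m : Hm π R.K (P354BO.kp U)) {f : ℝ → ℝ} {M a : ℝ}
include m

theorem hom (s : ℤ) (h1 : π R.p.h1 = fz U fun z => f z.2) (hM : π R.p.M = rl _ M)
    (ha : π R.p.a = rl _ a) : R.brg.Hom (fld hU s f) π M a :=
  ⟨m.X hU s h1 R.kp.j, (m.z 1).trans (fld_r hU s f).symm, (m.w 2).1, hM, ha⟩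

theorem sec (σ : Bool) (F : A) (h : ∀ v, R.brg.Y (vt v) F = wgt σ v • F) :
    π F ∈ (fld hU (sz σ) f).Sp := by
  have e : algebraMap ℂ A (spn σ) = (sz σ : ℤ) := by cases σ <;> simp [spn, sz, map_ofNat]
  refine m.sec ((h false).trans ?_) ((h true).trans ?_)
  · rw [← e, ← Algebra.smul_def]
    rfl
  · rw [← e, ← Algebra.smul_def, ← neg_smul]
    rfl

theorem re_del (s : ℤ) (c e : Fin 5) : (fld hU s f).B.Re (π (R.brg.del c e)) :=
  (m.c _).symm.trans (congrArg π (R.c_del c e))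

omit m in
theorem fld_s (σ : Bool) : (fld hU (sz σ) f).s = sp σ := by cases σ <;> simp [fld, sz, sp]

end Raw

end Vale.Agent.P354XR
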