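import Vale.Agent.P354XF.Ext
import Vale.Agent.P354XG.GHP

/-!
The transverse GHP calculus is of finite type modulo the jets of the small quantities.
-/

namespace Vale.Agent.P354XF

open P354XG (GHP D_mul D_num D_add D_sub D_neg D_one D_zero)

/-- A vacuum GHP algebra in a transverse frame, with the inverse of 3 P2. -/
structure Tv (A : Type*) [CommRing A] [Algebra ℂ A] where
  G : GHP A
  Pi : A
  is : G.Is
  h1 : G.P1 = 0
  h3 : G.P3 = 0
  inv : Pi * (3 * G.P2) = 1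

/-- Conjugation of the letters. -/
def bar : Fin 6 → Fin 6 := ![0, 1, 3, 2, 5, 4]

/-- The generators. -/
inductive Gn : Type
  | p2 : Gn
  | pi : Gn
  | y (e : Fin 6) : Gn
  | dy (b e : Fin 6) : Gn
  | jet (i : Fin 6) (w : List (Fin 6)) : Gn

/-- The level of the small quantities. -/
def lv (i : Fin 6) : ℕ := if i.val < 2 then 0 else 1

def Gn.lev : Gn → ℕ
  | .p2 => 0
  | .pi => 0
  | .y _ => 1
  | .dy _ _ => 2
  | .jet i w => lv i + w.length

def Gn.sm : Gn → Prop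
  | .jet _ _ => True
  | _ => False

variable {A : Type*} [CommRing A] [Algebra ℂ A]

/-- The frame. -/
def fr (G : GHP A) : Fin 6 → Der A := ![G.th, G.tp, G.et, G.ep, G.H, G.Hb]

/-- The structure functions above the diagonal. -/
def g0 (G : GHP A) : Fin 6 → Fin 6 → Fin 6 → A :=
  ![![0, ![0, 0, G.c G.ta - G.ta', G.ta - G.c G.ta', -(G.ka * G.ka' - G.ta * G.ta' + G.P2),
        -(G.c G.ka * G.c G.ka' - G.c G.ta * G.c G.ta' + G.c G.P2)],
      ![-G.c G.ta', -G.ka, G.c G.rh, G.si, -(G.rh' * G.ka - G.ta' * G.si),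
        -(G.c G.si' * G.c G.ka - G.c G.rh * G.c G.ta')],
      ![-G.ta', -G.c G.ka, G.c G.si, G.rh, -(G.si' * G.ka - G.rh * G.ta'),
        -(G.c G.rh' * G.c G.ka - G.c G.ta' * G.c G.si)],
      ![-1, 0, 0, 0, 0, 0], ![-1, 0, 0, 0, 0, 0]],
    ![0, 0, ![-G.c G.ka', -G.ta, G.rh', G.c G.si', G.si * G.ka' - G.rh' * G.ta,
        G.c G.rh * G.c G.ka' - G.c G.ta * G.c G.si'],
      ![-G.ka', -G.c G.ta, G.si', G.c G.rh', G.rh * G.ka' - G.ta * G.si',
        G.c G.si * G.c G.ka' - G.c G.rh' * G.c G.ta],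
      ![0, 1, 0, 0, 0, 0], ![0, 1, 0, 0, 0, 0]],
    ![0, 0, 0, ![G.c G.rh' - G.rh', G.rh - G.c G.rh, 0, 0, G.rh * G.rh' - G.si * G.si' + G.P2,
        -(G.c G.rh * G.c G.rh' - G.c G.si * G.c G.si' + G.c G.P2)],
      ![0, 0, -1, 0, 0, 0], ![0, 0, 1, 0, 0, 0]],
    ![0, 0, 0, 0, ![0, 0, 0, 1, 0, 0], ![0, 0, 0, -1, 0, 0]], 0, 0]

/-- The structure functions. -/
def gam (G : GHP A) (a b e : Fin 6) : A := g0 G a b e - g0 G b a e

namespace Tv

variable (T : Tv A)

def y : Fin 6 → A := ![T.G.rh, T.G.rh', T.G.ta, T.G.ta', 0, 0]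

/-- The small quantities. -/
def sb : Fin 6 → A := ![T.G.P0, T.G.P4, T.G.ka, T.G.si, T.G.ka', T.G.si']

def val : Gn → A
  | .p2 => T.G.P2
  | .pi => T.Pi
  | .y e => T.y e
  | .dy b e => fr T.G b (T.y e)
  | .jet i w => wd (fr T.G) w (T.sb i)

def gen : Gen (Bool × Gn) A where
  x p := cond p.1 (T.G.c (T.val p.2)) (T.val p.2)
  lev p := p.2.lev
  sm p := p.2.sm
  cl _ := 0

theorem fr_c (a : Fin 6) (f : A) : fr T.G a (T.G.c f) = T.G.c (fr T.G (bar a) f) := by
  have h := T.is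
  fin_cases a
  exacts [h.th_c f, h.tp_c f, h.et_c f, h.ep_c f, h.H_c f, h.Hb_c f]

theorem comm (a b : Fin 6) (f : A) : fr T.G a (fr T.G b f) =
    fr T.G b (fr T.G a f) + ∑ e, gam T.G a b e * fr T.G e f := by
  have h := T.is
  have k : ∀ a b : Fin 6, a < b → fr T.G a (fr T.G b f) =
      fr T.G b (fr T.G a f) + ∑ e, g0 T.G a b e * fr T.G e f := fun a b hab => by
    have e1 := h.th_et f
    have e2 := h.th_ep f
    have e3 := h.tp_et f
    have e4 := h.tp_ep f
    rw [T.h1] at e1 e2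
    rw [T.h3] at e3 e4
    rw [map_zero] at e2 e3
    fin_cases a <;> fin_cases b <;> first | exact absurd hab (by decide) | skip
    all_goals simp only [fr, g0, Fin.sum_univ_six, Fin.reduceFinMk, Matrix.cons_val]
    · linear_combination h.th_tp f
    · linear_combination e1
    · linear_combination e2
    · linear_combination -h.H_th f
    · linear_combination -h.Hb_th f
    · linear_combination e3
    · linear_combination e4
    · linear_combination -h.H_tp f
    · linear_combination -h.Hb_tp f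
    · linear_combination h.et_ep f
    · linear_combination -h.H_et f
    · linear_combination -h.Hb_et f
    · linear_combination -h.H_ep f
    · linear_combination -h.Hb_ep f
    · simpa using h.H_Hb f
  have z : ∀ a b : Fin 6, a < b → g0 T.G b a = 0 := fun a b hab => by
    fin_cases a <;> fin_cases b <;> first | exact absurd hab (by decide) | rfl
  rcases lt_trichotomy a b with hab | rfl | hab
  · simp only [gam, z a b hab, Pi.zero_apply, sub_zero]
    exact k a b hab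
  · simp [gam]
  · simp only [gam, z b a hab, Pi.zero_apply, zero_sub, neg_mul, Finset.sum_neg_distrib]
    linear_combination -k b a hab

variable {T} {j n a l : ℕ} {f p : A}

theorem conj (h : M T.gen j n a l f) : M T.gen j n a l (T.G.c f) :=
  h.map T.G.c (fun p => (!p.1, p.2)) (fun z => ⟨_, T.is.calg z⟩) (by
    rintro ⟨_ | _, x⟩
    · exact ⟨rfl, rfl, rfl, id⟩
    · exact ⟨T.is.cc _, rfl, rfl, id⟩)

variable (T)

theorem mP2 : M T.gen 0 0 0 0 T.G.P2 := M.gen (g := T.gen) (false, .p2)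
theorem mPi : M T.gen 0 0 0 0 T.Pi := M.gen (g := T.gen) (false, .pi)
theorem my (e : Fin 6) : M T.gen 1 1 0 0 (T.y e) := M.gen (g := T.gen) (false, .y e)
theorem mdy (b e : Fin 6) : M T.gen 2 2 0 0 (fr T.G b (T.y e)) :=
  M.gen (g := T.gen) (false, .dy b e)
theorem mjet (i : Fin 6) (w : List (Fin 6)) :
    M T.gen (lv i + w.length) (lv i + w.length) 1 0 (wd (fr T.G) w (T.sb i)) :=
  M.small (g := T.gen) (false, .jet i w) trivial
theorem mP0 : M T.gen 0 0 1 0 T.G.P0 := T.mjet 0 []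
theorem mP4 : M T.gen 0 0 1 0 T.G.P4 := T.mjet 1 []
theorem mka : M T.gen 1 1 1 0 T.G.ka := T.mjet 2 []
theorem msi : M T.gen 1 1 1 0 T.G.si := T.mjet 3 []
theorem mka' : M T.gen 1 1 1 0 T.G.ka' := T.mjet 4 []
theorem msi' : M T.gen 1 1 1 0 T.G.si' := T.mjet 5 []

variable {T}

theorem a0 (h : M T.gen j n a l f) : M T.gen j n 0 l f := h.mono le_rfl le_rfl (Nat.zero_le _) le_rfl

theorem m11 (h : M T.gen 1 1 0 0 p) (h' : M T.gen 1 1 0 0 f) : M T.gen 1 2 0 0 (p * f) := h.mul h'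

theorem m01 (h : M T.gen 0 0 0 0 f) : M T.gen 1 n 0 0 f :=
  h.mono (by omega) (by omega) le_rfl le_rfl

variable (T)

/-- The quantities of level one. -/
theorem atoms : M T.gen 1 1 0 0 T.G.rh ∧ M T.gen 1 1 0 0 T.G.rh' ∧ M T.gen 1 1 0 0 T.G.ta ∧
    M T.gen 1 1 0 0 T.G.ta' ∧ M T.gen 1 1 0 0 T.G.ka ∧ M T.gen 1 1 0 0 T.G.si ∧
    M T.gen 1 1 0 0 T.G.ka' ∧ M T.gen 1 1 0 0 T.G.si' ∧ M T.gen 1 2 0 0 T.G.P2 :=
  ⟨T.my 0, T.my 1, T.my 2, T.my 3, a0 T.mka, a0 T.msi, a0 T.mka', a0 T.msi', m01 T.mP2⟩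

theorem mg0 (a b e : Fin 6) :
    M T.gen 1 2 0 0 (g0 T.G a b e) ∧ (e.val < 4 → M T.gen 1 1 0 0 (g0 T.G a b e)) := by
  obtain ⟨a1, a2, a3, a4, a5, a6, a7, a8, a9⟩ := T.atoms
  have k : ∀ {f}, M T.gen 1 1 0 0 f → M T.gen 1 2 0 0 f ∧ (True → M T.gen 1 1 0 0 f) := fun h =>
    ⟨h.mono le_rfl (by omega) le_rfl le_rfl, fun _ => h⟩
  fin_cases a <;> fin_cases b <;> fin_cases e <;>
    simp only [g0, Fin.reduceFinMk, Matrix.cons_val, Pi.zero_apply, Nat.reduceLT, Nat.lt_irrefl,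
      Nat.ofNat_pos, Nat.one_lt_ofNat, false_imp_iff, and_true] <;>
    (try refine k ?_) <;>
    repeat' first
      | exact M.zero _ _ _ _ | exact M.one | assumption | exact conj (by assumption)
      | apply M.neg | apply M.add | apply M.sub | apply m11

theorem mga (a b e : Fin 6) : M T.gen 1 2 0 0 (gam T.G a b e) := (T.mg0 a b e).1.sub (T.mg0 b a e).1

theorem mga1 (a b e : Fin 6) (h : e.val < 4) : M T.gen 1 1 0 0 (gam T.G a b e) :=
  ((T.mg0 a b e).2 h).sub ((T.mg0 b a e).2 h)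

end Tv

end Vale.Agent.P354XF
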