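import Vale.Agent.P354XF.Brg3

/-!
The principal symbol of the perturbed operator is the inverse metric of the solution.
-/

namespace Vale.Agent.P354XF

variable {A : Type*} [CommRing A] [Algebra ℂ A] {ι : Type}

namespace Brg

variable (b : Brg A ι)

/-- The principal part of P. -/
noncomputable def gP (u v : A) : A :=
  (b.r * b.r - 2 * b.M * b.r + b.a * b.a) * (b.X 1 u * b.X 1 v) +
    (b.r * b.r + b.a * b.a) * (b.X 0 u * b.X 1 v + b.X 1 u * b.X 0 v) +
    b.a * (b.X 4 u * b.X 1 v + b.X 1 u * b.X 4 v) +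
    (b.X 2 u * b.X 2 v + b.X 3 u * b.X 3 v + b.X 4 u * b.X 4 v) +
    b.a * b.a * (1 - b.x * b.x) * (b.X 0 u * b.X 0 v) +
    b.a * (b.X 0 u * b.X 4 v + b.X 4 u * b.X 0 v)

/-- The inverse metric of a frame. -/
def gZ (Z : Fin 6 → Der A) (u v : A) : A :=
  Z 0 u * Z 1 v + Z 1 u * Z 0 v - Z 2 u * Z 3 v - Z 3 u * Z 2 v

theorem del_symm (c e : Fin 5) : b.del c e = b.del e c := by
  simp only [del, E]
  ring

theorem P_mul (s k : ℂ) (u v : A) :
    b.P s k (u * v) - u * b.P s k v - v * b.P s k u + u * v * b.P s k 1 = 2 * b.gP u v := by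
  simp only [P, PP, PL, List.map_cons, List.map_nil, List.sum_cons, List.sum_nil, wd, gP,
    Derivation.leibniz, smul_eq_mul, map_add, Derivation.map_one_eq_zero, map_zero]
  ring

theorem tk_mul (T : Tv A) (σ : Bool) (w u v : A) : T.tk σ (w * (u * v)) - u * T.tk σ (w * v) -
    v * T.tk σ (w * u) + u * v * T.tk σ (w * 1) = w * gZ (fr T.G) u v := by
  cases σ <;> simp only [tk_eq, la, cond, Matrix.cons_val, Fin.sum_univ_six, gZ, mul_one,
    Derivation.leibniz, smul_eq_mul, map_add] <;> ring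

variable {b} (h : b.Is) {u v : A} (hu : ∀ c, b.Y (vt c) u = 0) (hv : ∀ c, b.Y (vt c) v = 0)
include h hu

theorem Is.Y_base (c : Fin 6) : b.Y c u = ∑ a, b.yX c a * b.X a u := by
  simp [h.YX c u, hu]

theorem Is.Z_base (c : Fin 6) : fr b.T.G c u = ∑ a, b.zX c a * b.X a u := by
  rw [b.ZY, show fr b.K.G c u = _ from h.Y_base hu c]
  simp only [show ∀ e, fr b.K.G e u = _ from h.Y_base hu, zX, add_mul, Finset.sum_add_distrib,
    Finset.mul_sum, Finset.sum_mul, mul_assoc]
  rw [Finset.sum_comm]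

include hv

theorem Is.gP_eq : 2 * (b.sm * b.gP u v) = -gZ b.Y u v := by
  have e := tk_mul b.K true (b.w true) u v
  have h1 : ∀ c, b.Y (vt c) (u * v) = 0 := fun c => by simp [hu, hv]
  have e1 := b.P_mul (spn true) (spn true) u v
  simp only [h.teu, hu, hv, h1, Derivation.map_one_eq_zero, zero_sub, map_neg,
    Derivation.map_smul, Derivation.leibniz, smul_zero, Fintype.sum_bool, Fin.sum_univ_six] at e
  simp only [Algebra.smul_def, Algebra.algebraMap_self, RingHom.id_apply] at e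
  linear_combination -b.wi true * e - b.sm * e1 - (gZ b.Y u v + b.sm * (b.P (spn true) (spn true)
    (u * v) - u * b.P (spn true) (spn true) v - v * b.P (spn true) (spn true) u +
      u * v * b.P (spn true) (spn true) 1)) * h.ww true

theorem Is.del_eq : 2 * (b.sm * ∑ c, ∑ e, b.del c e * (b.X c u * b.X e v)) =
    gZ b.Y u v - gZ (fr b.T.G) u v := by
  have t : algebraMap ℂ A (1 / 2) * 2 = 1 := by
    rw [← map_ofNat (algebraMap ℂ A) 2, ← map_mul]
    norm_num
  have e : ∀ c e, 2 * (b.sm * b.del c e) =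
      -(b.E 0 1 c e + b.E 1 0 c e - b.E 2 3 c e - b.E 3 2 c e) := fun c e => by
    rw [del]
    linear_combination -(b.E 0 1 c e + b.E 1 0 c e - b.E 2 3 c e - b.E 3 2 c e) *
      (b.sm * b.smi * t + h.ss)
  have e1 : 2 * (b.sm * ∑ c, ∑ e, b.del c e * (b.X c u * b.X e v)) = ∑ c, ∑ e,
      -(b.E 0 1 c e + b.E 1 0 c e - b.E 2 3 c e - b.E 3 2 c e) * (b.X c u * b.X e v) := by
    simp only [Finset.mul_sum, ← e, mul_assoc]
  have e2 : ∀ y z : Fin 5 → A, (∑ c, y c * b.X c u) * ∑ e, z e * b.X e v =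
      ∑ c, ∑ e, y c * z e * (b.X c u * b.X e v) := fun y z => by
    rw [Finset.sum_mul_sum]
    exact Finset.sum_congr rfl fun _ _ => Finset.sum_congr rfl fun _ _ => by ring
  simp only [e1, gZ, h.Y_base hu, h.Y_base hv, h.Z_base hu, h.Z_base hv, e2,
    ← Finset.sum_add_distrib, ← Finset.sum_sub_distrib]
  exact Finset.sum_congr rfl fun _ _ => Finset.sum_congr rfl fun _ _ => by rw [E, E, E, E]; ring

/-- The principal symbol of P + Q. -/
theorem Is.symb : 2 * (b.gP u v + ∑ c, ∑ e, b.del c e * (b.X c u * b.X e v)) =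
    -(b.smi * gZ (fr b.T.G) u v) := by
  linear_combination b.smi * h.gP_eq hu hv + b.smi * h.del_eq hu hv -
    2 * (b.gP u v + ∑ c, ∑ e, b.del c e * (b.X c u * b.X e v)) * h.ss

end Brg

end Vale.Agent.P354XF
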