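import Vale.Agent.P354XF.Out
import Vale.Agent.P354XT.Calc

/-!
The family satisfies the hypotheses of the estimate of top order.
-/

open scoped ContDiff
open Set

namespace Vale.Agent.P354XF

open P354XI P354XT
open P354XI.Ibp (rl)

variable {A : Type*} [CommRing A] [Algebra ℂ A] {ι : Type} {A' : Type} [CommRing A'] [Algebra ℂ A']

/-- The evaluation at a point. -/
def evA {B : Ibp A'} (h : B.Is) (x : B.Pt) : A' →ₐ[ℂ] ℂ := ⟨B.ev x, h.ev_alg x⟩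

theorem spn_eq (σ : Bool) : spn σ = (sp σ : ℝ) := by cases σ <;> simp [spn, sp]

namespace Brg

/-- A map to a ring of fields which respects the letters and the coefficients. -/
structure Hom (b : Brg A ι) (Φ : Fld A') (π : A →ₐ[ℂ] A') (M a : ℝ) : Prop where
  X : ∀ c f, π (b.X c f) = Φ.X c (π f)
  r : π b.r = Φ.r
  x : π b.x = Φ.w 2
  M : π b.M = rl A' M
  a : π b.a = rl A' a

variable {b : Brg A ι} {Φ : Fld A'} {π : A →ₐ[ℂ] A'} {M a : ℝ}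

theorem Hom.wd (H : b.Hom Φ π M a) (J : List (Fin 5)) (f : A) :
    π (wd b.X J f) = Φ.wd J (π f) := by
  induction J with
  | nil => rfl
  | cons c J ih => rw [P354XF.wd, H.X, ih, Fld.wd]

theorem Hom.P (H : b.Hom Φ π M a) (s k : ℝ) (f : A) : π (b.P s k f) = Φ.P s k M a (π f) := by
  simp only [Brg.P, PP, PL, List.map_cons, List.map_nil, List.sum_cons, List.sum_nil, map_add,
    map_mul, map_sub, map_neg, H.wd, H.r, H.x, H.M, H.a, AlgHom.commutes, map_ofNat, map_one,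
    map_zero, Fld.P, Fld.wd, Fld.De, Fld.Kh, Fin.sum_univ_three, Fld.X0, Fld.X1, Fld.X2, Fld.X3,
    Fld.X4, rl, Complex.ofReal_mul, Complex.ofReal_sub, Complex.ofReal_pow, Complex.ofReal_ofNat,
    Complex.ofReal_one, map_pow]
  ring

theorem Hom.Q (H : b.Hom Φ π M a) (f : A) :
    π (b.Q f) = Φ.Q (fun c e => π (b.del c e)) (π f) := by
  simp only [Brg.Q, Fld.Q, map_sum, map_mul, H.X]

variable (b π) in
/-- The image of the family. -/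
noncomputable def fp (σ : Bool) (J : List (Fin 5)) : A' := π (b.fm σ J)

variable (b Φ π) in
/-- The density of level m of the two families. -/
noncomputable def lv2 (m : ℕ) : A' := Φ.lv m (b.fp π true) + Φ.lv m (b.fp π false)

theorem nb_lv (h : Φ.Is) (x : Φ.B.Pt) (σ : Bool) (m : ℕ) :
    b.Nb ((evA h.B x).comp π) σ m √(Φ.B.val x (Φ.lv m (b.fp π σ))) := fun _ hJ =>
  Real.le_sqrt_of_sq_le (h.le_lv x (b.fp π σ) hJ)

theorem lv2_nn (h : Φ.Is) (x : Φ.B.Pt) (m : ℕ) : 0 ≤ Φ.B.val x (b.lv2 Φ π m) := by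
  rw [lv2, Ibp.val_add]
  exact add_nonneg (h.lv_nonneg x _ _) (h.lv_nonneg x _ _)

theorem nb_lv2 (h : Φ.Is) (x : Φ.B.Pt) (m : ℕ) (σ : Bool) :
    b.Nb ((evA h.B x).comp π) σ m √(Φ.B.val x (b.lv2 Φ π m)) := fun J hJ =>
  (nb_lv h x σ m J hJ).trans (Real.sqrt_le_sqrt (by
    rw [lv2, Ibp.val_add]
    cases σ
    exacts [le_add_of_nonneg_left (h.lv_nonneg x _ _), le_add_of_nonneg_right (h.lv_nonneg x _ _)]))

/-- Recovery of the jets of the small quantities. -/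
theorem Out.recov (h : Φ.Is) {x : Φ.B.Pt} {t L m : ℕ} {C d : ℝ}
    (o : b.Out t L C d ((evA h.B x).comp π)) (hm : m ≤ t) (i : Fin 6) (w : List (Fin 6))
    (hw : lv i + w.length ≤ m) : Φ.B.md x (π (P354XF.wd (fr b.T.G) w (b.T.sb i))) ^ 2 ≤
      C ^ 2 * Φ.B.val x (b.lv2 Φ π m) := by
  rw [← Real.sq_sqrt (lv2_nn h x m), ← mul_pow]
  exact pow_le_pow_left₀ (norm_nonneg _) (o.jets m hm _ (nb_lv2 h x m) i w hw) 2

/-- The hypotheses of the estimate of top order. -/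
theorem fam (h : Φ.Is) (H : b.Hom Φ π M a) (hb : b.Is) {σ : Bool} (hs : Φ.s = sp σ)
    (hS : ∀ f, (∀ v, b.Y (vt v) f = wgt σ v • f) → π f ∈ Φ.Sp)
    (hre : ∀ c e, Φ.B.Re (π (b.del c e))) {D : Dat A'} {n k : ℕ} {C0 C1 rm rI R0 R1 eps : ℝ}
    {d : Φ.B.Pt → ℝ} (hf : D.f = b.fp π σ) (hd : D.del = fun c e => π (b.del c e))
    (K2 : 2 ≤ D.K) (box : Icc D.t1 (D.t1 + D.K + 2) ×ˢ Icc D.r00 (4 * R1) ⊆ Φ.Om)
    (chs : ContDiff ℝ ∞ D.ch) (chm : Monotone D.ch) (ch0 : ∀ r, r ≤ D.r00 → D.ch r = 0)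
    (ch1 : ∀ r, rI ≤ r → D.ch r = 1) (hrm : rm ≤ D.r00) (hpos : ∀ j, 0 < D.h j ∧ D.h j ≤ eps)
    (rre : Φ.B.Re D.rho) (rpos : ∀ x, 0 ≤ Φ.B.val x D.rho) (hR : 3 * R0 ≤ 4 * R1)
    (hC : 2 * C0 ^ 2 ≤ C1 ^ 2)
    (rho : ∀ x, Φ.pr x ∈ Icc D.t1 (D.t1 + D.K + 2) ×ˢ Icc D.r00 (4 * R1) →
      (C1 * d x) ^ 2 * Φ.B.val x (b.lv2 Φ π (n + k + 1)) ≤ Φ.B.val x D.rho)
    (hh : ∀ j ≤ D.K, ∀ x, Φ.pr x ∈ Icc (D.t1 + j) (D.t1 + j + 2) ×ˢ Icc D.r00 (4 * R1) →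
      C1 * d x ≤ D.h j)
    (o1 : ∀ x, Φ.pr x ∈ Icc D.t1 (D.t1 + D.K + 2) ×ˢ Icc D.r00 (4 * R1) →
      b.Out (n + k + 1) (n + 2) C1 (d x) ((evA h.B x).comp π))
    (o0 : ∀ x, Φ.pr x ∈ Icc D.t1 (D.t1 + D.K + 2) ×ˢ Icc D.r00 (3 * R0) →
      b.Out (n + k + 1) (n + 2) C0 (d x) ((evA h.B x).comp π)) :
    Fam Φ D M a n k (2 * C0 ^ 2) rm rI R0 R1 eps := by
  have k1 : ∀ x, Φ.pr x ∈ Icc D.t1 (D.t1 + D.K + 2) ×ˢ Icc D.r00 (4 * R1) → ∀ u : ℝ, 0 ≤ u →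
      u ≤ C1 * d x * √(Φ.B.val x (b.lv2 Φ π (n + k + 1))) → u ^ 2 ≤ Φ.B.val x D.rho :=
    fun x hx u h0 h1 => (pow_le_pow_left₀ h0 h1 2).trans (by
      rw [mul_pow, Real.sq_sqrt (lv2_nn h x _)]
      exact rho x hx)
  have k0 : ∀ x, Φ.pr x ∈ Icc D.t1 (D.t1 + D.K + 2) ×ˢ Icc D.r00 (3 * R0) → ∀ (u : ℝ) (m : ℕ),
      0 ≤ u → u ≤ C0 * (√(Φ.B.val x (Φ.lv m (b.fp π σ))) +
        d x * √(Φ.B.val x (b.lv2 Φ π (n + k + 1)))) →
      u ^ 2 ≤ 2 * C0 ^ 2 * Φ.B.val x (Φ.lv m D.f) + Φ.B.val x D.rho := fun x hx u m h0 h1 => by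
    have e1 := rho x ⟨hx.1, hx.2.1, hx.2.2.trans hR⟩
    have e2 := Real.sq_sqrt (lv2_nn (b := b) (π := π) h x (n + k + 1))
    have e3 := Real.sq_sqrt (h.lv_nonneg x m (b.fp π σ))
    rw [hf, ← e3]
    rw [← e2] at e1
    generalize √(Φ.B.val x (Φ.lv m (b.fp π σ))) = y at *
    generalize √(Φ.B.val x (b.lv2 Φ π (n + k + 1))) = z at *
    have e4 := mul_le_mul_of_nonneg_right hC (sq_nonneg (d x * z))
    nlinarith [pow_le_pow_left₀ h0 h1 2, sq_nonneg (C0 * (y - d x * z))]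
  have eP : ∀ (s : ℝ) J, Φ.P s Φ.s M a (D.f J) + Φ.Q D.del (D.f J) =
      π (b.P s (spn σ) (b.fm σ J) + b.Q (b.fm σ J)) := fun s J => by
    rw [map_add, spn_eq, H.P, H.Q, hs, hf, hd]
    rfl
  refine ⟨K2, box, chs, chm, ch0, ch1, hrm, fun J => hf ▸ hS _ fun v => hb.V_fm σ v J, rre, rpos,
    hd ▸ hre, hpos, fun j hj x hx c e J hJ => ?_, fun x hx J J' h1 h2 => ?_,
    fun x hx W hW J hJ => ?_, fun x hx p q c e h1 => ?_, fun x hx J hJ => ?_,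
    fun x hx j W hW h1 => ?_⟩
  · have : (j : ℝ) ≤ D.K := Nat.cast_le.2 hj
    have := (o1 x ⟨⟨by linarith [hx.1.1, j.cast_nonneg (α := ℝ)], by linarith [hx.1.2]⟩,
      hx.2⟩).del c e J (by have := mem_words.1 hJ; omega)
    rw [hd, ← H.wd]
    exact this.trans (hh j hj x hx)
  · rw [hf, fp, fp, ← H.wd, ← map_sub]
    exact k1 x hx _ (norm_nonneg _) ((o1 x hx).hon σ J J' (by omega) h2 _ (nb_lv2 h x _))
  · rw [eP, ← H.wd, hs, ← spn_eq]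
    have := mem_yw.1 hW
    have := mem_words.1 hJ
    exact k1 x hx _ (norm_nonneg _) ((o1 x hx).eqY σ W J (mem_yw.1 hW).2 (by omega) (by omega) _
      (nb_lv2 h x _))
  · refine k0 x hx _ _ (norm_nonneg _) ?_
    rw [hf, fp, fp, ← map_sub]
    exact (o0 x hx).swap σ c e p q (by omega) _ (nb_lv2 h x _) _ (nb_lv h x σ _)
  · have := mem_words.1 hJ
    rw [eP, hs, ← spn_eq]
    exact k0 x hx _ _ (norm_nonneg _) ((o0 x hx).eqA σ J (by omega) _ (nb_lv2 h x _) _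
      (nb_lv h x σ _))
  · rw [eP, hs, Complex.ofReal_sub, ← spn_eq, Complex.ofReal_natCast]
    exact k0 x hx _ _ (norm_nonneg _) ((o0 x hx).eqR σ j W hW (by omega) _ (nb_lv2 h x _) _
      (nb_lv h x σ _))

/-- The density of the errors when the distance is at most e (t). -/
theorem rho_tm (h : Φ.Is) {e : ℝ → ℝ} (he : ContDiff ℝ ∞ e) (m : ℕ) :
    Φ.B.Re (Φ.tm (fun t => e t ^ 2) * b.lv2 Φ π m) ∧ ∀ x,
      Φ.B.val x (Φ.tm (fun t => e t ^ 2) * b.lv2 Φ π m) =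
        e (Φ.pr x).1 ^ 2 * Φ.B.val x (b.lv2 Φ π m) :=
  ⟨(h.re_tm (he.pow 2)).mul ((h.re_lv _ _).add (h.re_lv _ _)), fun x => by
    rw [h.B.val_mul (h.re_tm (he.pow 2)), h.val_tm (he.pow 2)]⟩

/-- The family is bounded by the jets of the curvature component. -/
theorem Out.upper (h : Φ.Is) {x : Φ.B.Pt} {t L m : ℕ} {C d p : ℝ} {σ : Bool}
    (o : b.Out t L C d ((evA h.B x).comp π)) (hm : m ≤ t)
    (hp : ∀ w : List (Fin 6), w.length ≤ m →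
      Φ.B.md x (π (P354XF.wd (fr b.T.G) w (b.T.ps σ))) ≤ p) :
    Φ.B.val x (Φ.lv m (b.fp π σ)) ≤ (words m).card * (C * p) ^ 2 := by
  rw [h.val_lv, ← nsmul_eq_mul]
  refine Finset.sum_le_card_nsmul _ _ _ fun J hJ => pow_le_pow_left₀ (norm_nonneg _) ?_ 2
  have := mem_words.1 hJ
  exact o.up σ J (by omega) p fun w hw => hp w (by omega)

end Brg

end Vale.Agent.P354XF
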