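import Vale.Agent.P354XF.Brg3

/-!
The jets of the small spin coefficients are absorbed, and the size of the jets at a point.
-/

namespace Vale.Agent.P354XF

open TensorProduct Op

variable {A : Type*} [CommRing A] [Algebra ℂ A]

namespace Tv

/-- Linear combinations of the jets of P0 and P4. -/
inductive Lp (T : Tv A) (j n : ℕ) : A → Prop
  | mix {c : A} {n1 : ℕ} (s : Bool) (w : List (Fin 6)) : M T.gen j n1 0 0 c → w.length ≤ j →
      n1 + w.length ≤ n → Lp T j n (c * wd (fr T.G) w (T.pp s))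
  | zero : Lp T j n 0
  | add {f f' : A} : Lp T j n f → Lp T j n f' → Lp T j n (f + f')

variable {T : Tv A} {j n : ℕ} {f : A}

theorem Lp.der (b : Fin 6) (h : T.Lp j n f) : T.Lp (j + 1) (n + 1) (fr T.G b f) := by
  induction h with
  | mix s w h1 h2 h3 =>
    rw [Derivation.leibniz, smul_eq_mul, smul_eq_mul, mul_comm (wd _ _ _)]
    exact (Lp.mix s (b :: w) (h1.mono (by omega) le_rfl le_rfl le_rfl) (by simpa)
      (by simpa [← add_assoc])).add (.mix s w (mfr b h1) (by omega) (by omega))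
  | zero => simpa using Lp.zero
  | add _ _ h1 h2 => simpa using h1.add h2

theorem Lp.jet (T : Tv A) (i : Fin 6) (w : List (Fin 6)) :
    T.Lp (lv i + w.length) (lv i + w.length) (wd (fr T.G) w (T.sb i)) := by
  induction w with
  | nil =>
    have k : ∀ s b e, T.Lp 1 1 (T.Pi * (fr T.G b (T.pp s) - T.y e * T.pp s)) := fun s b e => by
      refine cast (congrArg _ ?_) ((Lp.mix s [b] (m01 (n := 0) T.mPi) le_rfl le_rfl).add
        (.mix s [] ((m01 (n := 0) T.mPi).mul (T.my e)).neg (by simp) le_rfl))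
      simp only [wd]
      ring
    have k0 : ∀ s, T.Lp 0 0 (T.pp s) := fun s => by
      simpa [wd] using Lp.mix (T := T) (j := 0) (n := 0) s [] (M.one (n := 0)) le_rfl le_rfl
    fin_cases i
    exacts [k0 false, k0 true, cast (congrArg _ T.ka_eq.symm) (k false 3 3),
      cast (congrArg _ T.si_eq.symm) (k false 1 1), cast (congrArg _ T.ka'_eq.symm) (k true 2 2),
      cast (congrArg _ T.si'_eq.symm) (k true 0 0)]
  | cons b w ih => exact ih.der b

theorem Lp.bd (h : T.Lp j n f) (K : ℝ) : ∃ C, 0 ≤ C ∧ ∀ L N mu al φ, Sz T.gen L N K mu al φ →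
    n ≤ N → ∀ p, (∀ s w, w.length ≤ j → ‖φ (wd (fr T.G) w (T.pp s))‖ ≤ p) →
      ‖φ f‖ ≤ C * (p + mu * al j) := by
  induction h with
  | @mix c n1 s w h1 h2 h3 =>
    obtain ⟨C, c0, h1⟩ := h1.bd K
    refine ⟨C * 2, by positivity, fun L N mu al φ q hn p hp => ?_⟩
    have u1 := h1 L N mu al φ q (Nat.zero_le _) (by omega)
    have u2 := hp s w h2
    have u3 : ‖φ (wd (fr T.G) w (T.pp s))‖ ≤ al w.length := by
      cases s
      exacts [zero_add w.length ▸ q.small (false, .jet 0 w) trivial,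
        zero_add w.length ▸ q.small (false, .jet 1 w) trivial]
    have a1 := q.nn (min j n1)
    have a2 := q.mono (min_le_left j n1)
    have a3 := norm_nonneg (φ (wd (fr T.G) w (T.pp s)))
    have a4 := (q.nn _).trans q.half
    rw [be, if_pos rfl] at u1
    rw [map_mul, norm_mul, mul_assoc]
    refine (mul_le_mul_of_nonneg_right u1 a3).trans ?_
    rw [mul_assoc]
    refine mul_le_mul_of_nonneg_left ?_ c0
    rcases le_total n1 w.length with h | h
    · have := ((q.mono (show min j n1 ≤ N / 2 by omega)).trans q.half).trans q.one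
      nlinarith [mul_nonneg a4 (a1.trans a2)]
    · have := u3.trans ((q.mono (show w.length ≤ N / 2 by omega)).trans q.half)
      nlinarith [mul_le_mul this a2 a1 a4]
  | zero => exact ⟨0, le_rfl, fun _ _ _ _ _ _ _ _ _ => by simp⟩
  | add _ _ h1 h2 =>
    obtain ⟨C, p, h1⟩ := h1
    obtain ⟨C', p', h2⟩ := h2
    refine ⟨C + C', by positivity, fun L N mu al φ q hn x hx => ?_⟩
    rw [map_add, add_mul]
    exact norm_add_le_of_le (h1 L N mu al φ q hn x hx) (h2 L N mu al φ q hn x hx)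

/-- The small generators of level at most m. -/
def gens (m : ℕ) : Set (Fin 6 × List (Fin 6)) := {p | lv p.1 + p.2.length ≤ m}

theorem gens_fin (m : ℕ) : (gens m).Finite :=
  ((Set.finite_univ (α := Fin 6)).prod (List.finite_length_le (Fin 6) m)).subset fun _ h =>
    ⟨trivial, (Nat.le_add_left _ _).trans h⟩

/-- The size of the small quantities of level at most m at the point φ. -/
noncomputable def al (T : Tv A) (φ : A →ₐ[ℂ] ℂ) (m : ℕ) : ℝ :=
  sSup ((fun p => ‖φ (wd (fr T.G) p.2 (T.sb p.1))‖) '' gens m)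

variable (T) (φ : A →ₐ[ℂ] ℂ)

theorem le_al {m : ℕ} (i : Fin 6) (w : List (Fin 6)) (h : lv i + w.length ≤ m) :
    ‖φ (wd (fr T.G) w (T.sb i))‖ ≤ T.al φ m :=
  le_csSup ((gens_fin m).image _).bddAbove ⟨(i, w), h, rfl⟩

theorem al_le {m : ℕ} {x : ℝ}
    (h : ∀ i w, lv i + List.length w ≤ m → ‖φ (wd (fr T.G) w (T.sb i))‖ ≤ x) : T.al φ m ≤ x :=
  csSup_le ⟨_, (0, []), Nat.zero_le m, rfl⟩ (by
    rintro _ ⟨p, hp, rfl⟩
    exact h _ _ hp)

theorem al_mono : Monotone (T.al φ) := fun _ _ e =>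
  T.al_le φ fun i w h => T.le_al φ i w (h.trans e)

theorem al_nn (m : ℕ) : 0 ≤ T.al φ m := (norm_nonneg _).trans (T.le_al φ 0 [] (Nat.zero_le m))

end Tv

namespace Duo

variable {G : Type*} {g : Gen G (A × A)} {B ι : Type} [Fintype B]

/-- Combinations of the jets of f with reference coefficients. -/
inductive Cj (U : Duo g B ι) (f : A) (k : ℕ) : Rg A → Prop
  | one {x : A} (w : List B) : x ∈ U.S → w.length ≤ k →
      Cj U f k (io A x * (wd U.Z w f, (0 : A)) ⊗ₜ 1)
  | zero : Cj U f k 0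
  | add {P P' : Rg A} : Cj U f k P → Cj U f k P' → Cj U f k (P + P')

variable {U : Duo g B ι} {f x : A} {k : ℕ} {P : Rg A} {e : Op A B}

theorem Cj.smul (hx : x ∈ U.S) (h : U.Cj f k P) : U.Cj f k (io A x * P) := by
  induction h with
  | one w h1 h2 =>
    rw [← mul_assoc, ← map_mul]
    exact .one w (mul_mem hx h1) h2
  | zero => simpa using Cj.zero
  | add _ _ h1 h2 => simpa only [mul_add] using h1.add h2

theorem Cj.der (b : B) (h : U.Cj f k P) : U.Cj f (k + 1) (U.dl b P) := by
  induction h with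
  | @one x w h1 h2 =>
    rw [Derivation.leibniz, smul_eq_mul, smul_eq_mul, dl_L, map_zero,
      show U.dl b (io A x) = io A (U.Y b x) from U.tw.di b x, mul_comm _ (io A (U.Y b x))]
    exact (Cj.one (b :: w) h1 (by simpa)).add (.one w (SY' b h1) (by omega))
  | zero => simpa using Cj.zero
  | add _ _ h1 h2 => simpa only [map_add] using h1.add h2

theorem Cj.Fr (he : Ok U.S e (k + 1)) (f : A) : U.Cj f k (U.Fr e f) := by
  have : ∀ e m, Ok U.S e m → ∀ k, m ≤ k + 1 → U.Cj f k (U.Fr e f) := fun e m h0 => by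
    clear he
    induction h0 with
    | one =>
      exact fun k _ => by
        simpa [wd, Duo.Fr, ev] using Cj.one (U := U) (f := f) [] (one_mem _) (Nat.zero_le k)
    | zero => exact fun _ _ => .zero
    | smul h _ ih => exact fun k hk => (ih k hk).smul h
    | der b h0 ih =>
      rintro (_ | k) hk
      · rw [Duo.Fr, ev, (h0.mono (by omega)).ev_zero, map_zero]
        exact .zero
      · exact (ih k (by omega)).der b
    | add _ _ h1 h2 => exact fun k hk => (h1 k hk).add (h2 k hk)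
  exact this _ _ he k le_rfl

theorem Cj.bd (h : U.Cj f k P) (K0 : ℝ) : ∃ C, 0 ≤ C ∧ ∀ L N mu ds al φ,
    U.Pt L N K0 mu ds al φ → ∀ p, (∀ w : List B, w.length ≤ k → ‖φ (wd U.Z w f)‖ ≤ p) →
      ‖φ (e1 A P)‖ ≤ C * p := by
  induction h with
  | one w h1 h2 =>
    obtain ⟨C, p, h⟩ := ref_bd h1 K0
    refine ⟨C, p, fun L N mu ds al φ q x hx => ?_⟩
    rw [map_mul, e1_io, e1_ap, map_mul, norm_mul, Prod.fst_one, mul_one]
    exact mul_le_mul (h L N mu ds al φ q) (hx _ h2) (norm_nonneg _) p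
  | zero => exact ⟨0, le_rfl, fun _ _ _ _ _ _ _ _ _ => by simp⟩
  | add _ _ h1 h2 =>
    obtain ⟨C, p, h1⟩ := h1
    obtain ⟨C', p', h2⟩ := h2
    refine ⟨C + C', by positivity, fun L N mu ds al φ q x hx => ?_⟩
    rw [map_add, map_add, add_mul]
    exact norm_add_le_of_le (h1 L N mu ds al φ q x hx) (h2 L N mu ds al φ q x hx)

end Duo

end Vale.Agent.P354XF
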