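import Vale.Agent.P354XF.Brg

/-!
The perturbed equation of the family.
-/

namespace Vale.Agent.P354XF

open Op

variable {A : Type*} [CommRing A] [Algebra ℂ A] {ι : Type}

/-- The letters and the coefficients of the two Teukolsky operators. -/
def la (σ : Bool) : Fin 4 → Fin 6 := cond σ ![0, 1, 2, 3] ![1, 0, 3, 2]
def cs (T : Tv A) (σ : Bool) : Fin 6 → A := cond σ (Cmp.co0 T) (Cmp.co4 T)

theorem tk_eq (T : Tv A) (σ : Bool) (f : A) : T.tk σ f = fr T.G (la σ 0) (fr T.G (la σ 1) f) -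
    fr T.G (la σ 2) (fr T.G (la σ 3) f) + ∑ c, cs T σ c * fr T.G c f + Cmp.cz T * f := by
  cases σ
  exacts [Cmp.tk4_eq T f, Cmp.tk0_eq T f]

namespace Brg

variable (b : Brg A ι)

noncomputable def oo (σ : Bool) : Op A (Fin 6) := cond σ b.toCmp.o0 b.toCmp.o4

theorem ev_oo (σ : Bool) (f : A) : (b.oo σ).ev b.Y id f = b.K.tk σ f := by
  cases σ
  exacts [b.toCmp.ev_o4 f, b.toCmp.ev_o0 f]

theorem ok_oo (σ : Bool) : Ok b.S (b.oo σ) 3 := by
  cases σ
  exacts [b.toCmp.ok_o4, b.toCmp.ok_o0]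

theorem wave (σ : Bool) {e : Op A (Fin 6)} {k : ℕ} (he : Ok b.S e (k + 1)) :
    b.U.Qa (k + 1) (k + 3) 2 (b.T.tk σ (b.U.F e (b.T.ps σ)) - b.U.F ((b.oo σ).comp e) (b.T.ps σ)) ∧
    b.U.Qa (k + 1) (k + 3) 0 (b.U.F (e.comp (b.oo σ)) (b.T.ps σ)) := by
  cases σ
  exacts [b.toCmp.wave4 he, b.toCmp.wave0 he]

theorem cs_mem (σ : Bool) (c : Fin 6) :
    cs b.K σ c ∈ b.S ∧ P354XF.M b.gen 1 1 0 0 (cs b.T σ c, cs b.K σ c) := by
  cases σ
  · refine ⟨b.toCmp.co_mem.2.1 c, cast (congrArg _ ?_) (Cmp.m_co (b.T.prod b.K) c).2⟩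
    fin_cases c <;> rfl
  · refine ⟨b.toCmp.co_mem.1 c, cast (congrArg _ ?_) (Cmp.m_co (b.T.prod b.K) c).1⟩
    fin_cases c <;> rfl

/-- The horizontal and the vertical part. -/
noncomputable def hor (e : Fin 6) (f : A) : A := ∑ a, b.yX e a * b.X a f
noncomputable def ver (e : Fin 6) (f : A) : A := ∑ v, b.vX e v * b.Y (vt v) f

variable {b} (h : b.Is) {j n l k m : ℕ} {e : Op A (Fin 6)} {f : A}

theorem ZY_q (c : Fin 6) (hf : b.U.Ma j n 1 l f) :
    b.U.Qa (j + 1) (n + 1) (l + 1) (fr b.T.G c f - b.Y c f) := by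
  rw [b.ZY, add_sub_cancel_left]
  exact Duo.Qa.sum _ fun e _ => ((Duo.Ga.sg c e).mono (by omega)).da.q (hf.Y e)

include h

theorem Is.YY (d e : Fin 6) (hf : b.U.Ma j n 1 l f) : b.U.Ma (j + 1) (n + 1) 1 (l + 2)
    (b.Y d (b.Y e f) - ∑ a, ∑ a', b.yX d a * b.yX e a' * b.X a (b.X a' f)) := by
  have k1 : b.U.Ma j n 1 (l + 1) (b.ver e f) := Duo.Ma.sum _ fun v _ => (h.mV v hf).smul (h.vX e v)
  have k2 : b.U.Ma (j + 1) (n + 1) 1 (l + 1) (b.hor e f) :=
    Duo.Ma.sum _ fun a _ => (h.mX a hf).smul (h.yX e a)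
  have k3 : b.U.Ma (j + 1) (n + 1) 1 (l + 2) (b.ver d (b.hor e f)) :=
    Duo.Ma.sum _ fun v _ => (h.mV v k2).smul (h.vX d v)
  have k4 : b.U.Ma (j + 1) (n + 1) 1 (l + 2)
      (∑ a, ∑ a', b.yX d a * b.X a (b.yX e a') * b.X a' f) :=
    Duo.Ma.sum _ fun a _ => Duo.Ma.sum _ fun a' _ => ((h.mX a' hf).smul
      (mul_mem (h.yX d a) (h.sX a (h.yX e a')))).mono le_rfl le_rfl le_rfl (by omega)
  refine cast (congrArg _ ?_) (((k1.Y d).add k3).add k4)
  have e1 : b.Y e f = b.hor e f + b.ver e f := h.YX e f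
  have e2 : b.Y d (b.hor e f) = b.hor d (b.hor e f) + b.ver d (b.hor e f) := h.YX d _
  have e3 : b.hor d (b.hor e f) = ∑ a, ∑ a', b.yX d a * b.yX e a' * b.X a (b.X a' f) +
      ∑ a, ∑ a', b.yX d a * b.X a (b.yX e a') * b.X a' f := by
    simp only [hor, map_sum, Derivation.leibniz, smul_eq_mul, Finset.mul_sum,
      ← Finset.sum_add_distrib]
    exact Finset.sum_congr rfl fun _ _ => Finset.sum_congr rfl fun _ _ => by ring
  rw [e1, map_add, e2, e3]
  change b.Y d (b.ver e f) + _ + _ = _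
  ring

theorem Is.ZZ (c d : Fin 6) (hf : b.U.Ma j n 1 l f) : b.U.Qa (j + 1) (n + 1) (l + 2)
    (fr b.T.G c (fr b.T.G d f) - b.Y c (b.Y d f) - ∑ a, ∑ a', b.E c d a a' * b.X a (b.X a' f)) := by
  have g := fun c e => ((Duo.Ga.sg (U := b.U) c e).mono (show 1 ≤ l + 2 by omega))
  have k1 := Duo.Qa.sum Finset.univ fun e _ => (g c e).da.q (h.YY e d hf)
  have k2 := Duo.Qa.sum Finset.univ fun e _ => (g d e).da.q (h.YY c e hf)
  have k3 := Duo.Qa.sum Finset.univ fun e _ => Duo.Qa.sum Finset.univ fun e' _ =>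
    ((g c e).mul (g d e')).da.q (h.YY e e' hf)
  have k4 := Duo.Qa.sum Finset.univ fun e _ => (((Duo.Ga.sg d e).Z c).mono
    (show 1 + 1 ≤ l + 2 by omega)).da.q ((hf.Y e).mono le_rfl le_rfl le_rfl (by omega))
  refine cast (congrArg _ ?_) (((k1.add k2).add k3).add k4)
  have e1 : fr b.T.G c (fr b.T.G d f) = b.Y c (b.Y d f) + ∑ e, b.sg c e * b.Y e (b.Y d f) +
      ∑ e, b.sg d e * b.Y c (b.Y e f) + ∑ e, ∑ e', b.sg c e * b.sg d e' * b.Y e (b.Y e' f) +
      ∑ e, fr b.T.G c (b.sg d e) * b.Y e f := by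
    rw [b.ZY d f, map_add, b.ZY c (fr b.K.G d f), map_sum, Finset.sum_comm]
    simp only [Derivation.leibniz, smul_eq_mul, Finset.sum_add_distrib, b.ZY c (fr b.K.G _ f),
      mul_add, Finset.mul_sum, mul_comm (fr b.K.G _ f), mul_left_comm (b.sg d _), mul_assoc]
    ring
  have e2 : ∑ a, ∑ a', b.E c d a a' * b.X a (b.X a' f) =
      ∑ e, b.sg c e * ∑ a, ∑ a', b.yX e a * b.yX d a' * b.X a (b.X a' f) +
      ∑ e, b.sg d e * ∑ a, ∑ a', b.yX c a * b.yX e a' * b.X a (b.X a' f) +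
      ∑ e, ∑ e', b.sg c e * b.sg d e' * ∑ a, ∑ a', b.yX e a * b.yX e' a' * b.X a (b.X a' f) := by
    have s1 : ∀ F : Fin 6 → Fin 5 → Fin 5 → A, ∑ e, ∑ a, ∑ a', F e a a' = ∑ a, ∑ a', ∑ e, F e a a' :=
      fun F => by
        rw [Finset.sum_comm]
        exact Finset.sum_congr rfl fun _ _ => Finset.sum_comm
    simp only [Finset.mul_sum, s1, ← Finset.sum_add_distrib]
    refine Finset.sum_congr rfl fun a _ => Finset.sum_congr rfl fun a' _ => ?_
    simp only [E, zX, Fin.sum_univ_six]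
    ring
  rw [e1, e2]
  simp only [mul_sub, Finset.sum_sub_distrib]
  change ∑ e, b.sg c e * b.Y e (b.Y d f) - ∑ e, b.sg c e * _ + (∑ e, b.sg d e * b.Y c (b.Y e f) -
    ∑ e, b.sg d e * _) + (∑ e, ∑ e', b.sg c e * b.sg d e' * b.Y e (b.Y e' f) -
    ∑ e, ∑ e', b.sg c e * b.sg d e' * _) + ∑ e, fr b.T.G c (b.sg d e) * b.Y e f = _
  ring

omit h in
theorem anti (c d : Fin 6) (hf : b.U.Ma j n 1 l f) : b.U.Qa (j + 1) (n + 3) (l + 1)
    (fr b.T.G c (fr b.T.G d f) - fr b.T.G d (fr b.T.G c f) - (b.Y c (b.Y d f) - b.Y d (b.Y c f))) := by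
  have := Duo.Qa.sum Finset.univ fun e _ => (Duo.coef ((b.U.mga c d e).mono
    (show 1 ≤ j + 1 by omega) le_rfl le_rfl le_rfl) (b.U.Sg c d e) (hf.Z e)).add
    (((ZY_q e hf).smul (b.U.Sg c d e)).mono le_rfl (by omega) le_rfl)
  refine cast (congrArg₂ (b.U.Qa (j + 1) · (l + 1)) (by omega) ?_) this
  rw [b.T.comm c d, b.K.comm c d, add_sub_cancel_left, add_sub_cancel_left,
    ← Finset.sum_sub_distrib]
  exact Finset.sum_congr rfl fun e _ => by
    change (gam b.T.G c d e - gam b.K.G c d e) * fr b.T.G e f + gam b.K.G c d e * _ = _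
    ring

theorem Is.sy2 (c d : Fin 6) (hf : b.U.Ma j n 1 l f) : b.U.Qa (j + 1) (n + 3) (l + 2)
    (fr b.T.G c (fr b.T.G d f) - b.Y c (b.Y d f) - algebraMap ℂ A (1 / 2) *
      ∑ a, ∑ a', (b.E c d a a' + b.E d c a a') * b.X a (b.X a' f)) := by
  have := ((((h.ZZ c d hf).add (h.ZZ d c hf)).mono le_rfl (by omega) le_rfl).add
    ((anti c d hf).mono le_rfl le_rfl (by omega))).smul (b.S.algebraMap_mem (1 / 2))
  refine cast (congrArg _ ?_) this
  have t : algebraMap ℂ A (1 / 2) * 2 = 1 := by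
    rw [← map_ofNat (algebraMap ℂ A) 2, ← map_mul]
    norm_num
  simp only [add_mul, Finset.sum_add_distrib]
  linear_combination (fr b.T.G c (fr b.T.G d f) - b.Y c (b.Y d f)) * t

theorem Is.tkd (σ : Bool) (hf : b.U.Ma j n 1 l f) :
    b.U.Qa (j + 1) (n + 3) (l + 2) (b.T.tk σ f - b.K.tk σ f + b.sm * b.Q f) := by
  have k1 := Duo.Qa.sum Finset.univ fun c _ => (Duo.coef ((b.cs_mem σ c).2.mono
    (show 1 ≤ j + 1 by omega) le_rfl le_rfl le_rfl) (b.cs_mem σ c).1 (hf.Z c)).add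
    (((ZY_q c hf).smul (b.cs_mem σ c).1).mono le_rfl (by omega) le_rfl)
  have k2 := Duo.coef (U := b.U) (((b.T.prod b.K).m_c0).mono (show 1 ≤ j + 1 by omega) le_rfl le_rfl
    le_rfl) b.toCmp.co_mem.2.2 (hf.mono (Nat.le_succ j) le_rfl le_rfl le_rfl)
  have := (((h.sy2 (la σ 0) (la σ 1) hf).sub (h.sy2 (la σ 2) (la σ 3) hf)).add
    (k1.mono le_rfl (by omega) (by omega))).add (k2.mono le_rfl (by omega) (by omega))
  refine cast (congrArg _ ?_) this
  have e1 : b.sm * b.Q f = -(algebraMap ℂ A (1 / 2) *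
      (∑ a, ∑ a', (b.E (la σ 0) (la σ 1) a a' + b.E (la σ 1) (la σ 0) a a') * b.X a (b.X a' f) -
      ∑ a, ∑ a', (b.E (la σ 2) (la σ 3) a a' + b.E (la σ 3) (la σ 2) a a') * b.X a (b.X a' f))) := by
    simp only [Q, Finset.mul_sum, ← Finset.sum_sub_distrib, ← Finset.sum_neg_distrib]
    refine Finset.sum_congr rfl fun a _ => Finset.sum_congr rfl fun a' _ => ?_
    cases σ <;> simp only [del, la, cond, Matrix.cons_val] <;>
      linear_combination (-(algebraMap ℂ A (1 / 2) * (b.E 0 1 a a' + b.E 1 0 a a' - b.E 2 3 a a' -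
        b.E 3 2 a a')) * b.X a (b.X a' f)) * h.ss
  have e2 : ∑ c, ((cs b.T σ c - cs b.K σ c) * b.U.Z c f + cs b.K σ c * (fr b.T.G c f - b.Y c f)) =
      ∑ c, cs b.T σ c * fr b.T.G c f - ∑ c, cs b.K σ c * fr b.K.G c f := by
    rw [← Finset.sum_sub_distrib]
    exact Finset.sum_congr rfl fun c _ => by
      change (_ - _) * fr b.T.G c f + _ = _
      ring
  rw [e1, e2, tk_eq, tk_eq]
  change _ + (Cmp.cz b.T - Cmp.cz b.K) * f = _
  ring

theorem Is.Qw {x : A} (hx : x ∈ b.S) (hf : b.U.Ma j n 1 l f) :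
    b.U.Qa (j + 1) (n + 1) (l + 1) (b.Q (x * f) - x * b.Q f) := by
  have := Duo.Qa.sum Finset.univ fun a _ => Duo.Qa.sum Finset.univ fun a' _ =>
    ((h.g_del a a' []).mono (show 0 + 1 ≤ l + 1 by omega)).da.q
      ((((h.mX a' hf).smul (h.sX a hx)).add ((h.mX a hf).smul (h.sX a' hx))).add
        ((hf.smul (h.sX a (h.sX a' hx))).mono (by omega) (by omega) le_rfl (by omega)))
  refine cast (congrArg _ ?_) this
  simp only [Q, Finset.mul_sum, ← Finset.sum_sub_distrib, wd, map_add, Derivation.leibniz,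
    smul_eq_mul]
  exact Finset.sum_congr rfl fun _ _ => Finset.sum_congr rfl fun _ _ => by ring

omit h in
/-- The terms which vanish on the sections of the right weight. -/
noncomputable def VO (_b : Brg A ι) (σ v : Bool) (e : Op A (Fin 6)) : Op A (Fin 6) :=
  (Op.der (vt v) e).sub (.smul (algebraMap ℂ A (wgt σ v)) e)

omit h in
noncomputable def EO (b : Brg A ι) (σ : Bool) (e : Op A (Fin 6)) : Op A (Fin 6) :=
  lsum (Finset.univ.toList.map fun v => .add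
    (lsum (Finset.univ.toList.map fun c => .smul (b.e σ v c) (.der c (b.VO σ v e))))
    (.smul (b.u σ v) (b.VO σ v e)))

omit h in
theorem ev_EO {R : Type*} [CommRing R] [Algebra ℂ R] (D : Fin 6 → Der R) (i : A →ₐ[ℂ] R) (σ : Bool)
    (e : Op A (Fin 6)) (P : R) : (b.EO σ e).ev D i P = ∑ v,
      (∑ c, i (b.e σ v c) * D c (D (vt v) (e.ev D i P) - wgt σ v • e.ev D i P) +
        i (b.u σ v) * (D (vt v) (e.ev D i P) - wgt σ v • e.ev D i P)) := by
  simp only [EO, VO, Op.sub, ev_lsum, List.map_map, Function.comp_def, ev, Finset.sum_map_toList,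
    map_neg, map_one, AlgHom.commutes, ← Algebra.smul_def, neg_one_mul, ← sub_eq_add_neg]

theorem Is.ok_EO (σ : Bool) (he : Ok b.S e (k + 1)) : Ok b.S (b.EO σ e) (k + 3) := by
  have k1 : ∀ v, Ok b.S (b.VO σ v e) (k + 2) := fun v =>
    (he.der _).sub ((he.mono (by omega)).smul (b.S.algebraMap_mem _))
  refine Ok.lsum ?_
  simp only [List.mem_map]
  rintro _ ⟨v, -, rfl⟩
  refine (Ok.lsum ?_).add (((k1 v).mono (by omega)).smul (h.u σ v))
  simp only [List.mem_map]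
  rintro _ ⟨c, -, rfl⟩
  exact ((k1 v).der c).smul (h.e σ v c)

theorem Is.Fr_EO (σ : Bool) (J : List (Fin 5)) :
    b.U.Fr (b.EO σ (b.XW (b.e0 σ) J)) (b.T.ps σ) = 0 := by
  have := fun v => h.Fr_V σ v J
  rw [Duo.Fr, ev_EO]
  simp only [Duo.Fr] at this
  simp [this]

/-- The perturbed operator on the family. -/
theorem Is.k1 (σ : Bool) (J : List (Fin 5)) : b.U.Qa (J.length + 1) (J.length + 3) 2
    (b.P (spn σ) (spn σ) (b.fm σ J) + b.Q (b.fm σ J) -
      b.U.F (b.OP (spn σ) (spn σ) (b.XW (b.e0 σ) J)) (b.T.ps σ)) := by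
  have he := h.ok_fm σ J
  have q1 := (b.wave σ (he.smul (h.w σ))).1
  have q2 := Duo.transfer' (U := b.U) (k := J.length + 1) h.span
    (((b.ok_oo σ).comp (he.smul (h.w σ))).mono (by omega))
    ((((h.ok_OP (spn σ) (spn σ) he).smul (neg_mem h.sm)).add (h.ok_EO σ he)).smul (h.w σ))
    (fun f => by
      have e1 := ev_EO (b := b) b.Y (AlgHom.id ℂ A) σ (b.XW (b.e0 σ) J) f
      rw [ev_comp]
      refine (b.ev_oo σ _).trans ((h.teu σ _).trans ?_)
      exact congrArg₂ (· * ·) rfl (congrArg₂ (· + ·)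
        ((neg_mul _ _).symm.trans (congrArg _ (h.ev_OP _ _ _ f).symm)) e1.symm)) (b.mps σ)
  have q3 := h.tkd σ ((h.m_fm σ J).smul (h.w σ))
  have q4 := (h.Qw (h.w σ) (h.m_fm σ J)).smul h.sm
  have e1 := h.teu σ (b.fm σ J)
  have e2 : b.U.F (b.EO σ (b.XW (b.e0 σ) J)) (b.T.ps σ) = 0 := by rw [Duo.F, h.Fr_EO, map_zero]
  simp only [h.V_fm, sub_self, map_zero, mul_zero, Finset.sum_const_zero, add_zero] at e1
  have := (((q1.add (q2.mono (by omega) (by omega) (by omega))).sub q3).add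
    (q4.mono le_rfl (by omega) (by omega))).smul (neg_mem (mul_mem (h.wi σ) h.smi))
  refine cast (congrArg _ ?_) this
  simp only [Duo.F_smul, Duo.F_add, e2, ← fm.eq_1, e1]
  linear_combination (b.P (spn σ) (spn σ) (b.fm σ J) + b.Q (b.fm σ J) -
    b.U.F (b.OP (spn σ) (spn σ) (b.XW (b.e0 σ) J)) (b.T.ps σ)) * (b.sm * b.smi * h.ww σ + h.ss)

/-- The equation of the curvature component inside any operator. -/
theorem Is.k2 (σ : Bool) (he : Ok b.S e (k + 1)) : b.U.Qa (k + 1) (k + 3) 0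
    (b.U.F (e.comp (b.OP (spn σ) (spn σ) (b.e0 σ))) (b.T.ps σ)) := by
  have h1 : Ok b.S (e.comp (.smul (-(b.smi * b.wi σ)) .one)) (k + 1) :=
    he.comp ((Ok.one 0).smul (neg_mem (mul_mem h.smi (h.wi σ))))
  have q2 := Duo.transfer' (U := b.U) (k := k + 1) h.span (he.comp (h.ok_OP (spn σ) (spn σ) (h.ok_e0 σ)))
    ((h1.comp (b.ok_oo σ)).add (he.comp ((h.ok_EO σ (h.ok_e0 σ)).smul h.smi))) (fun f => by
      have e1 := ev_EO (b := b) b.Y (AlgHom.id ℂ A) σ (b.e0 σ) f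
      have e2 := h.teu σ (b.wi σ * f)
      rw [← mul_assoc, h.ww, one_mul] at e2
      rw [ev, ev_comp, ev_comp, ev_comp, ev_comp, ← ev_add]
      refine congrArg _ ((h.ev_OP _ _ _ f).trans ?_)
      change b.P _ _ (b.wi σ * f) = -(b.smi * b.wi σ) * (b.oo σ).ev b.Y id f +
        b.smi * (b.EO σ (b.e0 σ)).ev b.Y (AlgHom.id ℂ A) f
      rw [ev_oo, e2, e1]
      change _ = _ + b.smi * ∑ v, (∑ c, b.e σ v c * b.Y c (b.Y (vt v) (b.wi σ * f) -
        wgt σ v • (b.wi σ * f)) + b.u σ v * (b.Y (vt v) (b.wi σ * f) - wgt σ v • (b.wi σ * f)))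
      linear_combination (-b.P (spn σ) (spn σ) (b.wi σ * f)) * h.ss - b.smi *
        (b.sm * b.P (spn σ) (spn σ) (b.wi σ * f) - ∑ v, (∑ c, b.e σ v c * b.Y c (b.Y (vt v)
          (b.wi σ * f) - wgt σ v • (b.wi σ * f)) + b.u σ v * (b.Y (vt v) (b.wi σ * f) -
            wgt σ v • (b.wi σ * f)))) * h.ww σ) (b.mps σ)
  have e2 : b.U.F (e.comp (.smul b.smi (b.EO σ (b.e0 σ)))) (b.T.ps σ) = 0 := by
    have := h.Fr_EO σ []
    rw [Duo.Fr, XW] at this
    rw [Duo.F, Duo.Fr, ev_comp, ev, this, mul_zero, ← zero_smul ℂ (0 : Duo.Rg A), Duo.ev_smul,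
      zero_smul, map_zero]
  have := (q2.mono (by omega) (by omega) le_rfl).add (b.wave σ h1).2
  rwa [Duo.F_add, e2, add_zero, sub_add_cancel] at this

end Brg

end Vale.Agent.P354XF
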