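import Vale.Agent.P354XF.Brg2

/-!
Normal forms, and the equations of the family up to terms of lower order.
-/

namespace Vale.Agent.P354XF

open Op

variable {A : Type*} [CommRing A] [Algebra ℂ A] {ι : Type}

namespace Brg

/-- Combinations of the members of the family of level at most m. -/
inductive Cb (b : Brg A ι) (σ : Bool) (m : ℕ) : A → Prop
  | fm {x : A} {J : List (Fin 5)} : x ∈ b.S → J.length ≤ m → Cb b σ m (x * b.fm σ J)
  | zero : Cb b σ m 0
  | add {f f' : A} : Cb b σ m f → Cb b σ m f' → Cb b σ m (f + f')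

/-- The same up to errors. -/
def Cq (b : Brg A ι) (σ : Bool) (m j n l : ℕ) (f : A) : Prop :=
  ∃ x, b.Cb σ m x ∧ b.U.Qa j n l (f - x)

/-- Operators in normal form. -/
inductive Nl (b : Brg A ι) (m : ℕ) : (A → A) → Prop
  | one {x : A} {J : List (Fin 5)} {w : List Bool} : x ∈ b.S → J.length + w.length ≤ m →
      Nl b m fun f => x * wd b.X J (wd b.Y (w.map vt) f)
  | zero : Nl b m fun _ => 0
  | add {L L' : A → A} : Nl b m L → Nl b m L' → Nl b m fun f => L f + L' f

variable {b : Brg A ι} {σ : Bool} {j n l k m j' n' l' m' : ℕ} {e u : Op A (Fin 6)} {f f' x : A}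
  {L L' : A → A}

theorem Cb.bd (h : b.Cb σ m f) (K0 : ℝ) : ∃ C, 0 ≤ C ∧ ∀ L N mu ds al φ,
    b.U.Pt L N K0 mu ds al φ → ∀ nm, (∀ J : List (Fin 5), J.length ≤ m → ‖φ (b.fm σ J)‖ ≤ nm) →
      ‖φ f‖ ≤ C * nm := by
  induction h with
  | fm h1 h2 =>
    obtain ⟨C, p, h⟩ := Duo.ref_bd h1 K0
    refine ⟨C, p, fun L N mu ds al φ q nm hn => ?_⟩
    rw [map_mul, norm_mul]
    exact mul_le_mul (h L N mu ds al φ q) (hn _ h2) (norm_nonneg _) p
  | zero => exact ⟨0, le_rfl, fun _ _ _ _ _ _ _ _ _ => by simp⟩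
  | add _ _ h1 h2 =>
    obtain ⟨C, p, h1⟩ := h1
    obtain ⟨C', p', h2⟩ := h2
    refine ⟨C + C', by positivity, fun L N mu ds al φ q nm hn => ?_⟩
    rw [map_add, add_mul]
    exact norm_add_le_of_le (h1 L N mu ds al φ q nm hn) (h2 L N mu ds al φ q nm hn)

theorem Cq.q (h : b.Cq σ m j n l f) (h' : b.U.Qa j n l (f' - f)) : b.Cq σ m j n l f' :=
  h.imp fun _ h => ⟨h.1, sub_add_sub_cancel f' f _ ▸ h'.add h.2⟩

theorem Cq.mono (h : b.Cq σ m j n l f) (e1 : j ≤ j') (e2 : n ≤ n') (e3 : l ≤ l') :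
    b.Cq σ m j' n' l' f := h.imp fun _ h => ⟨h.1, h.2.mono e1 e2 e3⟩

theorem Cq.bd (h : b.Cq σ m j n l f) (K0 : ℝ) : ∃ C, 0 ≤ C ∧ ∀ L N mu ds al φ,
    b.U.Pt L N K0 mu ds al φ → l ≤ L → n ≤ N → ∀ nm,
      (∀ J : List (Fin 5), J.length ≤ m → ‖φ (b.fm σ J)‖ ≤ nm) →
      ‖φ f‖ ≤ C * (nm + (ds + mu) * al j) := by
  obtain ⟨x, h1, h2⟩ := h
  obtain ⟨C, p, h1⟩ := h1.bd K0
  obtain ⟨C', p', h2⟩ := h2.bd K0
  refine ⟨C + C', by positivity, fun L N mu ds al φ q hl hn nm hm => ?_⟩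
  have a1 : 0 ≤ nm := (norm_nonneg _).trans (hm [] (Nat.zero_le _))
  have a2 := mul_nonneg (add_nonneg q.ds0 ((q.sz.nn _).trans q.half)) (q.sz.nn j)
  rw [← add_sub_cancel x f, map_add, add_mul]
  exact norm_add_le_of_le ((h1 L N mu ds al φ q nm hm).trans
    (mul_le_mul_of_nonneg_left (by linarith) p))
    ((h2 L N mu ds al φ q hl hn).trans (mul_le_mul_of_nonneg_left (by linarith) p'))

theorem Nl.congr (h : b.Nl m L) (e : ∀ f, L' f = L f) : b.Nl m L' := funext e ▸ h

theorem Nl.mono (h : b.Nl m L) (e : m ≤ m') : b.Nl m' L := by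
  induction h with
  | one h1 h2 => exact .one h1 (by omega)
  | zero => exact .zero
  | add _ _ h1 h2 => exact h1.add h2

theorem Nl.smul (hx : x ∈ b.S) (h : b.Nl m L) : b.Nl m fun f => x * L f := by
  induction h with
  | one h1 h2 => exact (Nl.one (mul_mem hx h1) h2).congr fun _ => (mul_assoc _ _ _).symm
  | zero => exact Nl.zero.congr fun _ => mul_zero _
  | add _ _ h1 h2 => exact (h1.add h2).congr fun _ => mul_add _ _ _

theorem Nl.sum {κ : Type} (s : Finset κ) {L : κ → A → A} (h : ∀ i, b.Nl m (L i)) :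
    b.Nl m fun f => ∑ i ∈ s, L i f := by
  classical
  induction s using Finset.induction_on with
  | empty => exact Nl.zero.congr fun _ => Finset.sum_empty
  | insert i s hi ih => exact ((h i).add ih).congr fun _ => Finset.sum_insert hi

variable (h : b.Is)
include h

theorem Is.V_wd (v : Bool) (J : List (Fin 5)) (f : A) :
    b.Y (vt v) (wd b.X J f) = wd b.X J (b.Y (vt v) f) := by
  induction J with
  | nil => rfl
  | cons a J ih => rw [wd, h.VX, ih, wd]

theorem Is.nl_der (c : Fin 6) (q : b.Nl m L) : b.Nl (m + 1) fun f => b.Y c (L f) := by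
  induction q with
  | @one x J w h1 h2 =>
    refine ((Nl.one (J := J) (w := w) (Duo.SY' c h1) (by omega)).add (((Nl.sum Finset.univ fun a =>
      Nl.one (J := a :: J) (w := w) (h.yX c a) (by rw [List.length_cons]; omega)).add
      (Nl.sum Finset.univ fun v => Nl.one (J := J) (w := v :: w) (h.vX c v)
        (by rw [List.length_cons]; omega))).smul h1)).congr fun f => ?_
    rw [Derivation.leibniz, smul_eq_mul, smul_eq_mul, h.YX c, add_comm, mul_comm]
    simp only [h.V_wd]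
    rfl
  | zero => exact Nl.zero.congr fun _ => map_zero _
  | add _ _ h1 h2 => exact (h1.add h2).congr fun _ => map_add _ _ _

theorem Is.nl (hu : Ok b.S u (m + 1)) : b.Nl m (u.ev b.Y id) := by
  have : ∀ u k, Ok b.S u k → ∀ m, k ≤ m + 1 → b.Nl m (u.ev b.Y id) := fun u k h0 => by
    clear hu
    induction h0 with
    | one =>
      exact fun m _ => (Nl.one (J := []) (w := []) (one_mem _) (by simp)).congr
        fun f => (one_mul f).symm
    | zero => exact fun _ _ => .zero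
    | smul h1 _ ih => exact fun m hm => (ih m hm).smul h1
    | der c h0 ih =>
      rintro (_ | m) hm
      · exact Nl.zero.congr fun f => by rw [ev, (h0.mono (by omega)).ev_zero, map_zero]
      · exact h.nl_der c (ih m (by omega))
    | add _ _ h1 h2 => exact fun m hm => (h1 m hm).add (h2 m hm)
  exact this _ _ hu m le_rfl

theorem Is.Fr_vw (σ : Bool) (w : List Bool) :
    wd b.U.dl (w.map vt) (b.U.Fr (b.e0 σ) (b.T.ps σ)) =
      (w.map (wgt σ)).prod • b.U.Fr (b.e0 σ) (b.T.ps σ) := by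
  induction w with
  | nil => simp [wd]
  | cons v w ih =>
    rw [List.map_cons, wd, ih, Derivation.map_smul, show b.U.dl (vt v) (b.U.Fr (b.e0 σ) _) = _ from
      h.Fr_V σ v [], smul_smul, List.map_cons, List.prod_cons, mul_comm]
    rfl

theorem Is.nl_F (σ : Bool) (q : b.Nl m L) : ∃ e, Ok b.S e (m + 1) ∧ (∀ f, L f = e.ev b.Y id f) ∧
    b.Cb σ m (b.U.F (e.comp (b.e0 σ)) (b.T.ps σ)) := by
  induction q with
  | @one x J w h1 h2 =>
    refine ⟨.smul x (b.XW (word (w.map vt)) J), ((h.ok_XW (Ok.word _) J).mono (by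
      rw [List.length_map]; omega)).smul h1, fun f => by rw [ev, h.ev_XW, ev_word, id], ?_⟩
    refine cast (congrArg _ ?_) (Cb.fm (J := J) (mul_mem h1 (b.S.algebraMap_mem
      (w.map (wgt σ)).prod)) (by omega))
    rw [comp, Duo.F_smul, Duo.F, Duo.Fr, ev_comp, ev_XW', ev_word, ← Duo.Fr, h.Fr_vw, Duo.ev_smul,
      Duo.Fr, ← ev_XW', map_smul, mul_assoc, ← Algebra.smul_def]
    rfl
  | zero => exact ⟨.zero, .zero _, fun _ => rfl, (b.U.F_zero _).symm ▸ .zero⟩
  | add _ _ h1 h2 =>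
    obtain ⟨e, a1, a2, a3⟩ := h1
    obtain ⟨e', b1, b2, b3⟩ := h2
    exact ⟨.add e e', a1.add b1, fun f => congrArg₂ (· + ·) (a2 f) (b2 f),
      (b.U.F_add _ _ _).symm ▸ a3.add b3⟩

/-- The family spans all operators. -/
theorem Is.span_F (σ : Bool) (hu : Ok b.S u (m + 1)) :
    b.Cq σ m m (m + 2) 0 (b.U.F (u.comp (b.e0 σ)) (b.T.ps σ)) := by
  obtain ⟨e, a1, a2, a3⟩ := h.nl_F σ (h.nl hu)
  exact ⟨_, a3, (Duo.transfer' (U := b.U) (k := m) h.span ((hu.comp (h.ok_e0 σ)).mono (by omega))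
    ((a1.comp (h.ok_e0 σ)).mono (by omega)) (fun f => (ev_comp _ _ _ _ f).trans
      ((a2 _).trans (ev_comp _ _ _ _ f).symm))
    (b.mps σ)).mono (by omega) (by omega) le_rfl⟩

/-- The jets of the curvature component from the family. -/
theorem Is.jets (σ : Bool) (w : List (Fin 6)) :
    b.Cq σ w.length w.length (w.length + 2) 0 (wd (fr b.T.G) w (b.T.ps σ)) := by
  refine cast (congrArg _ ?_) (h.span_F σ ((Ok.word w).comp ((Ok.one 0).smul (h.w σ))))
  rw [← show _ = wd (fr b.T.G) w (b.T.ps σ) from b.U.F_word w _, Duo.F, Duo.F, Duo.Fr, Duo.Fr,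
    ev_comp, ev_comp]
  simp only [e0, ev, ← mul_assoc, ← map_mul, h.ww, map_one, one_mul]

theorem Is.ok_one (J : List (Fin 5)) : Ok b.S (b.XW .one J) (J.length + 1) := by
  simpa using h.ok_XW (Ok.one 0) J

theorem Is.k4 (σ : Bool) (J : List (Fin 5)) (s : ℂ) (hu : Ok b.S u (J.length + 2))
    (hc : ∀ f, b.P s (spn σ) (wd b.X J f) = wd b.X J (b.P (spn σ) (spn σ) f) + u.ev b.Y id f) :
    b.U.Qa (J.length + 1) (J.length + 3) 2 (b.P s (spn σ) (b.fm σ J) + b.Q (b.fm σ J) -
      b.U.F (u.comp (b.e0 σ)) (b.T.ps σ)) := by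
  have q1 := Duo.transfer' (U := b.U) (k := J.length + 1) h.span (h.ok_OP s (spn σ) (h.ok_fm σ J))
    (((h.ok_one J).comp (h.ok_OP (spn σ) (spn σ) (h.ok_e0 σ))).add
      ((hu.comp (h.ok_e0 σ)).mono (by omega))) (fun f => by
      change (b.OP _ _ _).ev b.Y id f = Op.ev b.Y id _ f + Op.ev b.Y id _ f
      rw [ev_comp, ev_comp, h.ev_OP, h.ev_OP, h.ev_XW, h.ev_XW]
      exact hc _) (b.mps σ)
  have q2 := ((h.hon σ [1] J).smul (mul_mem (b.S.algebraMap_mem (spn σ - s))
    (sub_mem (mul_mem (ofNat_mem _ 2) h.r) (mul_mem (ofNat_mem _ 2) h.M)))).add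
    ((h.hon σ [0] J).smul (mul_mem (b.S.algebraMap_mem (4 * (spn σ - s))) h.r))
  have := (((h.k1 σ J).add (q1.mono (by omega) (by omega) (by omega))).add
    ((h.k2 σ (h.ok_one J)).mono le_rfl le_rfl (by omega))).add
    (q2.mono (by simp +arith) (by simp +arith) (by simp))
  refine cast (congrArg _ ?_) this
  simp only [Duo.F_add, P, PP, OP, PL, Duo.F_lsum, List.map_cons, List.map_nil, Duo.F_smul,
    ← XW_append, ← fm.eq_1, List.sum_cons, List.sum_nil, List.nil_append, wd, map_sub, map_mul,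
    map_pow, map_ofNat, map_one]
  ring

theorem Is.Y_wd {W : List (Fin 5)} (hW : ∀ x ∈ W, x = 0 ∨ x = 4) (s k : ℂ) (f : A) :
    b.P s k (wd b.X W f) = wd b.X W (b.P s k f) := by
  induction W with
  | nil => rfl
  | cons a W ih =>
    rw [wd, wd, ← ih fun x hx => hW x (by simp [hx]), h.YP a (hW a (by simp))]

/-- The words in T and the axial field. -/
theorem Is.eqY (σ : Bool) {W : List (Fin 5)} (hW : ∀ x ∈ W, x = 0 ∨ x = 4) (J : List (Fin 5)) :
    b.U.Qa (W.length + 1 + J.length) (W.length + 3 + J.length) (2 + J.length)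
      (wd b.X J (b.P (spn σ) (spn σ) (b.fm σ W) + b.Q (b.fm σ W))) := by
  have := h.k4 σ W (spn σ) (.zero _) fun f => by rw [h.Y_wd hW, ev, add_zero]
  rw [comp, Duo.F_zero, sub_zero] at this
  exact h.qwd J this

/-- All words. -/
theorem Is.eqA (σ : Bool) (J : List (Fin 5)) : b.Cq σ (J.length + 1) (J.length + 1) (J.length + 3) 2
    (b.P (spn σ) (spn σ) (b.fm σ J) + b.Q (b.fm σ J)) := by
  obtain ⟨v, k1, k2⟩ := Duo.comm_low (U := b.U) h.span (h.ok_OP (spn σ) (spn σ) (Ok.one 0))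
    (h.ok_one J)
  have k3 : Ok b.S v (J.length + 2) := k1.mono (by omega)
  refine ((h.span_F σ k3).mono le_rfl le_rfl (by omega)).q (h.k4 σ J _ k3 fun f => ?_)
  have := k2 f
  change (b.OP _ _ _).ev b.Y id ((b.XW _ J).ev b.Y id f) -
    (b.XW _ J).ev b.Y id ((b.OP _ _ _).ev b.Y id f) = v.ev b.Y id f at this
  simp only [h.ev_OP, h.ev_XW, ev] at this
  rw [← this, add_sub_cancel]

theorem Is.RJ {W : List (Fin 5)} (hW : ∀ x ∈ W, x = 0 ∨ x = 4) (s k : ℂ) (j : ℕ) :
    ∃ u, Ok b.S u (j + W.length + 1) ∧ ∀ f, b.P (s - j) k (wd b.X (List.replicate j 1 ++ W) f) =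
      wd b.X (List.replicate j 1 ++ W) (b.P s k f) + u.ev b.Y id f := by
  induction j with
  | zero => exact ⟨.zero, .zero _, fun f => by simpa [ev] using h.Y_wd hW s k f⟩
  | succ j ih =>
    obtain ⟨u, k1, k2⟩ := ih
    refine ⟨(b.XW u [1]).sub (.smul (algebraMap ℂ A (2 * (1 - 2 * (s - j))))
      (b.XW .one (0 :: (List.replicate j 1 ++ W)))), ((h.ok_XW k1 [1]).mono (by simp +arith)).sub
        (((h.ok_one _).mono (by simp +arith)).smul (b.S.algebraMap_mem _)), fun f => ?_⟩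
    have := h.RP (s - j) k (wd b.X (List.replicate j 1 ++ W) f)
    rw [k2, map_add, sub_sub] at this
    simp only [Op.sub, ev, h.ev_XW, wd, id, List.replicate_succ, List.cons_append, Nat.cast_succ]
    linear_combination -this

/-- The radial words. -/
theorem Is.eqR (σ : Bool) {W : List (Fin 5)} (hW : ∀ x ∈ W, x = 0 ∨ x = 4) (j : ℕ) :
    b.Cq σ (j + W.length) (j + W.length + 1) (j + W.length + 3) 2
      (b.P (spn σ - j) (spn σ) (b.fm σ (List.replicate j 1 ++ W)) +
        b.Q (b.fm σ (List.replicate j 1 ++ W))) := by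
  obtain ⟨u, k1, k2⟩ := h.RJ hW (spn σ) (spn σ) j
  have := h.k4 σ _ _ (k1.mono (by simp)) k2
  rw [List.length_append, List.length_replicate] at this
  exact ((h.span_F σ k1).mono (by omega) (by omega) (by omega)).q this

omit h in
theorem wd_append {B : Type*} (Z : B → Der A) (p q : List B) (f : A) :
    wd Z (p ++ q) f = wd Z p (wd Z q f) := by
  induction p with
  | nil => rfl
  | cons a p ih => simp only [List.cons_append, wd, ih]

/-- The exchange of two letters. -/
theorem Is.swap (σ : Bool) (p q : List (Fin 5)) (c d : Fin 5) :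
    b.Cq σ (p.length + q.length + 1) (p.length + q.length + 1) (p.length + q.length + 3) 0
      (b.fm σ (p ++ c :: d :: q) - b.fm σ (p ++ d :: c :: q)) := by
  obtain ⟨v, k1, k2⟩ := Duo.comm_low (U := b.U) h.span (h.ok_one [c]) (h.ok_one [d])
  have k3 : Ok b.S ((b.XW .one p).comp (v.comp (b.XW .one q))) (p.length + q.length + 1 + 1) :=
    ((h.ok_one p).comp (Ok.comp (k := 1) k1 (h.ok_one q))).mono (by omega)
  refine (h.span_F σ k3).q ?_
  have := Duo.transfer' (U := b.U) (k := p.length + q.length + 1) h.span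
    (((h.ok_fm σ (p ++ c :: d :: q)).mono (by simp +arith)).sub
      ((h.ok_fm σ (p ++ d :: c :: q)).mono (by simp +arith)))
    ((k3.comp (h.ok_e0 σ)).mono (by omega)) (fun f => by
      have e := fun f => k2 f
      change ∀ f, (b.XW _ _).ev b.Y id ((b.XW _ _).ev b.Y id f) -
        (b.XW _ _).ev b.Y id ((b.XW _ _).ev b.Y id f) = v.ev b.Y id f at e
      change ((b.XW _ _).sub (b.XW _ _)).ev b.Y id f = Op.ev b.Y id _ f
      rw [ev_comp, ev_comp, ev_comp, ← e, ev_sub]
      simp only [Op.sub, ev, h.ev_XW, wd_append, wd, id]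
      ring) (b.mps σ)
  rw [Duo.F_sub] at this
  exact this.mono (by omega) (by omega) le_rfl

end Brg

end Vale.Agent.P354XF
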