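import Mathlib

/-!
Filtrations of a commutative algebra by generators and pointwise bounds.
-/

namespace Vale.Agent.P354XF

/-- The data of the generators: a level, the small ones, and the level of the frozen ones. -/
structure Gen (G R : Type*) where
  x : G → R
  lev : G → ℕ
  sm : G → Prop
  cl : G → ℕ

variable {G R : Type*} [CommRing R] [Algebra ℂ R] (g : Gen G R)

/-- M j n a l P: every monomial of P has factors of level at most j, total level at most n, at
least a small factors, and factors of frozen level at most l. -/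
inductive M : ℕ → ℕ → ℕ → ℕ → R → Prop
  | zero (j n a l : ℕ) : M j n a l 0
  | const (z : ℂ) : M 0 0 0 0 (algebraMap ℂ R z)
  | gen (x : G) : M (g.lev x) (g.lev x) 0 (g.cl x) (g.x x)
  | small (x : G) : g.sm x → M (g.lev x) (g.lev x) 1 (g.cl x) (g.x x)
  | add {j n a l : ℕ} {P Q : R} : M j n a l P → M j n a l Q → M j n a l (P + Q)
  | mul {j n n' a a' l : ℕ} {P Q : R} : M j n a l P → M j n' a' l Q →
      M j (n + n') (a + a') l (P * Q)
  | mono {j n a l j' n' a' l' : ℕ} {P : R} : M j n a l P → j ≤ j' → n ≤ n' →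
      a' ≤ a → l ≤ l' → M j' n' a' l' P

variable {g} {j n a l j' n' a' l' : ℕ} {P Q : R}

theorem M.c (z : ℂ) : M g j n 0 l (algebraMap ℂ R z) := (M.const z).mono (by omega) (by omega) le_rfl (by omega)

theorem M.one : M g j n 0 l 1 := by simpa using M.c (g := g) 1

theorem M.cmul (z : ℂ) (h : M g j n a l P) : M g j n a l (algebraMap ℂ R z * P) := by
  simpa using (M.c (n := 0) z).mul h

theorem M.neg (h : M g j n a l P) : M g j n a l (-P) := by simpa using h.cmul (-1)

theorem M.sub (h : M g j n a l P) (h' : M g j n a l Q) : M g j n a l (P - Q) := by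
  simpa [sub_eq_add_neg] using h.add h'.neg

theorem M.sum {ι : Type} (s : Finset ι) {f : ι → R}
    (h : ∀ i ∈ s, M g j n a l (f i)) : M g j n a l (∑ i ∈ s, f i) :=
  Finset.sum_induction _ _ (fun _ _ => M.add) (M.zero _ _ _ _) h

/-- The product with arbitrary indices. -/
theorem M.mul' {j1 n1 a1 l1 j2 n2 a2 l2 : ℕ} (h : M g j1 n1 a1 l1 P) (h' : M g j2 n2 a2 l2 Q)
    (e1 : j1 ≤ j) (e2 : j2 ≤ j) (e3 : n1 + n2 ≤ n) (e4 : a ≤ a1 + a2) (e5 : l1 ≤ l)
    (e6 : l2 ≤ l) : M g j n a l (P * Q) :=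
  ((h.mono e1 le_rfl le_rfl e5).mul (h'.mono e2 le_rfl le_rfl e6)).mono le_rfl e3 e4 le_rfl

theorem M.num (k : ℕ) [k.AtLeastTwo] : M g j n 0 l (ofNat(k) : R) := by
  have := M.c (g := g) (j := j) (n := n) (l := l) (k : ℂ)
  rwa [map_natCast] at this

/-- A derivation which raises the levels of the generator x by one and its frozen level by e. -/
def Up1 (g : Gen G R) (e : ℕ) (d : Derivation ℂ R R) (x : G) : Prop :=
  M g (g.lev x + 1) (g.lev x + 1) 0 (g.cl x + e) (d (g.x x)) ∧
    (g.sm x → M g (g.lev x + 1) (g.lev x + 1) 1 (g.cl x + e) (d (g.x x)))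

def Up (g : Gen G R) (e : ℕ) (d : Derivation ℂ R R) : Prop := ∀ x, Up1 g e d x

theorem M.der' {e : ℕ} {d : Derivation ℂ R R} (h : M g j n a l P)
    (hd : ∀ x, g.lev x ≤ j → Up1 g e d x) : M g (j + 1) (n + 1) a (l + e) (d P) := by
  induction h with
  | zero => simpa using M.zero _ _ _ _
  | const z => simpa using M.zero _ _ _ _
  | gen x => exact (hd x le_rfl).1
  | small x hx => exact (hd x le_rfl).2 hx
  | add _ _ h1 h2 => simpa using (h1 hd).add (h2 hd)
  | mul p1 p2 h1 h2 =>
    rw [Derivation.leibniz, smul_eq_mul, smul_eq_mul]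
    exact (p1.mul' (h2 hd) (by omega) le_rfl (by omega) le_rfl (by omega) le_rfl).add
      (p2.mul' (h1 hd) (by omega) le_rfl (by omega) (by omega) (by omega) le_rfl)
  | mono _ e1 e2 e3 e4 h =>
    exact (h fun x hx => hd x (by omega)).mono (by omega) (by omega) e3 (by omega)

theorem M.der {e : ℕ} {d : Derivation ℂ R R} (hd : Up g e d) (h : M g j n a l P) :
    M g (j + 1) (n + 1) a (l + e) (d P) := h.der' fun x _ => hd x

/-- Transport along a ring homomorphism which maps constants to constants. -/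
theorem M.map {G' R' : Type*} [CommRing R'] [Algebra ℂ R'] {g' : Gen G' R'} (f : R →+* R')
    (s : G → G') (hc : ∀ z, ∃ z', f (algebraMap ℂ R z) = algebraMap ℂ R' z')
    (hx : ∀ x, f (g.x x) = g'.x (s x) ∧ g'.lev (s x) = g.lev x ∧ g'.cl (s x) = g.cl x ∧
      (g.sm x → g'.sm (s x))) (h : M g j n a l P) : M g' j n a l (f P) := by
  induction h with
  | zero => simpa using M.zero _ _ _ _
  | const z =>
    obtain ⟨z', e⟩ := hc z
    exact e ▸ M.const z'
  | gen x =>
    obtain ⟨e1, e2, e3, _⟩ := hx x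
    rw [e1, ← e2, ← e3]
    exact M.gen _
  | small x h =>
    obtain ⟨e1, e2, e3, e4⟩ := hx x
    rw [e1, ← e2, ← e3]
    exact M.small _ (e4 h)
  | add _ _ h1 h2 => simpa using h1.add h2
  | mul _ _ h1 h2 => simpa using h1.mul h2
  | mono _ e1 e2 e3 e4 h => exact h.mono e1 e2 e3 e4

/-- A derivation which maps the generators to an ideal maps the classes to this ideal. -/
theorem M.der_mem {d : Derivation ℂ R R} {K : Ideal R} (hd : ∀ x, d (g.x x) ∈ K)
    (h : M g j n a l P) : d P ∈ K := by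
  induction h with
  | zero => simp
  | const z => simp
  | gen x => exact hd x
  | small x => exact hd x
  | add _ _ h1 h2 => simpa using K.add_mem h1 h2
  | mul _ _ h1 h2 =>
    rw [Derivation.leibniz]
    exact K.add_mem (K.mul_mem_left _ h2) (K.mul_mem_left _ h1)
  | mono _ _ _ _ _ h => exact h

/-- Elements with a small factor lie in every ideal which contains the small generators. -/
theorem M.mem {K : Ideal R} (hK : ∀ x, g.sm x → g.x x ∈ K) (h : M g j n a l P) (ha : 1 ≤ a) :
    P ∈ K := by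
  induction h with
  | zero => simp
  | const z => omega
  | gen x => omega
  | small x h => exact hK x h
  | add _ _ h1 h2 => exact K.add_mem (h1 ha) (h2 ha)
  | @mul _ _ _ a a' _ _ _ _ _ h1 h2 =>
    rcases Nat.eq_zero_or_pos a with h | h
    · exact K.mul_mem_left _ (h2 (by omega))
    · exact K.mul_mem_right _ (h1 h)
  | mono _ _ _ e _ h => exact h (by omega)

/-- The size of an evaluation: the generators which are not small are bounded by K up to the
frozen level L, the small ones by al of their level, and al (N / 2) is at most mu. -/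
structure Sz (g : Gen G R) (L N : ℕ) (K mu : ℝ) (al : ℕ → ℝ) (φ : R →ₐ[ℂ] ℂ) :
    Prop where
  big : ∀ x, ¬ g.sm x → g.cl x ≤ L → ‖φ (g.x x)‖ ≤ K
  small : ∀ x, g.sm x → ‖φ (g.x x)‖ ≤ al (g.lev x)
  mono : Monotone al
  pos : 0 ≤ al 0
  half : al (N / 2) ≤ mu
  one : mu ≤ 1

/-- The bound for a monomial with at least a small factors. -/
noncomputable def be (mu : ℝ) (a : ℕ) (x : ℝ) : ℝ := if a = 0 then 1 + x else mu ^ (a - 1) * x

theorem be_nonneg {mu x : ℝ} (h : 0 ≤ mu) (hx : 0 ≤ x) (a : ℕ) : 0 ≤ be mu a x := by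
  unfold be
  split_ifs <;> positivity

theorem be_mono {mu x y : ℝ} (h : 0 ≤ mu) (h1 : mu ≤ 1) (hx : 0 ≤ x) (hxy : x ≤ y) (ha : a' ≤ a) :
    be mu a x ≤ be mu a' y := by
  have p : ∀ k, mu ^ k ≤ 1 := fun k => pow_le_one₀ h h1
  unfold be
  split_ifs with h2 h3 h3
  · linarith
  · omega
  · nlinarith [p (a - 1), pow_nonneg h (a - 1)]
  · exact mul_le_mul (pow_le_pow_of_le_one h h1 (by omega)) hxy hx (by positivity)

theorem be_mul {mu x y z : ℝ} (h1 : mu ≤ 1) (hx : 0 ≤ x) (hy : 0 ≤ y) (hm : x ≤ mu) (hxz : x ≤ z)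
    (hyz : y ≤ z) : be mu a x * be mu a' y ≤ 2 * be mu (a + a') z := by
  have h : 0 ≤ mu := hx.trans hm
  unfold be
  rcases a with _ | a <;> rcases a' with _ | a'
  · simp only [if_true]
    nlinarith
  · simp only [if_true, Nat.succ_ne_zero, if_false, zero_add, Nat.add_sub_cancel]
    have := pow_nonneg h a'
    nlinarith [mul_nonneg this hy, mul_le_mul_of_nonneg_left hyz this]
  · simp only [if_true, Nat.succ_ne_zero, if_false, add_zero, Nat.add_sub_cancel]
    have := pow_nonneg h a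
    have k : x * (1 + y) ≤ 2 * z := by nlinarith
    nlinarith [mul_le_mul_of_nonneg_left k this]
  · rw [if_neg (by omega), if_neg (by omega), if_neg (by omega), Nat.add_sub_cancel,
      Nat.add_sub_cancel, show a + 1 + (a' + 1) - 1 = a + a' + 1 by omega, pow_succ, pow_add]
    have k1 := mul_nonneg (pow_nonneg h a) (pow_nonneg h a')
    have k : x * y ≤ mu * z := mul_le_mul hm hyz hy h
    nlinarith [mul_le_mul_of_nonneg_left k k1, mul_nonneg k1 (mul_nonneg h (hy.trans hyz))]

theorem Sz.nn {L N : ℕ} {K mu : ℝ} {al : ℕ → ℝ} {φ : R →ₐ[ℂ] ℂ}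
    (s : Sz g L N K mu al φ) (k : ℕ) : 0 ≤ al k := s.pos.trans (s.mono (Nat.zero_le k))

theorem be_mul' {L N : ℕ} {K mu : ℝ} {al : ℕ → ℝ} {φ : R →ₐ[ℂ] ℂ}
    (s : Sz g L N K mu al φ) (hn : n + n' ≤ N) :
    be mu a (al (min j n)) * be mu a' (al (min j n')) ≤
      2 * be mu (a + a') (al (min j (n + n'))) := by
  have m1 := s.mono (show min j n ≤ min j (n + n') by omega)
  have m2 := s.mono (show min j n' ≤ min j (n + n') by omega)
  rcases le_total n n' with h | h
  · exact be_mul s.one (s.nn _) (s.nn _) ((s.mono (by omega)).trans s.half) m1 m2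
  · rw [mul_comm, add_comm a]
    exact be_mul s.one (s.nn _) (s.nn _) ((s.mono (by omega)).trans s.half) m2 m1

/-- The pointwise bound. -/
theorem M.bd (h : M g j n a l P) (K : ℝ) : ∃ C, 0 ≤ C ∧ ∀ L N mu al φ, Sz g L N K mu al φ →
    l ≤ L → n ≤ N → ‖φ P‖ ≤ C * be mu a (al (min j n)) := by
  induction h with
  | zero => exact ⟨0, le_rfl, fun _ _ _ _ _ _ _ _ => by simp⟩
  | const z => exact ⟨‖z‖, norm_nonneg _, fun _ _ _ al _ s _ _ => by
      simpa [be] using le_mul_of_one_le_right (norm_nonneg z) (show 1 ≤ 1 + al 0 by linarith [s.pos])⟩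
  | gen x =>
    refine ⟨|K| + 1, by positivity, fun _ _ _ al _ s hl _ => ?_⟩
    have := s.nn (g.lev x)
    have := abs_nonneg K
    simp only [be, if_true, min_self]
    by_cases hx : g.sm x
    · nlinarith [s.small x hx]
    · nlinarith [s.big x hx hl, le_abs_self K]
  | small x hx => exact ⟨1, zero_le_one, fun _ _ _ _ _ s _ _ => by simpa [be] using s.small x hx⟩
  | add _ _ h1 h2 =>
    obtain ⟨C1, p1, h1⟩ := h1
    obtain ⟨C2, p2, h2⟩ := h2
    refine ⟨C1 + C2, by positivity, fun L N mu al φ s hl hn => ?_⟩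
    rw [map_add, add_mul]
    exact norm_add_le_of_le (h1 L N mu al φ s hl hn) (h2 L N mu al φ s hl hn)
  | mul _ _ h1 h2 =>
    obtain ⟨C1, p1, h1⟩ := h1
    obtain ⟨C2, p2, h2⟩ := h2
    refine ⟨C1 * C2 * 2, by positivity, fun L N mu al φ s hl hn => ?_⟩
    have m0 : 0 ≤ mu := (s.nn _).trans s.half
    rw [map_mul, norm_mul, mul_assoc]
    refine (mul_le_mul (h1 L N mu al φ s hl (by omega)) (h2 L N mu al φ s hl (by omega))
      (norm_nonneg _) (mul_nonneg p1 (be_nonneg m0 (s.nn _) _))).trans ?_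
    rw [mul_mul_mul_comm]
    exact mul_le_mul_of_nonneg_left (be_mul' s hn) (by positivity)
  | mono _ e1 e2 e3 e4 h =>
    obtain ⟨C, p, h⟩ := h
    exact ⟨C, p, fun L N mu al φ s hl hn => (h L N mu al φ s (by omega) (by omega)).trans
      (mul_le_mul_of_nonneg_left (be_mono ((s.nn _).trans s.half) s.one (s.nn _)
        (s.mono (by omega)) e3) p)⟩

/-- A reference evaluation: zero on the small generators, bounded by K and at distance at most
ds from φ on the others. -/
structure Rf (g : Gen G R) (L : ℕ) (K ds : ℝ) (φ ψ : R →ₐ[ℂ] ℂ) : Prop where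
  big : ∀ x, ¬ g.sm x → g.cl x ≤ L → ‖ψ (g.x x)‖ ≤ K ∧ ‖φ (g.x x) - ψ (g.x x)‖ ≤ ds
  small : ∀ x, g.sm x → ψ (g.x x) = 0
  pos : 0 ≤ ds

theorem Rf.sz {L N : ℕ} {K ds : ℝ} {φ ψ : R →ₐ[ℂ] ℂ} (r : Rf g L K ds φ ψ) :
    Sz g L N K 0 (fun _ => 0) ψ :=
  ⟨fun x h h' => (r.big x h h').1, fun x h => by simp [r.small x h], monotone_const, le_rfl, le_rfl,
    zero_le_one⟩

/-- The distance to the reference value. -/
theorem M.bd2 (h : M g j n a l P) (K : ℝ) : ∃ C, 0 ≤ C ∧ ∀ L N mu ds al φ ψ, Sz g L N K mu al φ →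
    Rf g L K ds φ ψ → l ≤ L → n ≤ N →
      ‖φ P - ψ P‖ ≤ C * (ds * (1 + al (min j n)) + al (min j n)) := by
  induction h with
  | zero => exact ⟨0, le_rfl, fun _ _ _ _ _ _ _ _ _ _ _ => by simp⟩
  | const z => exact ⟨0, le_rfl, fun _ _ _ _ _ _ _ _ _ _ _ => by simp⟩
  | gen x =>
    refine ⟨1, by positivity, fun _ _ _ ds al _ _ s r hl _ => ?_⟩
    have := s.nn (g.lev x)
    have := r.pos
    rw [min_self]
    by_cases hx : g.sm x
    · rw [r.small x hx, sub_zero]
      nlinarith [s.small x hx]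
    · nlinarith [(r.big x hx hl).2]
  | small x hx =>
    refine ⟨1, by positivity, fun _ _ _ ds al _ _ s r hl _ => ?_⟩
    have := s.nn (g.lev x)
    have := r.pos
    rw [min_self, r.small x hx, sub_zero]
    nlinarith [s.small x hx]
  | add _ _ h1 h2 =>
    obtain ⟨C1, p1, h1⟩ := h1
    obtain ⟨C2, p2, h2⟩ := h2
    refine ⟨C1 + C2, by positivity, fun L N mu ds al φ ψ s r hl hn => ?_⟩
    rw [map_add, map_add, add_sub_add_comm, add_mul]
    exact norm_add_le_of_le (h1 L N mu ds al φ ψ s r hl hn) (h2 L N mu ds al φ ψ s r hl hn)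
  | @mul j n n' a a' l P Q q1 q2 h1 h2 =>
    obtain ⟨C1, p1, h1⟩ := h1
    obtain ⟨C2, p2, h2⟩ := h2
    obtain ⟨B1, b1, k1⟩ := (q1.mono le_rfl le_rfl (Nat.zero_le _) le_rfl).bd K
    obtain ⟨B2, b2, k2⟩ := (q2.mono le_rfl le_rfl (Nat.zero_le _) le_rfl).bd K
    refine ⟨C1 * B2 * 2 + B1 * C2, by positivity, fun L N mu ds al φ ψ s r hl hn => ?_⟩
    have e : φ (P * Q) - ψ (P * Q) = (φ P - ψ P) * φ Q + ψ P * (φ Q - ψ Q) := by
      rw [map_mul, map_mul]
      ring
    have u1 := h1 L N mu ds al φ ψ s r hl (by omega)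
    have u2 := h2 L N mu ds al φ ψ s r hl (by omega)
    have v1 := k1 L N 0 _ ψ r.sz hl (by omega)
    have v2 := k2 L N mu al φ s hl (by omega)
    have w0 := be_mul' (j := j) (a := 0) (a' := 0) s hn
    have w1 := be_mul' (j := j) (a := 1) (a' := 0) s hn
    have m2 := s.mono (show min j n' ≤ min j (n + n') by omega)
    have := r.pos
    have := s.nn (min j n)
    have := s.nn (min j n')
    simp only [be, if_true, add_zero, mul_one, one_ne_zero, if_false, Nat.sub_self, pow_zero,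
      one_mul] at v1 v2 w0 w1
    rw [e, add_mul]
    refine norm_add_le_of_le ?_ ?_ <;> rw [norm_mul]
    · refine (mul_le_mul u1 v2 (norm_nonneg _) (by positivity)).trans ?_
      rw [mul_mul_mul_comm, mul_assoc (C1 * B2)]
      exact mul_le_mul_of_nonneg_left (by nlinarith) (by positivity)
    · refine (mul_le_mul v1 u2 (norm_nonneg _) b1).trans ?_
      rw [mul_assoc]
      exact mul_le_mul_of_nonneg_left (mul_le_mul_of_nonneg_left (by nlinarith) p2) b1
  | @mono j n a l j' n' a' l' P _ e1 e2 e3 e4 h =>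
    obtain ⟨C, p, h⟩ := h
    refine ⟨C, p, fun L N mu ds al φ ψ s r hl hn =>
      (h L N mu ds al φ ψ s r (by omega) (by omega)).trans (mul_le_mul_of_nonneg_left ?_ p)⟩
    have := s.mono (show min j n ≤ min j' n' by omega)
    nlinarith [r.pos]

end Vale.Agent.P354XF
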