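import Vale.Agent.P354XF.LowF

/-!
Small functions of the gauge, commutators of formal operators, and weights.
-/

namespace Vale.Agent.P354XF

open TensorProduct Op MvPolynomial

section
variable {A B : Type*} [CommRing A] [Algebra ℂ A] [Fintype B] {S : Subalgebra ℂ A} {Y : B → Der A}

theorem Op.Sy.comp {k m : ℕ} {L : A → A} {p : MvPolynomial B A} {e : Op A B} (h : Sy Y k L p)
    (he : Ok S e (m + 1)) : Sy Y (k + m) (fun f => e.ev Y id (L f)) (sym m e * p) := by
  induction e generalizing m with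
  | one =>
    have : ∀ m, Sy Y (k + m) L (sym m (Op.one : Op A B) * p) := fun m => by
      induction m with
      | zero => exact h.congr (fun _ => rfl) (one_mul p)
      | succ m ih => exact ih.low.congr (fun _ => rfl) (zero_mul p)
    exact this m
  | zero => exact (Sy.zero _).congr (fun _ => rfl) (by simp [sym])
  | smul a e ih =>
    cases he with
    | smul _ he =>
      exact ((ih he).lin a (Sy.zero _)).congr (fun f => by simp [ev]) (by simp [sym, mul_assoc])
  | der b e ih =>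
    cases he with
    | der _ he =>
      cases m with
      | zero => exact (Sy.zero _).congr (fun f => by simp [ev, he.ev_zero]) (zero_mul p)
      | succ m => exact ((ih he).der b).congr (fun _ => rfl) (mul_assoc _ _ _)
  | add e e' h1 h2 =>
    cases he with
    | add he he' =>
      exact ((h1 he).lin 1 (h2 he')).congr (fun f => by simp [ev]) (by simp [sym, add_mul])

end

namespace Duo

variable {G A : Type*} [CommRing A] [Algebra ℂ A] {g : Gen G (A × A)} {B ι : Type} [Fintype B]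
  {U : Duo g B ι} {j n a l j' n' l' k m : ℕ} {f f' x y : A} {e u : Op A B}

/-- The commutator has lower order. -/
theorem comm_low (hs : Span U.Y) (he : Ok U.S e (k + 1)) (hu : Ok U.S u (m + 1)) :
    ∃ v, Ok U.S v (k + m) ∧
      ∀ f, e.ev U.Y id (u.ev U.Y id f) - u.ev U.Y id (e.ev U.Y id f) = v.ev U.Y id f := by
  have h1 := (hu.sy (Y := U.Y)).comp he
  have h2 := (he.sy (Y := U.Y)).comp hu
  rw [add_comm] at h1
  have h3 := (he.comp hu).sub ((hu.comp he).mono (by omega))
  have h4 : sym (k + m) ((e.comp u).sub (u.comp e)) = 0 :=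
    ((h3.sy.lin (-1) (h2.lin (-1) h1)).congr (L' := fun _ => 0) (fun f => by
      simp [Op.sub, ev, ev_comp]; ring) (p' := -sym (k + m) ((e.comp u).sub (u.comp e))) (by
      simp [mul_comm])).eq_zero hs |> neg_eq_zero.1
  obtain ⟨v, k1, k2, -⟩ := (Tw.Rel.sym (W := U.tw) h3).2
  refine ⟨v, k1, fun f => ?_⟩
  have := k2 f
  simp only [h4, map_zero, sub_zero] at this
  simpa [Op.sub, ev, ev_comp, sub_eq_add_neg, tw] using this

theorem Ma.zero : U.Ma j n a l 0 := ⟨0, M.zero _ _ _ _, map_zero _⟩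

theorem Ma.smul (hx : x ∈ U.S) (h : U.Ma j n a l f) : U.Ma j n a l (x * f) :=
  (((Ma.ref hx).mono (by omega) le_rfl le_rfl (by omega)).mul h).mono le_rfl (by omega) (by omega)
    le_rfl

theorem Ma.sub (h : U.Ma j n a l f) (h' : U.Ma j n a l f') : U.Ma j n a l (f - f') := by
  simpa [sub_eq_add_neg] using h.add (h'.smul (U.S.neg_mem U.S.one_mem))

theorem Ma.sum {κ : Type} (s : Finset κ) {f : κ → A} (h : ∀ i ∈ s, U.Ma j n a l (f i)) :
    U.Ma j n a l (∑ i ∈ s, f i) := Finset.sum_induction _ _ (fun _ _ => Ma.add) Ma.zero h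

theorem Qa.neg (h : U.Qa j n l f) : U.Qa j n l (-f) := by simpa using Qa.zero.sub h

theorem Qa.toM (h : U.Qa j n l f) : U.Ma j n 1 l f := by
  obtain ⟨P, h, rfl⟩ := h
  refine ⟨P, ?_, rfl⟩
  induction h with
  | two h => exact h.mono le_rfl le_rfl (by omega) le_rfl
  | ker _ h1 h2 e => exact h1.mul' h2 le_rfl le_rfl e (by omega) le_rfl le_rfl
  | add _ _ h1 h2 => exact h1.add h2

/-- A vertical field does not raise the level. -/
theorem Ma.V {v : B} (hv : ∀ x, UpS g 0 0 (prD (U.Z v) (U.Y v)) x) (h0 : U.Z v = U.Y v)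
    (h : U.Ma j n a l f) : U.Ma j n a (l + 1) (U.Y v f) := by
  obtain ⟨P, h, rfl⟩ := h
  refine ⟨U.dl v P, h.derS (s := 0) fun x _ => ?_, ?_⟩
  · have k1 : UpS U.gen 0 0 (U.d v) x := by
      rcases x with x | i | j
      · simp only [UpS, gen, Sum.elim_inl, d, tD_ap, Derivation.map_one_eq_zero, tmul_zero, add_zero]
        exact ⟨ML (hv x).1, fun h => ML ((hv x).2 h)⟩
      all_goals simpa [UpS, gen, d, tD_ap, io_ap] using M.zero _ _ _ _
    have k2 := (U.up_d' v x).1
    rw [UpS, dl_eq]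
    exact ⟨(k1.1.mono le_rfl le_rfl le_rfl (by omega)).add k2.1,
      fun c => ((k1.2 c).mono le_rfl le_rfl le_rfl (by omega)).add (k2.2 c)⟩
  · clear h
    induction P using TensorProduct.induction_on with
    | zero => simp
    | add p p' k1 k2 => simp only [map_add, k1, k2]
    | tmul p q => simp [dl, tD_ap, e1_ap, prD_ap, h0, mul_comm, add_comm]

variable (U)

/-- Functions of the change of frame which vanish with it. -/
def Da (l : ℕ) (x : A) : Prop := ∃ P ∈ K A, M U.gen 0 0 0 l P ∧ e1 A P = x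

theorem Da.sg (b e : B) : U.Da 1 (U.sg b e) := ⟨_, Kj _, U.Mj false b e [], by simp [e1_ap, jt, wd]⟩
theorem Da.ta (b e : B) : U.Da 1 (U.ta b e) := ⟨_, Kj _, U.Mj true b e [], by simp [e1_ap, jt, wd]⟩

variable {U}

theorem Da.mono (h : U.Da l x) (e : l ≤ l') : U.Da l' x :=
  h.imp fun _ h => ⟨h.1, h.2.1.mono le_rfl le_rfl le_rfl e, h.2.2⟩

theorem Da.toM (h : U.Da l x) : U.Ma 0 0 0 l x := h.imp fun _ h => h.2

theorem Da.zero : U.Da l 0 := ⟨0, zero_mem _, M.zero _ _ _ _, map_zero _⟩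

theorem Da.add (h : U.Da l x) (h' : U.Da l y) : U.Da l (x + y) := by
  obtain ⟨P, k, h, rfl⟩ := h
  obtain ⟨P', k', h', rfl⟩ := h'
  exact ⟨_, add_mem k k', h.add h', map_add _ _ _⟩

theorem Da.mul (h : U.Ma 0 0 0 l x) (h' : U.Da l y) : U.Da l (x * y) := by
  obtain ⟨P, h, rfl⟩ := h
  obtain ⟨P', k', h', rfl⟩ := h'
  exact ⟨_, (K A).mul_mem_left _ k', h.mul h', map_mul _ _ _⟩

theorem Da.smul (hx : x ∈ U.S) (h : U.Da l y) : U.Da l (x * y) :=
  h.mul ((Ma.ref hx).mono le_rfl le_rfl le_rfl (by omega))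

theorem Da.sub (h : U.Da l x) (h' : U.Da l y) : U.Da l (x - y) := by
  simpa [sub_eq_add_neg] using h.add (h'.smul (U.S.neg_mem U.S.one_mem))

theorem Da.sum {κ : Type} (s : Finset κ) {f : κ → A} (h : ∀ i ∈ s, U.Da l (f i)) :
    U.Da l (∑ i ∈ s, f i) := Finset.sum_induction _ _ (fun _ _ => Da.add) Da.zero h

theorem Da.q (h : U.Da l x) (h' : U.Ma j n 1 l f) : U.Qa j n l (x * f) := by
  obtain ⟨P, k, h, rfl⟩ := h
  obtain ⟨P', h', rfl⟩ := h'
  exact ⟨_, .ker k (h.mono (by omega) le_rfl le_rfl le_rfl) h' (by omega), map_mul _ _ _⟩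

/-- The small functions which depend only on the gauge. -/
inductive Ga (U : Duo g B ι) : ℕ → A → Prop
  | jet (s : Bool) (b e : B) (w : List B) : Ga U (w.length + 1) (U.jt s b e w)
  | smul {l : ℕ} {x y : A} : x ∈ U.S → Ga U l y → Ga U l (x * y)
  | mul {l : ℕ} {x y : A} : Ga U l x → Ga U l y → Ga U l (x * y)
  | add {l : ℕ} {x y : A} : Ga U l x → Ga U l y → Ga U l (x + y)
  | zero (l : ℕ) : Ga U l 0
  | mono {l l' : ℕ} {x : A} : Ga U l x → l ≤ l' → Ga U l' x

theorem Ga.da (h : U.Ga l x) : U.Da l x := by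
  induction h with
  | jet s b e w => exact ⟨_, Kj _, U.Mj s b e w, by simp [e1_ap]⟩
  | smul h _ ih => exact ih.smul h
  | mul _ _ h1 h2 => exact h2.mul h1.toM
  | add _ _ h1 h2 => exact h1.add h2
  | zero => exact .zero
  | mono _ e ih => exact ih.mono e

theorem Ga.sg (b e : B) : U.Ga 1 (U.sg b e) := .jet false b e []

theorem Ga.sub (h : U.Ga l x) (h' : U.Ga l y) : U.Ga l (x - y) := by
  simpa [sub_eq_add_neg] using h.add (h'.smul (U.S.neg_mem U.S.one_mem))

theorem Ga.sum {κ : Type} (s : Finset κ) {f : κ → A} (h : ∀ i ∈ s, U.Ga l (f i)) :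
    U.Ga l (∑ i ∈ s, f i) := Finset.sum_induction _ _ (fun _ _ => Ga.add) (Ga.zero _) h

theorem Ga.Y (b : B) (h : U.Ga l x) : U.Ga (l + 1) (U.Y b x) := by
  induction h with
  | jet s c e w => exact .jet s c e (b :: w)
  | @smul _ x y h h' ih =>
    rw [Derivation.leibniz, smul_eq_mul, smul_eq_mul, mul_comm y]
    exact (ih.smul h).add ((h'.mono (by omega)).smul (SY' b h))
  | mul k1 k2 h1 h2 =>
    rw [Derivation.leibniz, smul_eq_mul, smul_eq_mul]
    exact ((k1.mono (by omega)).mul h2).add ((k2.mono (by omega)).mul h1)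
  | add _ _ h1 h2 => simpa using h1.add h2
  | zero => simpa using Ga.zero _
  | mono _ e ih => exact ih.mono (by omega)

theorem Ga.Z (b : B) (h : U.Ga l x) : U.Ga (l + 1) (U.Z b x) := by
  rw [U.ZY]
  exact (h.Y b).add (Ga.sum _ fun e _ => ((Ga.sg b e).mono (by omega)).mul (h.Y e))

theorem ref_bd (hx : x ∈ U.S) (K0 : ℝ) : ∃ C, 0 ≤ C ∧ ∀ L N mu ds al φ,
    U.Pt L N K0 mu ds al φ → ‖φ x‖ ≤ C := by
  obtain ⟨C, p, h⟩ := (Ma.ref hx).bd0 K0
  refine ⟨C * 2, by positivity, fun L N mu ds al φ q => (h L N mu ds al φ q (by omega)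
    (by omega)).trans (mul_le_mul_of_nonneg_left ?_ p)⟩
  linarith [(q.mono (Nat.zero_le _)).trans q.half, q.one]

theorem Ga.bd (h : U.Ga l x) (K0 : ℝ) : ∃ C, 0 ≤ C ∧ ∀ L N mu ds al φ,
    U.Pt L N K0 mu ds al φ → l ≤ L → ‖φ x‖ ≤ C * ds := by
  induction h with
  | jet s b e w => exact ⟨1, zero_le_one, fun _ _ _ _ _ _ q h => by simpa using q.jt s b e w h⟩
  | smul h _ ih =>
    obtain ⟨C, p, h⟩ := ref_bd h K0
    obtain ⟨C', p', ih⟩ := ih
    refine ⟨C * C', by positivity, fun L N mu ds al φ q hl => ?_⟩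
    rw [map_mul, norm_mul, mul_assoc]
    exact mul_le_mul (h L N mu ds al φ q) (ih L N mu ds al φ q hl) (norm_nonneg _) p
  | mul _ _ h1 h2 =>
    obtain ⟨C, p, h1⟩ := h1
    obtain ⟨C', p', h2⟩ := h2
    refine ⟨C * |K0| * C', by positivity, fun L N mu ds al φ q hl => ?_⟩
    rw [map_mul, norm_mul, mul_assoc]
    exact mul_le_mul ((h1 L N mu ds al φ q hl).trans (mul_le_mul_of_nonneg_left
      (q.dsK.trans (le_abs_self _)) p)) (h2 L N mu ds al φ q hl) (norm_nonneg _) (by positivity)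
  | add _ _ h1 h2 =>
    obtain ⟨C, p, h1⟩ := h1
    obtain ⟨C', p', h2⟩ := h2
    refine ⟨C + C', by positivity, fun L N mu ds al φ q hl => ?_⟩
    rw [map_add, add_mul]
    exact norm_add_le_of_le (h1 L N mu ds al φ q hl) (h2 L N mu ds al φ q hl)
  | zero => exact ⟨0, le_rfl, fun _ _ _ _ _ _ _ _ => by simp⟩
  | mono _ e ih =>
    exact ih.imp fun C h => ⟨h.1, fun L N mu ds al φ q hl => h.2 L N mu ds al φ q (by omega)⟩

/-- The exact weights in the big ring. -/
theorem Fr_wt {v : B} {lam : B → ℂ} (h0 : U.Z v = U.Y v)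
    (hZ : ∀ b f, U.Y v (U.Z b f) = U.Z b (U.Y v f) + lam b • U.Z b f)
    (hY : ∀ b f, U.Y v (U.Y b f) = U.Y b (U.Y v f) + lam b • U.Y b f) {q p : ℂ}
    (hf : U.Y v f = q • f) (he : e.Wt (U.Y v) lam p) : U.dl v (U.Fr e f) = (p + q) • U.Fr e f := by
  have h2 : ∀ b P, U.dl v (U.dl b P) = U.dl b (U.dl v P) + lam b • U.dl b P := fun b P => by
    have := tD_ext (d := ⁅U.dl v, U.dl b⁆) (d' := lam b • U.dl b) (fun p => by
      simp only [Derivation.commutator_apply, dl, tD_ap, Derivation.map_one_eq_zero,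
        tmul_zero, add_zero, ← sub_tmul, Derivation.smul_apply, smul_tmul']
      refine congrArg (· ⊗ₜ[ℂ] 1) (Prod.ext ?_ ?_) <;> simp [prD_ap, h0, hZ, hY]) (fun p => by
      simp only [Derivation.commutator_apply, dl, tD_ap, Derivation.map_one_eq_zero,
        zero_tmul, zero_add, ← tmul_sub, Derivation.smul_apply, ← tmul_smul]
      refine congrArg ((1 : A × A) ⊗ₜ[ℂ] ·) (Prod.ext ?_ ?_) <;> simp [prD_ap, hY]) P
    rw [Derivation.commutator_apply, Derivation.smul_apply] at this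
    rw [← this, add_sub_cancel]
  unfold Fr
  induction he with
  | one => simp [ev, dl_L, h0, hf, smul_tmul']
  | zero => simp [ev]
  | @smul a e p r ha _ ih =>
    have : U.dl v (io A a) = r • io A a := by
      rw [← map_smul, ← ha]
      exact U.tw.di v a
    simp only [ev, Derivation.leibniz, ih, this, smul_eq_mul, mul_smul_comm, add_smul, mul_add]
    rw [mul_comm (io A a)]
    abel
  | der b _ ih =>
    rw [ev, h2, ih, Derivation.map_smul, ← add_smul]
    exact congrArg (· • _) (by ring)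
  | add _ _ k1 k2 => simp only [ev, map_add, k1, k2, smul_add]

omit [Fintype B] [CommRing A] [Algebra ℂ A] in
theorem ev_smul {R : Type*} [CommRing R] [Algebra ℂ R] (D : B → Der R) (i : A → R) (z : ℂ)
    (e : Op A B) (P : R) : e.ev D i (z • P) = z • e.ev D i P := by
  induction e <;> simp only [ev, Derivation.map_smul, smul_add, mul_smul_comm, smul_zero, *]

end Duo

end Vale.Agent.P354XF
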