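import Vale.Agent.P354XF.Frz

/-!
The frozen calculus over an algebra with a frame of derivations.
-/

namespace Vale.Agent.P354XF

open MvPolynomial

section
variable {A σ : Type*} [CommRing A] [Algebra ℂ A]

/-- The lift of a derivation to the dual numbers. -/
noncomputable def lift0 (Z : Der A) : A →ₐ[ℂ] DualNumber (MvPolynomial σ A) where
  toFun a := TrivSqZeroExt.inl (C a) + TrivSqZeroExt.inr (C (Z a))
  map_one' := by ext1 <;> simp
  map_mul' a b := by ext1 <;> simp [mul_comm]
  map_zero' := by ext1 <;> simp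
  map_add' a b := by ext1 <;> simp
  commutes' z := by ext1 <;> simp [TrivSqZeroExt.algebraMap_eq_inl']

noncomputable def lift1 (Z : Der A) (f : σ → MvPolynomial σ A) :
    MvPolynomial σ A →ₐ[ℂ] DualNumber (MvPolynomial σ A) :=
  aevalTower (lift0 Z) fun j => TrivSqZeroExt.inl (X j) + TrivSqZeroExt.inr (f j)

theorem lift1_fst (Z : Der A) (f : σ → MvPolynomial σ A) (P : MvPolynomial σ A) :
    (lift1 Z f P).fst = P := by
  induction P using MvPolynomial.induction_on with
  | C a => simp [lift1, lift0]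
  | add P Q h1 h2 => simp [h1, h2]
  | mul_X P j h =>
    rw [map_mul, TrivSqZeroExt.fst_mul, h]
    simp [lift1]

/-- The derivation which acts by Z on the coefficients and maps the variables to f. -/
noncomputable def ext (Z : Der A) (f : σ → MvPolynomial σ A) : Der (MvPolynomial σ A) :=
  Derivation.mk'
    { toFun := fun P => (lift1 Z f P).snd
      map_add' := fun P Q => by simp
      map_smul' := fun z P => by simp } fun P Q => by
    simp [lift1_fst, mul_comm]

theorem ext_C (Z : Der A) (f : σ → MvPolynomial σ A) (a : A) : ext Z f (C a) = C (Z a) := by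
  simp [ext, lift1, lift0]

theorem ext_X (Z : Der A) (f : σ → MvPolynomial σ A) (j : σ) : ext Z f (X j) = f j := by
  simp [ext, lift1]

theorem der_ext {d d' : Der (MvPolynomial σ A)} (h1 : ∀ a, d (C a) = d' (C a))
    (h2 : ∀ j, d (X j) = d' (X j)) (P : MvPolynomial σ A) : d P = d' P := by
  induction P using MvPolynomial.induction_on with
  | C a => exact h1 a
  | add P Q k1 k2 => simp [k1, k2]
  | mul_X P j h => simp [h, h2]

end

/-- An algebra with a frame Z, structure functions ga, vector fields with components c, and the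
ideal K of the elements which vanish on the reference solutions. -/
structure Base {G A : Type*} [CommRing A] [Algebra ℂ A] (g : Gen G A) (B κ : Type) [Fintype B] where
  Z : B → Der A
  c : κ → B → A
  ga : B → B → B → A
  K : Ideal A
  cl0 : ∀ x, g.cl x = 0
  up : ∀ b, Up g 0 (Z b)
  mga : ∀ a b e, M g 1 2 0 0 (ga a b e)
  comm : ∀ a b f, Z a (Z b f) = Z b (Z a f) + ∑ e, ga a b e * Z e f
  KD : ∀ b, ∀ f ∈ K, Z b f ∈ K
  KZ : ∀ k x, ∑ b, c k b * Z b (g.x x) ∈ K
  Kdel : ∀ k a e, Z a (c k e) + ∑ b, c k b * ga a b e ∈ K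
  KL : ∀ k k' e, ∑ b, c k b * Z b (c k' e) ∈ K

/-- Words of derivations. -/
def wd {A B : Type*} [CommRing A] [Algebra ℂ A] (Z : B → Der A) : List B → A → A
  | [], f => f
  | b :: w, f => Z b (wd Z w f)

/-- The frozen words: the components stay in front of all derivatives. -/
noncomputable def frz {A B κ : Type*} [CommRing A] [Algebra ℂ A] [Fintype B] (Z : B → Der A)
    (c : κ → B → A) : List κ → List B → A → A
  | [], w, f => wd Z w.reverse f
  | k :: I, w, f => ∑ b, c k b * frz Z c I (b :: w) f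

namespace Base

variable {G A : Type*} [CommRing A] [Algebra ℂ A] {g : Gen G A} {B κ : Type} [Fintype B]
  (S : Base g B κ)

/-- The generators of the extended ring. -/
noncomputable def gen (g : Gen G A) (B κ : Type) :
    Gen (G ⊕ κ × B × List B) (MvPolynomial (κ × B × List B) A) where
  x := Sum.elim (fun x => C (g.x x)) X
  lev := Sum.elim g.lev fun _ => 0
  sm := Sum.elim g.sm fun _ => False
  cl := Sum.elim g.cl fun j => j.2.2.length

/-- The substitution of the jets of the components. -/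
noncomputable def ev : MvPolynomial (κ × B × List B) A →ₐ[ℂ] A :=
  aevalTower (AlgHom.id ℂ A) fun j => wd S.Z j.2.2 (S.c j.1 j.2.1)

noncomputable def dd (b : B) : Der (MvPolynomial (κ × B × List B) A) := ext (S.Z b) 0

noncomputable def DD (b : B) : Der (MvPolynomial (κ × B × List B) A) :=
  ext (S.Z b) fun j => X (j.1, j.2.1, b :: j.2.2)

theorem ev_C (a : A) : S.ev (C a) = a := by simp [ev]

theorem ev_X (j : κ × B × List B) : S.ev (X j) = wd S.Z j.2.2 (S.c j.1 j.2.1) := by simp [ev]

theorem ev_D (b : B) (P : MvPolynomial (κ × B × List B) A) : S.ev (S.DD b P) = S.Z b (S.ev P) := by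
  induction P using MvPolynomial.induction_on with
  | C a => simp [DD, ext_C, ev_C]
  | add P Q k1 k2 => simp [k1, k2]
  | mul_X P j h =>
    simp only [Derivation.leibniz, smul_eq_mul, map_add, map_mul, h]
    simp [DD, ext_X, ev_X, wd]

omit [Fintype B] in
theorem MC {j n a l : ℕ} {f : A} (h : M g j n a l f) : M (gen g B κ) j n a l (C f) :=
  h.map (g' := gen g B κ) C Sum.inl (fun z => ⟨z, rfl⟩) fun _ => ⟨rfl, rfl, rfl, id⟩

theorem comm' (a b : B) (f : κ × B × List B → MvPolynomial (κ × B × List B) A)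
    (hf : ∀ j, S.dd b (f j) = 0) (P : MvPolynomial (κ × B × List B) A) :
    ext (S.Z a) f (S.dd b P) = S.dd b (ext (S.Z a) f P) + ∑ e, C (S.ga a b e) * S.dd e P := by
  have := der_ext (d := ⁅ext (S.Z a) f, S.dd b⁆) (d' := ∑ e, C (S.ga a b e) • S.dd e) (fun x => by
    rw [Derivation.commutator_apply, sum_ap]
    simp only [dd, ext_C, S.comm a b x, map_add, map_sum, map_mul]
    ring) (fun j => by
    rw [Derivation.commutator_apply, sum_ap, ext_X, hf]
    simp [dd, ext_X]) P
  rw [Derivation.commutator_apply, sum_ap] at this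
  linear_combination this

/-- The frozen calculus. -/
noncomputable def fz : Fz (gen g B κ) B κ where
  d := S.dd
  D := S.DD
  c k b := X (k, b, [])
  ga a b e := C (S.ga a b e)
  K := S.K.comap S.ev
  upd b := by
    rintro (x | j)
    · simp only [Up1, gen, Sum.elim_inl, dd, ext_C]
      exact ⟨MC (S.up b x).1, fun h => MC ((S.up b x).2 h)⟩
    · simp only [Up1, gen, Sum.elim_inr, dd, ext_X]
      exact ⟨M.zero _ _ _ _, False.elim⟩
  upD b := by
    rintro (x | j)
    · simp only [Up1, gen, Sum.elim_inl, DD, ext_C]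
      exact ⟨(MC (S.up b x).1).mono le_rfl le_rfl le_rfl (by omega),
        fun h => (MC ((S.up b x).2 h)).mono le_rfl le_rfl le_rfl (by omega)⟩
    · simp only [Up1, gen, Sum.elim_inr, DD, ext_X]
      exact ⟨(M.gen (g := gen g B κ) (.inr (j.1, j.2.1, b :: j.2.2))).mono (Nat.zero_le _)
        (Nat.zero_le _) le_rfl le_rfl, False.elim⟩
  mc k b := M.gen (g := gen g B κ) (.inr (k, b, []))
  mga a b e := MC (S.mga a b e)
  KD b P h := by
    rw [Ideal.mem_comap, ev_D]
    exact S.KD b _ h
  KZ k := by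
    rintro (x | j)
    · simpa [gen, dd, ext_C, ev_C, ev_X, wd] using S.KZ k x
    · simp [gen, dd, ext_X]
  Kdel k a e := by simpa [ev_D, ev_C, ev_X, wd] using S.Kdel k a e
  KL k k' e := by simpa [ev_D, ev_C, ev_X, wd] using S.KL k k' e
  dc b k e := by simp [dd, ext_X]
  comm a b P := S.comm' a b _ (fun j => by simp [dd, ext_X]) P
  commd a b P := S.comm' a b _ (fun j => by simp) P

theorem ev_Dw (w : List B) (P : MvPolynomial (κ × B × List B) A) :
    S.ev (S.fz.Dw w P) = wd S.Z w (S.ev P) := by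
  induction w with
  | nil => rfl
  | cons b w ih => rw [Fz.Dw, wd, ← ih, ← ev_D]; rfl

theorem Dw_C (w : List B) (f : A) : S.fz.Dw w (C f) = C (wd S.Z w f) := by
  induction w with
  | nil => rfl
  | cons b w ih => rw [Fz.Dw, ih]; exact ext_C _ _ _

theorem wd_dd_ZI (I : List κ) (w : List B) (f : A) :
    S.ev (wd S.dd w.reverse (S.fz.ZI I (C f))) = frz S.Z S.c I w f := by
  have h1 : ∀ (u : List B) (f : A), wd S.dd u (C f) = C (wd S.Z u f) := fun u f => by
    induction u with
    | nil => rfl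
    | cons b u ih => rw [wd, ih]; exact ext_C _ _ _
  have h2 : ∀ (u : List B) (k : κ) (P : B → MvPolynomial (κ × B × List B) A),
      wd S.dd u (∑ b, X (k, b, []) * P b) = ∑ b, X (k, b, []) * wd S.dd u (P b) := fun u k P => by
    induction u with
    | nil => rfl
    | cons b u ih => simp [wd, ih, dd, ext_X]
  have h3 : ∀ (u : List B) (b : B) (P : MvPolynomial (κ × B × List B) A),
      wd S.dd (u ++ [b]) P = wd S.dd u (S.dd b P) := fun u b P => by
    induction u with
    | nil => rfl
    | cons a u ih => simp [wd, ih]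
  induction I generalizing w with
  | nil => rw [Fz.ZI, h1, ev_C, frz]
  | cons k I ih =>
    rw [Fz.ZI, Fz.Z_ap, frz]
    refine (congrArg S.ev (h2 _ k _)).trans ?_
    simp only [map_sum, map_mul, ev_X, wd, ← ih, List.reverse_cons, h3]
    rfl

/-- The frozen Lie derivatives of f. -/
noncomputable def U (I : List κ) (f : A) : A := frz S.Z S.c I [] f

theorem ev_ZI (I : List κ) (f : A) : S.ev (S.fz.ZI I (C f)) = S.U I f := S.wd_dd_ZI I [] f

/-- The sizes at a point φ and at a reference point ψ. -/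
structure Pt (L N : ℕ) (K mu ds : ℝ) (al : ℕ → ℝ) (φ ψ : A →ₐ[ℂ] ℂ) : Prop where
  sz : Sz g 0 N K mu al φ
  rf : Rf g 0 K ds φ ψ
  ker : ∀ f ∈ S.K, ψ f = 0
  jet : ∀ k e w, w.length ≤ L → ‖φ (wd S.Z w (S.c k e))‖ ≤ K ∧ ‖ψ (wd S.Z w (S.c k e))‖ ≤ K ∧
    ‖φ (wd S.Z w (S.c k e)) - ψ (wd S.Z w (S.c k e))‖ ≤ ds

variable {S} {L N j n a l : ℕ} {K mu ds : ℝ} {al : ℕ → ℝ} {φ ψ : A →ₐ[ℂ] ℂ}

theorem Pt.sz' (p : S.Pt L N K mu ds al φ ψ) : Sz (gen g B κ) L N K mu al (φ.comp S.ev) where
  big := by
    rintro (x | j) h h'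
    · simpa [gen, ev_C] using p.sz.big x h (S.cl0 x).le
    · simpa [gen, ev_X] using (p.jet _ _ _ h').1
  small := by
    rintro (x | j) h
    · simpa [gen, ev_C] using p.sz.small x h
    · exact h.elim
  mono := p.sz.mono
  pos := p.sz.pos
  half := p.sz.half
  one := p.sz.one

theorem Pt.rf' (p : S.Pt L N K mu ds al φ ψ) :
    Rf (gen g B κ) L K ds (φ.comp S.ev) (ψ.comp S.ev) where
  big := by
    rintro (x | j) h h'
    · simpa [gen, ev_C] using p.rf.big x h (S.cl0 x).le
    · simpa [gen, ev_X] using (p.jet _ _ _ h').2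
  small := by
    rintro (x | j) h
    · simpa [gen, ev_C] using p.rf.small x h
    · exact h.elim
  pos := p.rf.pos

/-- f is quadratically small: a small factor times the jets of level j. -/
def Bd (S : Base g B κ) (j n l : ℕ) (f : A) : Prop :=
  ∀ K, ∃ C, 0 ≤ C ∧ ∀ L N mu ds al φ ψ, S.Pt L N K mu ds al φ ψ → l ≤ L → n ≤ N →
    ‖φ f‖ ≤ C * ((ds + mu) * al j)

theorem bd_of {P : MvPolynomial (κ × B × List B) A} (h : S.fz.Q j n l P) : S.Bd j n l (S.ev P) :=
  fun K => by
    obtain ⟨C, p, h⟩ := h.bd K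
    exact ⟨C, p, fun L N mu ds al φ ψ q => h L N mu ds al _ _ q.sz' q.rf' fun P hP => q.ker _ hP⟩

/-- The size of the derivatives of the frozen words. -/
theorem U_bd {f : A} (h : M g j n 1 0 f) (I : List κ) (w : List B) (K : ℝ) :
    ∃ C, 0 ≤ C ∧ ∀ L N mu ds al φ ψ, S.Pt L N K mu ds al φ ψ → w.length ≤ L →
      n + I.length + w.length ≤ N → ‖φ (wd S.Z w (S.U I f))‖ ≤ C * al (j + I.length + w.length) := by
  obtain ⟨C, p, h⟩ := (Fz.M_Dw (F := S.fz) w (Fz.M_ZI (F := S.fz) I (MC h))).bd K
  refine ⟨C, p, fun L N mu ds al φ ψ q hl hn => ?_⟩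
  have := h L N mu al _ q.sz' (by omega) hn
  rw [AlgHom.comp_apply, ev_Dw, ev_ZI] at this
  refine this.trans (mul_le_mul_of_nonneg_left ?_ p)
  rw [be, if_neg one_ne_zero, Nat.sub_self, pow_zero, one_mul]
  exact q.sz.mono (min_le_left _ _)

/-- Derivatives of frozen words are frozen words of derivatives. -/
theorem comm_U {f : A} (h : M g j n 1 0 f) (b : B) (w u : List B) (I : List κ) :
    S.Bd (j + I.length + w.length + u.length) (n + I.length + w.length + 2 + u.length)
      (w.length + 1 + u.length)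
      (wd S.Z u (wd S.Z (b :: w) (S.U I f) - S.U I (wd S.Z (b :: w) f))) := by
  have := bd_of ((Fz.comm_Dw (F := S.fz) b w I (MC h)).Dw u)
  rwa [ev_Dw, map_sub, ev_Dw, ev_ZI, Dw_C, ev_ZI, zero_add] at this

/-- The Lie derivative of a frozen word. -/
theorem lie_U {f : A} (h : M g j n 1 0 f) (k : κ) (I : List κ) (u : List B) :
    S.Bd (j + I.length + 1 + u.length) (n + I.length + 1 + u.length) (1 + u.length)
      (wd S.Z u (∑ b, S.c k b * S.Z b (S.U I f) - S.U (k :: I) f)) := by
  have := bd_of ((Fz.lie_ZI (F := S.fz) k I (MC h) fun b => (ext_C _ _ _).trans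
    (ext_C _ _ _).symm).Dw u)
  rw [ev_Dw, map_sub, ev_ZI, map_sum] at this
  simpa [fz, ev_X, wd, ev_D, ← ev_ZI] using this

/-- Coefficients. -/
theorem coef_U {f p : A} {n' : ℕ} (h0 : M g j n' 0 0 p) (h : M g j n 1 0 f) (I : List κ)
    (u : List B) : S.Bd (j + I.length + u.length) (n' + n + I.length + u.length) u.length
      (wd S.Z u (S.U I (p * f) - p * S.U I f)) := by
  have := bd_of ((Fz.coef_ZI (F := S.fz) I (MC h0) (MC h)).Dw u)
  rwa [ev_Dw, map_sub, ← map_mul C, ev_ZI, map_mul, ev_ZI, ev_C, zero_add] at this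

/-- Frozen words of quadratic elements. -/
theorem two_U {f : A} (h : M g j n 2 0 f) (I : List κ) (u : List B) :
    S.Bd (j + I.length + u.length) (n + I.length + u.length) u.length (wd S.Z u (S.U I f)) := by
  have := bd_of (((Fz.Q.two (F := S.fz) (MC h)).ZI I).Dw u)
  rwa [ev_Dw, ev_ZI, zero_add] at this

/-- A second order operator. -/
noncomputable def op (S : Base g B κ) (a b a' b' : B) (co : B → A) (c0 f : A) : A :=
  S.Z a (S.Z b f) - S.Z a' (S.Z b' f) + ∑ e, co e * S.Z e f + c0 * f

/-- The commuted wave equation with any number of outer derivatives. -/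
theorem op_U {a b a' b' : B} {co : B → A} {c0 f : A} (h1 : ∀ e, M g 1 1 0 0 (co e))
    (h2 : M g 1 2 0 0 c0) (h : M g 0 0 1 0 f) (h3 : M g 1 2 2 0 (S.op a b a' b' co c0 f))
    (I : List κ) (u : List B) :
    S.Bd (I.length + 1 + u.length) (I.length + 3 + u.length) (2 + u.length)
      (wd S.Z u (S.op a b a' b' co c0 (S.U I f))) := by
  have e : S.fz.op a b a' b' (fun e => C (co e)) (C c0) (C f) = C (S.op a b a' b' co c0 f) := by
    simp [Fz.op, op, fz, DD, ext_C]
  have := bd_of ((Fz.op_ZI (F := S.fz) (fun e => MC (h1 e)) (MC h2) (MC h) (e ▸ MC h3) I).Dw u)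
  rw [ev_Dw] at this
  simpa [Fz.op, op, fz, ev_D, ev_C, ← ev_ZI] using this

end Base

end Vale.Agent.P354XF
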