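import Vale.Agent.P354XF.Ten

/-!
The family of frozen operators applied to a small quantity.
-/

namespace Vale.Agent.P354XF

open TensorProduct Op

namespace Duo

variable {G A : Type*} [CommRing A] [Algebra ℂ A] {g : Gen G (A × A)} {B ι : Type} [Fintype B]
  (U : Duo g B ι)

noncomputable def Fr (e : Op A B) (f : A) : Rg A := e.ev U.dl (io A) ((f, (0 : A)) ⊗ₜ 1)

/-- The frozen value of the operator e on f: the coefficients are differentiated along Y and f is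
differentiated along Z. -/
noncomputable def F (e : Op A B) (f : A) : A := e1 A (U.Fr e f)

/-- The errors of level j, which involve jets of order less than l of the change of frame. -/
def Qa (j n l : ℕ) (f : A) : Prop := ∃ P, Qd U.gen (K A) j n l P ∧ e1 A P = f

/-- The polynomial classes. -/
def Ma (j n a l : ℕ) (f : A) : Prop := ∃ P, M U.gen j n a l P ∧ e1 A P = f

theorem e1_io (x : A) : e1 A (io A x) = x := by simp [io_ap, e1_ap]

theorem F_one (f : A) : U.F .one f = f := by simp [F, Fr, ev, e1_ap]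
theorem F_zero (f : A) : U.F .zero f = 0 := by simp [F, Fr, ev]
theorem F_smul (x : A) (e : Op A B) (f : A) : U.F (.smul x e) f = x * U.F e f := by
  simp [F, Fr, ev, e1_io]
theorem F_add (e e' : Op A B) (f : A) : U.F (.add e e') f = U.F e f + U.F e' f := by
  simp [F, Fr, ev]
theorem F_sub (e e' : Op A B) (f : A) : U.F (e.sub e') f = U.F e f - U.F e' f := by
  simp [Op.sub, F_add, F_smul, sub_eq_add_neg]
theorem F_lsum (l : List (Op A B)) (f : A) : U.F (lsum l) f = (l.map fun e => U.F e f).sum := by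
  induction l <;> simp only [lsum, F_add, F_zero, List.map, List.sum_nil, List.sum_cons, *]

theorem dl_L (b : B) (p : A × A) : U.dl b (p ⊗ₜ 1) = (U.Z b p.1, U.Y b p.2) ⊗ₜ 1 := by
  simp [dl, tD_ap, prD_ap]

theorem Fr_word (w : List B) (f : A) : U.Fr (word w) f = (wd U.Z w f, (0 : A)) ⊗ₜ 1 := by
  rw [Fr, ev_word]
  induction w with
  | nil => rfl
  | cons b w ih => simp [wd, ih, dl_L]

theorem F_word (w : List B) (f : A) : U.F (word w) f = wd U.Z w f := by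
  simp [F, Fr_word, e1_ap]

theorem F_comp_word (e : Op A B) (w : List B) (f : A) :
    U.F (e.comp (word w)) f = U.F e (wd U.Z w f) := by
  rw [F, F, Fr, ev_comp, ← Fr, Fr_word, Fr]

variable {U} {j n a l j' n' a' l' k : ℕ} {f f' x : A} {e : Op A B}

theorem Qa.mono (h : U.Qa j n l f) (e1 : j ≤ j') (e2 : n ≤ n') (e3 : l ≤ l') : U.Qa j' n' l' f :=
  h.imp fun _ h => ⟨h.1.mono e1 e2 e3, h.2⟩

theorem Qa.zero : U.Qa j n l 0 := ⟨0, .zero, map_zero _⟩

theorem Qa.add (h : U.Qa j n l f) (h' : U.Qa j n l f') : U.Qa j n l (f + f') := by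
  obtain ⟨P, h, rfl⟩ := h
  obtain ⟨P', h', rfl⟩ := h'
  exact ⟨_, h.add h', map_add _ _ _⟩

theorem Qa.sub (h : U.Qa j n l f) (h' : U.Qa j n l f') : U.Qa j n l (f - f') := by
  obtain ⟨P, h, rfl⟩ := h
  obtain ⟨P', h', rfl⟩ := h'
  exact ⟨_, h.sub h', map_sub _ _ _⟩

theorem Qa.sum {κ : Type} (s : Finset κ) {f : κ → A} (h : ∀ i ∈ s, U.Qa j n l (f i)) :
    U.Qa j n l (∑ i ∈ s, f i) := Finset.sum_induction _ _ (fun _ _ => Qa.add) Qa.zero h

theorem Qa.mul (h0 : U.Ma j n' 0 l f') (h : U.Qa j n l f) : U.Qa j (n' + n) l (f' * f) := by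
  obtain ⟨P, h, rfl⟩ := h
  obtain ⟨P', h0, rfl⟩ := h0
  exact ⟨_, h.mul h0, map_mul _ _ _⟩

theorem Qa.smul (hx : x ∈ U.S) (h : U.Qa j n l f) : U.Qa j n l (x * f) := by
  obtain ⟨P, h, rfl⟩ := h
  exact ⟨_, h.mul0 (Mi hx), by rw [map_mul, e1_io]⟩

theorem Qa.Y (b : B) (h : U.Qa j n l f) : U.Qa (j + 1) (n + 1) (l + 1) (U.Y b f) := by
  obtain ⟨P, h, rfl⟩ := h
  exact ⟨_, h.der (fun x _ => U.up_DY b x) (U.K_sum _ _ b), U.e1_DY b P⟩

theorem Qa.Z (b : B) (h : U.Qa j n l f) : U.Qa (j + 1) (n + 1) (l + 1) (U.Z b f) := by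
  obtain ⟨P, h, rfl⟩ := h
  exact ⟨_, h.der (fun x _ => U.up_DZ b x) (U.K_sum _ _ b), U.e1_DZ b P⟩

/-- Honest reference operators. -/
theorem Qa.ev (he : Ok U.S e (k + 1)) (h : U.Qa j n l f) :
    U.Qa (j + k) (n + k) (l + k) (e.ev U.Y id f) := by
  have : ∀ e m, Ok U.S e m → ∀ k, m ≤ k + 1 → U.Qa (j + k) (n + k) (l + k) (e.ev U.Y id f) :=
    fun e m h0 => by
    clear he
    induction h0 with
    | one => exact fun k _ => h.mono (by omega) (by omega) (by omega)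
    | zero => exact fun _ _ => Qa.zero
    | smul h _ ih => exact fun k hk => (ih k hk).smul h
    | der b h0 ih =>
      rintro (_ | k) hk
      · rw [Op.ev, (h0.mono (by omega)).ev_zero, map_zero]
        exact Qa.zero
      · exact (ih k (by omega)).Y b
    | add _ _ h1 h2 => exact fun k hk => (h1 k hk).add (h2 k hk)
  exact this _ _ he k le_rfl

theorem Ma.mono (h : U.Ma j n a l f) (e1 : j ≤ j') (e2 : n ≤ n') (e0 : a' ≤ a) (e3 : l ≤ l') :
    U.Ma j' n' a' l' f := h.imp fun _ h => ⟨h.1.mono e1 e2 e0 e3, h.2⟩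

theorem Ma.add (h : U.Ma j n a l f) (h' : U.Ma j n a l f') : U.Ma j n a l (f + f') := by
  obtain ⟨P, h, rfl⟩ := h
  obtain ⟨P', h', rfl⟩ := h'
  exact ⟨_, h.add h', map_add _ _ _⟩

theorem Ma.mul (h : U.Ma j n a l f) (h' : U.Ma j n' a' l f') :
    U.Ma j (n + n') (a + a') l (f * f') := by
  obtain ⟨P, h, rfl⟩ := h
  obtain ⟨P', h', rfl⟩ := h'
  exact ⟨_, h.mul h', map_mul _ _ _⟩

theorem Ma.ref (hx : x ∈ U.S) : U.Ma 0 0 0 0 x := ⟨_, Mi hx, e1_io x⟩

theorem Ma.of {p : A × A} (h : M g j n a l p) : U.Ma j n a l p.1 := ⟨_, ML h, by simp [e1_ap]⟩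

theorem Ma.Y (b : B) (h : U.Ma j n a l f) : U.Ma (j + 1) (n + 1) a (l + 1) (U.Y b f) := by
  obtain ⟨P, h, rfl⟩ := h
  exact ⟨_, h.derS fun x _ => U.up_DY b x, U.e1_DY b P⟩

theorem Ma.Z (b : B) (h : U.Ma j n a l f) : U.Ma (j + 1) (n + 1) a (l + 1) (U.Z b f) := by
  obtain ⟨P, h, rfl⟩ := h
  exact ⟨_, h.derS fun x _ => U.up_DZ b x, U.e1_DZ b P⟩

theorem M_Fr (he : Ok U.S e (k + 1)) (h : M g j n a 0 (f, 0)) :
    M U.gen (j + k) (n + k) a 0 (U.Fr e f) := Tw.M_ev (W := U.tw) he (ML h)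

theorem Ma.F (he : Ok U.S e (k + 1)) (h : M g j n a 0 (f, 0)) :
    U.Ma (j + k) (n + k) a 0 (U.F e f) := ⟨_, M_Fr he h, rfl⟩

/-- The derivative along the reference frame. -/
theorem Y_F (b : B) (he : Ok U.S e (k + 1)) (h : M g j n 1 0 (f, 0)) :
    U.Qa (j + k + 1) (n + k + 1) 1 (U.Y b (U.F e f) - U.F (.der b e) f) := by
  refine ⟨∑ c, (1 : A × A) ⊗ₜ[ℂ] (U.ta b c, (0 : A)) * U.d c (U.Fr e f), Qd.sum _ fun c _ =>
    .ker (n1 := 0) (Kj _) ((U.Mj true b c []).mono (by omega) le_rfl le_rfl le_rfl)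
      (((M_Fr he h).derS fun x _ => U.up_d c x).mono le_rfl le_rfl le_rfl (by omega)) (by omega),
    ?_⟩
  rw [F, ← e1_DY, DY, Derivation.add_apply, sum_ap, map_add]
  exact (add_sub_cancel_left _ _).symm

theorem DZ_sub (b : B) {P : Rg A} (h : M U.gen j n 1 l P) :
    Qd U.gen (K A) j n (l + 1) (U.DZ b P - U.dl b P) := by
  rw [DZ, Derivation.add_apply, sum_ap, add_sub_cancel_left]
  exact Qd.sum _ fun c _ => .ker (n1 := 0) (Kj _)
    ((U.Mj false b c []).mono (by omega) le_rfl le_rfl (by simp))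
    (h.derS fun x _ => (U.up_d' c x).1) (by omega)

/-- Derivatives along the frame of the solution, without loss. -/
theorem Z_F (b : B) (w : List B) (he : Ok U.S e (k + 1)) (h : M g j n 1 0 (f, 0)) :
    U.Qa (j + k + w.length) (n + k + w.length) (w.length + 1)
      (wd U.Z (b :: w) (U.F e f) - U.F ((word (b :: w)).comp e) f) := by
  induction w generalizing b with
  | nil =>
    have k1 := DZ_sub b (M_Fr he h)
    exact ⟨_, k1, by rw [map_sub, e1_DZ]; rfl⟩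
  | cons c w ih =>
    have k1 : U.Qa (j + (w.length + 1 + k)) (n + (w.length + 1 + k)) 1
        (U.Z b (U.F ((word (c :: w)).comp e) f) - U.F ((word (b :: c :: w)).comp e) f) :=
      ⟨_, DZ_sub b (M_Fr ((Ok.word (c :: w)).comp he) h), by rw [map_sub, e1_DZ]; rfl⟩
    have := ((ih c).Z b).add (k1.mono (by omega) (by omega) (by omega))
    rwa [map_sub, sub_add_sub_cancel] at this

/-- Coefficients of the solution against coefficients of the reference solution. -/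
theorem coef {y : A} (hp : M g j n' 0 0 (x, y)) (hy : y ∈ U.S) (h : U.Ma j n 1 l f) :
    U.Qa j (n' + n) l ((x - y) * f) := by
  obtain ⟨P, h, rfl⟩ := h
  exact ⟨_, .ker (Kp x y) (((ML hp).mono le_rfl le_rfl le_rfl (by omega)).sub
    ((Mi hy).mono (by omega) (by omega) le_rfl (by omega))) h le_rfl, by simp [e1_ap, e1_io]⟩

/-- Every operator identity of the reference solution holds for the family. -/
theorem transfer (hs : Span U.Y) (he : Ok U.S e (k + 2)) (h0 : ∀ f, e.ev U.Y id f = 0)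
    (h : M g j n 1 0 (f, 0)) : U.Qa (j + k) (n + k + 2) 0 (U.F e f) :=
  ⟨_, Tw.transfer (W := U.tw) (k := k + 1) hs he h0 (ML h), rfl⟩

theorem transfer' (hs : Span U.Y) {e' : Op A B} (he : Ok U.S e (k + 2)) (he' : Ok U.S e' (k + 2))
    (h0 : ∀ f, e.ev U.Y id f = e'.ev U.Y id f) (h : M g j n 1 0 (f, 0)) :
    U.Qa (j + k) (n + k + 2) 0 (U.F e f - U.F e' f) := by
  rw [← F_sub]
  exact transfer hs (he.sub he') (fun f => by simp [Op.sub, ev, h0]) h

/-- An equation for f is inherited by the family. -/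
theorem F_comp {u : Op A B} (he : Ok U.S e (k + 1)) (h : Qd U.gen (K A) j n 0 (U.Fr u f)) :
    U.Qa (j + k) (n + k) 0 (U.F (e.comp u) f) :=
  ⟨_, Tw.Q_ev (W := U.tw) he h, congrArg (e1 A) (ev_comp U.dl (io A) e u _).symm⟩

theorem F_two (he : Ok U.S e (k + 1)) (h : M g j n 2 0 (f, 0)) :
    U.Qa (j + k) (n + k) 0 (U.F e f) := ⟨_, .two (M_Fr he h), rfl⟩

/-- The sizes at the point φ. -/
structure Pt (U : Duo g B ι) (L N : ℕ) (K mu ds : ℝ) (al : ℕ → ℝ) (φ : A →ₐ[ℂ] ℂ) : Prop where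
  big : ∀ x, ¬ g.sm x → ‖φ (g.x x).1‖ ≤ K ∧ ‖φ (g.x x).2‖ ≤ K ∧ ‖φ (g.x x).1 - φ (g.x x).2‖ ≤ ds
  small : ∀ x, g.sm x → ‖φ (g.x x).1‖ ≤ al (g.lev x)
  ref : ∀ i, ‖φ (U.kf i)‖ ≤ K
  jet : ∀ b e w, w.length < L → ‖φ (wd U.Y w (U.sg b e))‖ ≤ ds ∧ ‖φ (wd U.Y w (U.ta b e))‖ ≤ ds
  mono : Monotone al
  pos : 0 ≤ al 0
  half : al (N / 2) ≤ mu
  one : mu ≤ 1
  ds0 : 0 ≤ ds
  dsK : ds ≤ K

variable {L N : ℕ} {K0 mu ds : ℝ} {al : ℕ → ℝ} {φ : A →ₐ[ℂ] ℂ}

theorem Pt.jt (p : U.Pt L N K0 mu ds al φ) (s : Bool) (b e : B) (w : List B) (h : w.length < L) :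
    ‖φ (U.jt s b e w)‖ ≤ ds := by
  cases s
  exacts [(p.jet b e w h).1, (p.jet b e w h).2]

theorem Pt.sz (p : U.Pt L N K0 mu ds al φ) : Sz U.gen L N K0 mu al (φ.comp (e1 A)) where
  big := by
    rintro (x | i | j) h h'
    · simpa [gen, e1_ap] using (p.big x h).1
    · simpa [gen, e1_io] using p.ref i
    · simpa [gen, e1_ap] using (p.jt _ _ _ _ h').trans p.dsK
  small := by
    rintro (x | j) h
    · simpa [gen, e1_ap] using p.small x h
    · exact h.elim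
  mono := p.mono
  pos := p.pos
  half := p.half
  one := p.one

theorem Pt.rf (p : U.Pt L N K0 mu ds al φ) :
    Rf U.gen L K0 ds (φ.comp (e1 A)) (φ.comp (e2 A)) where
  big := by
    rintro (x | i | j) h h'
    · simpa [gen, e1_ap, e2_ap] using (p.big x h).2
    · simpa [gen, io_ap, e1_ap, e2_ap, p.ds0] using p.ref i
    · simpa [gen, e1_ap, e2_ap, p.ds0.trans p.dsK] using p.jt _ _ _ _ h'
  small := by
    rintro (x | j) h
    · simp [gen, e2_ap, U.sm0 x h]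
    · exact h.elim
  pos := p.ds0

/-- The pointwise bounds. -/
theorem Qa.bd (h : U.Qa j n l f) (K0 : ℝ) : ∃ C, 0 ≤ C ∧ ∀ L N mu ds al φ,
    U.Pt L N K0 mu ds al φ → l ≤ L → n ≤ N → ‖φ f‖ ≤ C * ((ds + mu) * al j) := by
  obtain ⟨P, h, rfl⟩ := h
  obtain ⟨C, p, h⟩ := h.bd K0
  exact ⟨C, p, fun L N mu ds al φ q => h L N mu ds al _ _ q.sz q.rf fun P hP => by
    rw [AlgHom.comp_apply, show e2 A P = 0 from hP, map_zero]⟩

theorem Ma.bd (h : U.Ma j n 1 l f) (K0 : ℝ) : ∃ C, 0 ≤ C ∧ ∀ L N mu ds al φ,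
    U.Pt L N K0 mu ds al φ → l ≤ L → n ≤ N → ‖φ f‖ ≤ C * al j := by
  obtain ⟨P, h, rfl⟩ := h
  obtain ⟨C, p, h⟩ := h.bd K0
  refine ⟨C, p, fun L N mu ds al φ q hl hn => (h L N mu al _ q.sz hl hn).trans
    (mul_le_mul_of_nonneg_left ?_ p)⟩
  rw [be, if_neg one_ne_zero, Nat.sub_self, pow_zero, one_mul]
  exact q.mono (min_le_left _ _)

theorem Ma.bd0 (h : U.Ma j n 0 l f) (K0 : ℝ) : ∃ C, 0 ≤ C ∧ ∀ L N mu ds al φ,
    U.Pt L N K0 mu ds al φ → l ≤ L → n ≤ N → ‖φ f‖ ≤ C * (1 + al j) := by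
  obtain ⟨P, h, rfl⟩ := h
  obtain ⟨C, p, h⟩ := h.bd K0
  refine ⟨C, p, fun L N mu ds al φ q hl hn => (h L N mu al _ q.sz hl hn).trans
    (mul_le_mul_of_nonneg_left ?_ p)⟩
  rw [be, if_pos rfl]
  linarith [q.mono (min_le_left j n)]

/-- The second order operators. -/
noncomputable def opO (a b a' b' : B) (ck : B → A) (c0 : A) : Op A B :=
  .add (.add ((word [a, b]).sub (word [a', b']))
    (lsum (Finset.univ.toList.map fun e => .smul (ck e) (word [e])))) (.smul c0 .one)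

omit [Algebra ℂ A] in
theorem ev_opO {R : Type*} [CommRing R] [Algebra ℂ R] (D : B → Der R) (i : A →+* R) (a b a' b' : B)
    (ck : B → A) (c0 : A) (P : R) : (opO a b a' b' ck c0).ev D i P =
      D a (D b P) - D a' (D b' P) + ∑ e, i (ck e) * D e P + i c0 * P := by
  simp [opO, ev, Op.sub, ev_lsum, word, Function.comp_def, sub_eq_add_neg]

theorem ok_opO {a b a' b' : B} {ck : B → A} {c0 : A} (h1 : ∀ e, ck e ∈ U.S) (h2 : c0 ∈ U.S) :
    Ok U.S (opO a b a' b' ck c0) 3 := by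
  refine (((Ok.word [a, b]).sub (Ok.word [a', b'])).add (Ok.lsum ?_)).add ((Ok.one _).smul h2)
  simp only [List.mem_map]
  rintro _ ⟨e, -, rfl⟩
  exact ((Ok.word _).mono (by simp)).smul (h1 e)

/-- The wave equation for the family. -/
theorem wave {a b a' b' : B} {cs ck : B → A} {s0 k0 : A} (h1 : ∀ e, M g 1 1 0 0 (cs e, ck e))
    (h2 : M g 1 2 0 0 (s0, k0)) (h3 : ∀ e, ck e ∈ U.S) (h4 : k0 ∈ U.S) (h : M g 0 0 1 0 (f, 0))
    (hf : M g 1 2 2 0 (U.Z a (U.Z b f) - U.Z a' (U.Z b' f) + ∑ c, cs c * U.Z c f + s0 * f, 0))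
    (he : Ok U.S e (k + 1)) :
    U.Qa (k + 1) (k + 3) 2 (U.Z a (U.Z b (U.F e f)) - U.Z a' (U.Z b' (U.F e f)) +
      ∑ c, cs c * U.Z c (U.F e f) + s0 * U.F e f - U.F ((opO a b a' b' ck k0).comp e) f) ∧
    U.Qa (k + 1) (k + 3) 0 (U.F (e.comp (opO a b a' b' ck k0)) f) := by
  constructor
  · have e0 : U.F ((opO a b a' b' ck k0).comp e) f = U.F ((word [a, b]).comp e) f -
        U.F ((word [a', b']).comp e) f + ∑ c, ck c * U.F ((word [c]).comp e) f + k0 * U.F e f := by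
      rw [F, Fr, ev_comp]
      refine (congrArg (e1 A) (ev_opO U.dl (io A).toRingHom _ _ _ _ _ _ _)).trans ?_
      simp [e1_io, F, Fr, word, comp, ev]
    have m0 : U.Ma (k + 1) k 1 2 (U.F e f) := (Ma.F he h).mono (by omega) (by omega) le_rfl (by omega)
    have := ((((Z_F a [b] he h).sub (Z_F a' [b'] he h)).mono (j' := k + 1) (n' := k + 3) (l' := 2)
      (by simp) (by simp) (by simp)).add (Qa.sum Finset.univ fun c _ =>
        (((coef ((h1 c).mono (by omega) le_rfl le_rfl le_rfl) (h3 c)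
          (((Ma.F he h).Z c).mono (j' := k + 1) (l' := 2) (by omega) le_rfl le_rfl (by omega))).mono
            le_rfl (by omega) le_rfl).add (((Z_F c [] he h).smul (h3 c)).mono (by simp) (by simp)
              (by simp))))).add
      ((coef (h2.mono (by omega) le_rfl le_rfl le_rfl) h4 m0).mono le_rfl (by omega) le_rfl)
    rw [e0]
    refine cast (congrArg _ ?_) this
    simp only [wd, sub_mul, mul_sub, sub_add_sub_cancel, Finset.sum_sub_distrib]
    ring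
  · refine (F_comp (j := 1) (n := 3) he ?_).mono (by omega) (by omega) le_rfl
    have e0 : U.Fr (opO a b a' b' ck k0) f =
        (U.Z a (U.Z b f) - U.Z a' (U.Z b' f) + ∑ c, cs c * U.Z c f + s0 * f, (0 : A)) ⊗ₜ 1 -
        ∑ c, ((cs c, ck c) ⊗ₜ[ℂ] 1 - io A (ck c)) * U.dl c ((f, (0 : A)) ⊗ₜ 1) -
        ((s0, k0) ⊗ₜ[ℂ] 1 - io A k0) * ((f, (0 : A)) ⊗ₜ 1) := by
      refine (ev_opO U.dl (io A).toRingHom _ _ _ _ _ _ _).trans ?_
      have : (U.Z a (U.Z b f) - U.Z a' (U.Z b' f) + ∑ c, cs c * U.Z c f + s0 * f, (0 : A)) =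
          (U.Z a (U.Z b f), 0) - (U.Z a' (U.Z b' f), 0) + ∑ c, (cs c, ck c) * (U.Z c f, 0) +
            (s0, k0) * (f, 0) := by ext <;> simp [Prod.fst_sum, Prod.snd_sum]
      simp only [this, dl_L, map_zero, add_tmul, sub_tmul, sum_tmul, sub_mul,
        Algebra.TensorProduct.tmul_mul_tmul, mul_one, Finset.sum_sub_distrib, AlgHom.toRingHom_eq_coe,
        RingHom.coe_coe]
      ring
    rw [e0]
    exact ((Qd.two ((ML hf).mono le_rfl (by omega) le_rfl le_rfl)).sub (Qd.sum _ fun c _ =>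
      .ker (n1 := 1) (n2 := 1) (Kp _ _) ((ML (h1 c)).sub ((Mi (h3 c)).mono (by omega) (by omega)
        le_rfl le_rfl)) ((ML h).derS (U.tw.up c)) (by omega))).sub (.ker (n1 := 2) (n2 := 0) (Kp _ _)
      ((ML h2).sub ((Mi h4).mono (by omega) (by omega) le_rfl le_rfl))
      ((ML h).mono (by omega) le_rfl le_rfl le_rfl) (by omega))

end Duo

end Vale.Agent.P354XF
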