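import Vale.Agent.P354XF.Cls

/-!
Lie derivatives with frozen coefficients: commutators are quadratic.
-/

namespace Vale.Agent.P354XF

/-- Derivations. -/
abbrev Der (R : Type*) [CommRing R] [Algebra ℂ R] := Derivation ℂ R R

theorem sum_ap {R B : Type*} [CommRing R] [Algebra ℂ R] (s : Finset B) (c : B → R) (d : B → Der R)
    (P : R) : (∑ b ∈ s, c b • d b) P = ∑ b ∈ s, c b * d b P := by
  classical
  induction s using Finset.induction_on with
  | empty => simp
  | insert _ _ h ih => simp [Finset.sum_insert h, ih]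

/-- The formal data: d freezes the components c of the vector fields, D is the full derivative,
ga are the structure functions, K the elements which vanish on the reference solution. -/
structure Fz {G R : Type*} [CommRing R] [Algebra ℂ R] (g : Gen G R) (B κ : Type) [Fintype B] where
  d : B → Der R
  D : B → Der R
  c : κ → B → R
  ga : B → B → B → R
  K : Ideal R
  upd : ∀ b, Up g 0 (d b)
  upD : ∀ b, Up g 1 (D b)
  mc : ∀ k b, M g 0 0 0 0 (c k b)
  mga : ∀ a b e, M g 1 2 0 0 (ga a b e)
  KD : ∀ b, ∀ P ∈ K, D b P ∈ K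
  KZ : ∀ k x, ∑ b, c k b * d b (g.x x) ∈ K
  Kdel : ∀ k a e, D a (c k e) + ∑ b, c k b * ga a b e ∈ K
  KL : ∀ k k' e, ∑ b, c k b * D b (c k' e) ∈ K
  dc : ∀ b k e, d b (c k e) = 0
  comm : ∀ a b P, D a (d b P) = d b (D a P) + ∑ e, ga a b e * d e P
  commd : ∀ a b P, d a (d b P) = d b (d a P) + ∑ e, ga a b e * d e P

variable {G R : Type*} [CommRing R] [Algebra ℂ R] {B κ : Type} [Fintype B] {g : Gen G R}
  (F : Fz g B κ)

namespace Fz

/-- The frozen Lie derivative. -/
noncomputable def Z (k : κ) : Der R := ∑ b, F.c k b • F.d b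

theorem Z_ap (k : κ) (P : R) : F.Z k P = ∑ b, F.c k b * F.d b P := sum_ap _ _ _ _

/-- Words of frozen Lie derivatives and of full derivatives. -/
noncomputable def ZI : List κ → R → R
  | [], P => P
  | k :: I, P => F.Z k (ZI I P)

noncomputable def Dw : List B → R → R
  | [], P => P
  | b :: w, P => F.D b (Dw w P)

/-- The quadratic class. -/
inductive Q (j n l : ℕ) : R → Prop
  | two {P : R} : M g j n 2 l P → Q j n l P
  | ker {n1 n2 : ℕ} {P P' : R} : P ∈ F.K → M g j n1 0 l P → M g j n2 1 l P' →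
      n1 + n2 ≤ n → Q j n l (P * P')
  | add {P P' : R} : Q j n l P → Q j n l P' → Q j n l (P + P')

variable {F} {j n a l j' n' l' : ℕ} {P P' : R}

theorem Q.mono (h : F.Q j n l P) (e1 : j ≤ j') (e2 : n ≤ n') (e3 : l ≤ l') : F.Q j' n' l' P := by
  induction h with
  | two h => exact .two (h.mono e1 e2 le_rfl e3)
  | ker h h1 h2 e => exact .ker h (h1.mono e1 le_rfl le_rfl e3) (h2.mono e1 le_rfl le_rfl e3) (by omega)
  | add _ _ h1 h2 => exact h1.add h2

theorem Q.zero : F.Q j n l 0 := .two (M.zero _ _ _ _)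

theorem Q.mul (h0 : M g j n' 0 l P') (h : F.Q j n l P) : F.Q j (n' + n) l (P' * P) := by
  induction h with
  | two h => exact .two (h0.mul h)
  | ker h h1 h2 e =>
    rw [mul_left_comm]
    exact .ker h h1 (h0.mul h2) (by omega)
  | add _ _ h1 h2 => simpa only [mul_add] using h1.add h2

theorem Q.neg (h : F.Q j n l P) : F.Q j n l (-P) := by
  simpa using h.mul (M.c (n := 0) (-1))

theorem Q.sub (h : F.Q j n l P) (h' : F.Q j n l P') : F.Q j n l (P - P') := by
  simpa [sub_eq_add_neg] using h.add h'.neg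

theorem Q.sum {ι : Type} (s : Finset ι) {f : ι → R}
    (h : ∀ i ∈ s, F.Q j n l (f i)) : F.Q j n l (∑ i ∈ s, f i) :=
  Finset.sum_induction _ _ (fun _ _ => Q.add) Q.zero h

theorem Q.toM (h : F.Q j n l P) : M g j n 1 l P := by
  induction h with
  | two h => exact h.mono le_rfl le_rfl (by omega) le_rfl
  | ker _ h1 h2 e => exact h1.mul' h2 le_rfl le_rfl e (by omega) le_rfl le_rfl
  | add _ _ h1 h2 => exact h1.add h2

theorem Q.der {e : ℕ} {d : Der R} (hd : Up g e d)
    (hK : ∀ P ∈ F.K, ∀ n, M g j n 0 l P → d P ∈ F.K) (h : F.Q j n l P) :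
    F.Q (j + 1) (n + 1) (l + e) (d P) := by
  induction h with
  | two h => exact .two (h.der hd)
  | ker h h1 h2 e =>
    rename_i P P'
    rw [Derivation.leibniz, smul_eq_mul, smul_eq_mul, mul_comm P' (d P)]
    exact (Q.ker h (h1.mono (by omega) le_rfl le_rfl (by omega)) (h2.der hd) (by omega)).add
      (.ker (hK _ h _ h1) (h1.der hd) (h2.mono (by omega) le_rfl le_rfl (by omega)) (by omega))
  | add _ _ h1 h2 => simpa using h1.add h2

theorem upZ (k : κ) : Up g 0 (F.Z k) := fun x => by
  rw [Up1, Z_ap]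
  exact ⟨M.sum _ fun b _ => (F.mc k b).mul' (F.upd b x).1 (by omega) le_rfl (by omega) le_rfl
    (by omega) le_rfl, fun h => M.sum _ fun b _ => (F.mc k b).mul' ((F.upd b x).2 h) (by omega)
      le_rfl (by omega) le_rfl (by omega) le_rfl⟩

theorem Z_mem (k : κ) (h : M g j n a l P) : F.Z k P ∈ F.K :=
  h.der_mem fun x => by
    rw [Z_ap]
    exact F.KZ k x

theorem Q.Z (k : κ) (h : F.Q j n l P) : F.Q (j + 1) (n + 1) l (F.Z k P) :=
  h.der (upZ k) fun _ _ _ h => Z_mem k h

theorem Q.D (b : B) (h : F.Q j n l P) : F.Q (j + 1) (n + 1) (l + 1) (F.D b P) :=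
  h.der (F.upD b) fun P h _ _ => F.KD b P h

theorem Q.ZI (I : List κ) (h : F.Q j n l P) :
    F.Q (j + I.length) (n + I.length) l (F.ZI I P) := by
  induction I with
  | nil => exact h
  | cons k I ih => exact ih.Z k

theorem Q.Dw (w : List B) (h : F.Q j n l P) :
    F.Q (j + w.length) (n + w.length) (l + w.length) (F.Dw w P) := by
  induction w with
  | nil => exact h
  | cons k I ih => exact ih.D k

theorem M_ZI (I : List κ) (h : M g j n a l P) :
    M g (j + I.length) (n + I.length) a l (F.ZI I P) := by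
  induction I with
  | nil => exact h
  | cons k I ih => exact ih.der (upZ k)

theorem M_Dw (w : List B) (h : M g j n a l P) :
    M g (j + w.length) (n + w.length) a (l + w.length) (F.Dw w P) := by
  induction w with
  | nil => exact h
  | cons k I ih => exact ih.der (e := 1) (F.upD k)

theorem ZI_add (I : List κ) (P P' : R) : F.ZI I (P + P') = F.ZI I P + F.ZI I P' := by
  induction I with
  | nil => rfl
  | cons k I ih => simp only [ZI, ih, map_add]

theorem ZI_sub (I : List κ) (P P' : R) : F.ZI I (P - P') = F.ZI I P - F.ZI I P' := by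
  induction I with
  | nil => rfl
  | cons k I ih => simp only [ZI, ih, map_sub]

theorem ZI_sum {ι : Type} (I : List κ) (s : Finset ι) (f : ι → R) :
    F.ZI I (∑ i ∈ s, f i) = ∑ i ∈ s, F.ZI I (f i) := by
  induction I with
  | nil => rfl
  | cons k I ih => simp only [ZI, ih, map_sum]

theorem Dw_sub (w : List B) (P P' : R) : F.Dw w (P - P') = F.Dw w P - F.Dw w P' := by
  induction w with
  | nil => rfl
  | cons k I ih => simp only [Dw, ih, map_sub]

theorem Dw_append (w w' : List B) (P : R) : F.Dw (w ++ w') P = F.Dw w (F.Dw w' P) := by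
  induction w with
  | nil => rfl
  | cons k I ih => simp only [List.cons_append, Dw, ih]

/-- The exact commutator. -/
theorem comm_ex (b : B) (k : κ) (P : R) : F.D b (F.Z k P) - F.Z k (F.D b P) =
    ∑ e, (F.D b (F.c k e) + ∑ a, F.c k a * F.ga b a e) * F.d e P := by
  simp only [Z_ap, map_sum, Derivation.leibniz, smul_eq_mul, add_mul, mul_add, Finset.sum_mul,
    Finset.mul_sum, Finset.sum_add_distrib, mul_assoc, F.comm]
  rw [Finset.sum_comm (f := fun e a => F.c k a * (F.ga b a e * F.d e P))]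
  simp only [mul_comm (F.d _ P) (F.D b _)]
  ring

/-- One derivative and one frozen Lie derivative. -/
theorem comm_one (b : B) (k : κ) (h : M g j n 1 l P) :
    F.Q (j + 1) (n + 3) (max l 1) (F.D b (F.Z k P) - F.Z k (F.D b P)) := by
  rw [comm_ex]
  refine Q.sum _ fun e _ => .ker (n1 := 2) (n2 := n + 1) (F.Kdel k b e) ?_
    ((h.der (F.upd e)).mono le_rfl le_rfl le_rfl (by omega)) (by omega)
  exact (((F.mc k e).der (F.upD b)).mono (by omega) (by omega) le_rfl (by omega)).add
    (M.sum _ fun a _ => (F.mc k a).mul' (F.mga b a e) (by omega) (by omega) (by omega) le_rfl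
      (by omega) (by omega))

/-- The true Lie derivative of a frozen word is the longer frozen word up to quadratic terms. -/
theorem lie_ZI (k : κ) (I : List κ) (h : M g j n 1 l P) (h0 : ∀ b, F.D b P = F.d b P) :
    F.Q (j + I.length + 1) (n + I.length + 1) (max l 1)
      (∑ b, F.c k b * F.D b (F.ZI I P) - F.ZI (k :: I) P) := by
  induction I with
  | nil => simpa [ZI, h0, Z_ap] using Q.zero
  | cons k' I ih =>
    set p := F.ZI I P with hp
    have e : ∑ b, F.c k b * F.D b (F.ZI (k' :: I) P) - F.ZI (k :: k' :: I) P =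
        ∑ e, (∑ b, F.c k b * F.D b (F.c k' e)) * F.d e p +
        F.Z k' (∑ b, F.c k b * F.D b p - F.ZI (k :: I) P) := by
      have e1 : ∑ b, F.c k b * F.D b (F.ZI (k' :: I) P) = ∑ e, ∑ b, F.c k b *
          (F.D b (F.c k' e) * F.d e p + F.c k' e * F.D b (F.d e p)) := by
        rw [Finset.sum_comm]
        refine Finset.sum_congr rfl fun b _ => ?_
        rw [ZI, ← hp, Z_ap, map_sum, Finset.mul_sum]
        refine Finset.sum_congr rfl fun e _ => ?_
        rw [Derivation.leibniz, smul_eq_mul, smul_eq_mul]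
        ring
      have e2 : F.ZI (k :: k' :: I) P = ∑ e, ∑ b, F.c k b * (F.c k' e * F.d b (F.d e p)) := by
        rw [Finset.sum_comm, ZI, ZI, ← hp, Z_ap]
        refine Finset.sum_congr rfl fun b _ => ?_
        rw [Z_ap, map_sum, Finset.mul_sum]
        refine Finset.sum_congr rfl fun e _ => ?_
        rw [Derivation.leibniz, F.dc, smul_zero, add_zero, smul_eq_mul]
      have e3 : F.Z k' (∑ b, F.c k b * F.D b p - F.ZI (k :: I) P) = ∑ e, ∑ b, F.c k' e *
          (F.c k b * (F.d e (F.D b p) - F.d e (F.d b p))) := by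
        rw [ZI, ← hp, Z_ap, Z_ap]
        refine Finset.sum_congr rfl fun e _ => ?_
        rw [← Finset.sum_sub_distrib, map_sum, Finset.mul_sum]
        refine Finset.sum_congr rfl fun b _ => ?_
        rw [← mul_sub, Derivation.leibniz, F.dc, smul_zero, add_zero, smul_eq_mul, map_sub]
      rw [e1, e2, e3]
      simp only [Finset.sum_mul, ← Finset.sum_sub_distrib, ← Finset.sum_add_distrib]
      refine Finset.sum_congr rfl fun e _ => Finset.sum_congr rfl fun b _ => ?_
      rw [F.comm b e p, F.commd b e p]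
      ring
    rw [e]
    refine (Q.sum _ fun e _ => .ker (n1 := 1) (n2 := n + I.length + 1) (F.KL k k' e) ?_
      (((M_ZI I h).der (F.upd e)).mono (by simp) le_rfl le_rfl (by omega))
        (by simp; omega)).add ((ih.Z k').mono (by simp) (by simp) le_rfl)
    exact M.sum _ fun b _ => (F.mc k b).mul' ((F.mc k' e).der (F.upD b)) (by omega) (by omega)
      (by omega) le_rfl (by omega) (by omega)

theorem comm_ZI (b : B) (I : List κ) (h : M g j n 1 l P) :
    F.Q (j + I.length) (n + I.length + 2) (max l 1) (F.D b (F.ZI I P) - F.ZI I (F.D b P)) := by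
  induction I with
  | nil => simpa [ZI] using Q.zero
  | cons k I ih =>
    have e : F.D b (F.ZI (k :: I) P) - F.ZI (k :: I) (F.D b P) =
        (F.D b (F.Z k (F.ZI I P)) - F.Z k (F.D b (F.ZI I P))) +
          F.Z k (F.D b (F.ZI I P) - F.ZI I (F.D b P)) := by simp [ZI]
    rw [e]
    exact ((comm_one b k (M_ZI I h)).mono le_rfl (by simp) le_rfl).add
      ((ih.Z k).mono le_rfl (by simp) le_rfl)

/-- Words of derivatives commute with frozen Lie derivatives up to quadratic terms, without loss
of derivatives. -/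
theorem comm_Dw (b : B) (w : List B) (I : List κ) (h : M g j n 1 l P) :
    F.Q (j + I.length + w.length) (n + I.length + w.length + 2) (l + w.length + 1)
      (F.Dw (b :: w) (F.ZI I P) - F.ZI I (F.Dw (b :: w) P)) := by
  induction w generalizing b with
  | nil => exact (comm_ZI b I h).mono le_rfl le_rfl (by simp)
  | cons a w ih =>
    have e : F.Dw (b :: a :: w) (F.ZI I P) - F.ZI I (F.Dw (b :: a :: w) P) =
        F.D b (F.Dw (a :: w) (F.ZI I P) - F.ZI I (F.Dw (a :: w) P)) +
          (F.D b (F.ZI I (F.Dw (a :: w) P)) - F.ZI I (F.D b (F.Dw (a :: w) P))) := by simp [Dw]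
    rw [e]
    exact (((ih a).D b).mono le_rfl (by simp) (by simp)).add
      ((comm_ZI b I (M_Dw (a :: w) h)).mono (by simp; omega) (by simp; omega) (by simp))

/-- Coefficients commute with frozen Lie derivatives up to quadratic terms. -/
theorem coef_ZI (I : List κ) (h0 : M g j n' 0 l P') (h : M g j n 1 l P) :
    F.Q (j + I.length) (n' + n + I.length) l (F.ZI I (P' * P) - P' * F.ZI I P) := by
  induction I with
  | nil => simpa [ZI] using Q.zero
  | cons k I ih =>
    have e : F.ZI (k :: I) (P' * P) - P' * F.ZI (k :: I) P =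
        F.Z k (F.ZI I (P' * P) - P' * F.ZI I P) + F.Z k P' * F.ZI I P := by
      simp only [ZI, map_sub, Derivation.leibniz, smul_eq_mul]
      ring
    rw [e]
    refine (ih.Z k).add (.ker (Z_mem k h0) ((h0.der (upZ k)).mono (by simp) le_rfl le_rfl le_rfl)
      ((M_ZI I h).mono (by simp) le_rfl le_rfl le_rfl) (by omega))

/-- A second order operator. -/
noncomputable def op (F : Fz g B κ) (a b a' b' : B) (co : B → R) (c0 : R) (P : R) : R :=
  F.D a (F.D b P) - F.D a' (F.D b' P) + ∑ e, co e * F.D e P + c0 * P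

/-- The commuted wave equation has a quadratic source without loss of derivatives. -/
theorem op_ZI {a b a' b' : B} {co : B → R} {c0 : R} (h1 : ∀ e, M g 1 1 0 0 (co e))
    (h2 : M g 1 2 0 0 c0) (h : M g 0 0 1 0 P) (h3 : M g 1 2 2 0 (F.op a b a' b' co c0 P))
    (I : List κ) :
    F.Q (I.length + 1) (I.length + 3) 2 (F.op a b a' b' co c0 (F.ZI I P)) := by
  have e : F.op a b a' b' co c0 (F.ZI I P) = F.ZI I (F.op a b a' b' co c0 P) +
      (F.Dw [a, b] (F.ZI I P) - F.ZI I (F.Dw [a, b] P)) -
      (F.Dw [a', b'] (F.ZI I P) - F.ZI I (F.Dw [a', b'] P)) +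
      ∑ e, (co e * (F.D e (F.ZI I P) - F.ZI I (F.D e P)) -
        (F.ZI I (co e * F.D e P) - co e * F.ZI I (F.D e P))) -
      (F.ZI I (c0 * P) - c0 * F.ZI I P) := by
    simp only [op, Dw, ZI_add, ZI_sub, ZI_sum, mul_sub, Finset.sum_sub_distrib]
    ring
  rw [e]
  refine ((((Q.two ((M_ZI I h3).mono (by omega) (by omega) le_rfl (by omega))).add
    ((comm_Dw a [b] I h).mono (by simp) (by simp) (by simp))).sub
    ((comm_Dw a' [b'] I h).mono (by simp) (by simp) (by simp))).add (Q.sum _ fun e _ => ?_)).sub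
    ((coef_ZI I h2 (h.mono (by omega) le_rfl le_rfl le_rfl)).mono (by omega) (by omega) (by omega))
  exact ((((comm_ZI e I h).mono (by omega) le_rfl (by simp)).mul
    ((h1 e).mono (j' := I.length + 1) (l' := 2) (by omega) le_rfl le_rfl (by omega))).mono le_rfl
      (by omega) le_rfl).sub ((coef_ZI I ((h1 e).mono le_rfl le_rfl le_rfl (by omega))
        (h.der (F.upD e))).mono (by omega) (by omega) (by omega))

/-- The pointwise bound for the quadratic class. -/
theorem Q.bd (h : F.Q j n l P) (K : ℝ) : ∃ C, 0 ≤ C ∧ ∀ L N mu ds al φ ψ, Sz g L N K mu al φ →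
    Rf g L K ds φ ψ → (∀ P ∈ F.K, ψ P = 0) → l ≤ L → n ≤ N →
      ‖φ P‖ ≤ C * ((ds + mu) * al j) := by
  induction h with
  | two h =>
    obtain ⟨C, p, h⟩ := h.bd K
    refine ⟨C, p, fun L N mu ds al φ ψ s r _ hl hn =>
      (h L N mu al φ s hl hn).trans (mul_le_mul_of_nonneg_left ?_ p)⟩
    have := s.mono (min_le_left j n)
    have m0 : 0 ≤ mu := (s.nn _).trans s.half
    have := s.nn j
    simp only [be, OfNat.ofNat_ne_zero, if_false, Nat.add_one_sub_one, pow_one]
    nlinarith [r.pos]
  | @ker n1 n2 P P' h h1 h2 e =>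
    obtain ⟨C1, p1, h1⟩ := h1.bd2 K
    obtain ⟨C2, p2, h2⟩ := h2.bd K
    refine ⟨C1 * C2 * 2, by positivity, fun L N mu ds al φ ψ s r hK hl hn => ?_⟩
    have u1 := h1 L N mu ds al φ ψ s r hl (by omega)
    have u2 := h2 L N mu al φ s hl (by omega)
    have w0 := be_mul' (j := j) (a := 0) (a' := 1) s (show n1 + n2 ≤ N by omega)
    have w1 := be_mul' (j := j) (a := 1) (a' := 1) s (show n1 + n2 ≤ N by omega)
    have m2 := s.mono (min_le_left j (n1 + n2))
    have m0 : 0 ≤ mu := (s.nn _).trans s.half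
    have := r.pos
    have := s.nn (min j n1)
    have := s.nn (min j n2)
    simp only [be, if_true, zero_add, one_ne_zero, if_false, Nat.sub_self, pow_zero, one_mul,
      Nat.add_eq_zero_iff, and_self, Nat.add_one_sub_one, pow_one] at u2 w0 w1
    rw [hK _ h, sub_zero] at u1
    rw [map_mul, norm_mul]
    refine (mul_le_mul u1 u2 (norm_nonneg _) (by positivity)).trans ?_
    rw [mul_mul_mul_comm, mul_assoc (C1 * C2)]
    refine mul_le_mul_of_nonneg_left ?_ (by positivity)
    nlinarith [mul_le_mul_of_nonneg_left m2 m0, mul_le_mul_of_nonneg_left m2 r.pos,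
      mul_le_mul_of_nonneg_left w0 r.pos]
  | add _ _ h1 h2 =>
    obtain ⟨C1, p1, h1⟩ := h1
    obtain ⟨C2, p2, h2⟩ := h2
    refine ⟨C1 + C2, by positivity, fun L N mu ds al φ ψ s r hK hl hn => ?_⟩
    rw [map_add, add_mul]
    exact norm_add_le_of_le (h1 L N mu ds al φ ψ s r hK hl hn) (h2 L N mu ds al φ ψ s r hK hl hn)

end Fz

end Vale.Agent.P354XF
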