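import Vale.Agent.P354XF.Tab

/-!
Every derivative raises the level by at most one.
-/

namespace Vale.Agent.P354XF

open P354XG (GHP D_mul D_num D_add D_sub D_neg D_one D_zero)

variable {A : Type*} [CommRing A] [Algebra ℂ A]

namespace Tv

variable (T : Tv A)

/-- The quadratic part of the derivative of P2 is u * v. -/
def u : Fin 6 → A := ![T.G.si', T.G.si, T.G.ka', T.G.ka, 0, 0]
def v : Fin 6 → A := ![T.G.P0, T.G.P4, T.G.P0, T.G.P4, 0, 0]

theorem fr_P2 (a : Fin 6) : fr T.G a T.G.P2 = 3 * T.y a * T.G.P2 + T.u a * T.v a := by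
  have h := T.is
  fin_cases a <;> simp only [fr, y, u, v, Fin.reduceFinMk, Matrix.cons_val]
  · exact h.tr_th T.h1 T.h3
  · exact h.pr.tr_th T.h3 T.h1
  · exact h.tr_et T.h1 T.h3
  · exact h.pr.tr_et T.h3 T.h1
  · simpa using h.H_P2
  · simpa using h.Hb_P2

theorem fr_Pi (d : Der A) : d T.Pi = -(T.Pi * T.Pi * (3 * d T.G.P2)) := by
  have := congrArg d T.inv
  rw [D_mul, D_mul, D_num, D_one] at this
  linear_combination T.Pi * this - d T.Pi * T.inv

theorem mu (a : Fin 6) : M T.gen 1 1 1 0 (T.u a) := by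
  fin_cases a
  exacts [T.msi', T.msi, T.mka', T.mka, M.zero _ _ _ _, M.zero _ _ _ _]

theorem mv (a : Fin 6) : M T.gen 0 0 1 0 (T.v a) := by
  fin_cases a
  exacts [T.mP0, T.mP4, T.mP0, T.mP4, M.zero _ _ _ _, M.zero _ _ _ _]

theorem m_frP2 (a : Fin 6) : M T.gen 1 1 0 0 (fr T.G a T.G.P2) := by
  rw [fr_P2]
  exact (((M.num (n := 0) 3).mul (T.my a)).mul (m01 (n := 0) T.mP2)).add
    (a0 ((T.mu a).mul' (T.mv a) le_rfl (by omega) le_rfl le_rfl le_rfl le_rfl))

theorem up_conj {x : Gn} (h : ∀ a, Up1 T.gen 0 (fr T.G a) (false, x)) (s : Bool) (a : Fin 6) :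
    Up1 T.gen 0 (fr T.G a) (s, x) := by
  cases s
  · exact h a
  · have e : fr T.G a (T.gen.x (true, x)) = T.G.c (fr T.G (bar a) (T.gen.x (false, x))) :=
      T.fr_c a _
    exact ⟨e ▸ conj (h (bar a)).1, fun k => e ▸ conj ((h (bar a)).2 k)⟩

theorem up_low (a : Fin 6) (x : Bool × Gn) (hx : T.gen.lev x ≤ 1) : Up1 T.gen 0 (fr T.G a) x := by
  obtain ⟨s, x⟩ := x
  refine T.up_conj (fun a => ?_) s a
  cases x with
  | p2 => exact ⟨T.m_frP2 a, False.elim⟩
  | pi =>
    refine ⟨?_, False.elim⟩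
    change M T.gen 1 1 0 0 (fr T.G a T.Pi)
    rw [fr_Pi]
    exact (((m01 (n := 0) T.mPi).mul (m01 (n := 0) T.mPi)).mul
      ((M.num (n := 0) 3).mul (T.m_frP2 a))).neg
  | y e => exact ⟨T.mdy a e, False.elim⟩
  | dy b e => exact absurd hx (by simp [gen, Gn.lev])
  | jet i w => exact ⟨a0 (T.mjet i (a :: w)), fun _ => T.mjet i (a :: w)⟩

/-- The elements of level two whose derivatives have level three. -/
def T3 (s : A) : Prop := M T.gen 2 2 0 0 s ∧ ∀ a, M T.gen 3 3 0 0 (fr T.G a s)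

variable {T} {s t p : A}

theorem T3.of1 (h : M T.gen 1 2 0 0 s) : T.T3 s :=
  ⟨h.mono (by omega) le_rfl le_rfl le_rfl,
    fun a => (h.der' (T.up_low a)).mono (by omega) le_rfl le_rfl le_rfl⟩

theorem T3.add (h : T.T3 s) (h' : T.T3 t) : T.T3 (s + t) :=
  ⟨h.1.add h'.1, fun a => by rw [D_add]; exact (h.2 a).add (h'.2 a)⟩

theorem T3.sub (h : T.T3 s) (h' : T.T3 t) : T.T3 (s - t) :=
  ⟨h.1.sub h'.1, fun a => by rw [D_sub]; exact (h.2 a).sub (h'.2 a)⟩

theorem T3.mul (h0 : M T.gen 0 0 0 0 p) (h : T.T3 s) : T.T3 (p * s) :=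
  ⟨h0.mul' h.1 (by omega) le_rfl le_rfl le_rfl le_rfl le_rfl, fun a => by
    rw [D_mul]
    exact (h0.mul' (h.2 a) (by omega) le_rfl le_rfl le_rfl le_rfl le_rfl).add
      (h.1.mul' (h0.der' fun x hx => T.up_low a x (by omega)) (by omega) (by omega) le_rfl le_rfl
        le_rfl le_rfl)⟩

theorem T3.jet (b i : Fin 6) : T.T3 (fr T.G b (T.sb i)) := by
  have : lv i ≤ 1 := by unfold lv; split_ifs <;> omega
  exact ⟨(T.mjet i [b]).mono (by simpa) (by simpa) (by omega) le_rfl,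
    fun a => (T.mjet i [a, b]).mono (by simpa) (by simpa) (by omega) le_rfl⟩

variable (T)

theorem vert (b e : Fin 6) (hb : 4 ≤ b.val) : M T.gen 1 1 0 0 (fr T.G b (T.y e)) := by
  have h := T.is
  obtain ⟨a1, a2, a3, a4, -⟩ := T.atoms
  fin_cases b <;> first | exact absurd hb (by decide) | skip
  all_goals fin_cases e <;> simp only [fr, y, Fin.reduceFinMk, Matrix.cons_val, h.H_rh, h.H_rh',
    h.H_ta, h.H_ta', h.Hb_rh, h.Hb_rh', h.Hb_ta, h.Hb_ta', D_zero] <;>
    first | assumption | exact M.neg (by assumption) | exact M.zero _ _ _ _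

theorem det (b e : Fin 6) (hb : 4 ≤ b.val ∨ 4 ≤ e.val ∨ b.val % 2 = e.val % 2) :
    T.T3 (fr T.G b (T.y e)) := by
  have h := T.is
  by_cases h4 : 4 ≤ b.val
  · exact .of1 ((T.vert b e h4).mono le_rfl (by omega) le_rfl le_rfl)
  obtain ⟨a1, a2, a3, a4, a5, a6, a7, a8, a9⟩ := T.atoms
  have j := fun b i => T3.jet (T := T) b i
  have j1 := j 3 2
  have j2 := j 3 3
  have j3 := j 1 2
  have j4 := j 1 3
  have j5 := j 2 4
  have j6 := j 2 5
  have j7 := j 0 4
  have j8 := j 0 5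
  simp only [fr, sb, Matrix.cons_val] at j1 j2 j3 j4 j5 j6 j7 j8
  fin_cases b <;> fin_cases e <;>
    first | exact absurd hb (by decide) | exact absurd (by decide) h4 | skip
  all_goals simp only [fr, y, Fin.reduceFinMk, Matrix.cons_val, h.r1, h.r3, h.r4, h.r5, h.r1',
    h.r3', h.r4', h.r5', D_zero, T.h1, T.h3, sq, add_zero, sub_zero]
  all_goals repeat' first
    | assumption | apply T3.add | apply T3.sub | apply T3.of1
  all_goals repeat' first
    | exact M.zero _ _ _ _ | assumption | exact conj (by assumption)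
    | apply M.add | apply M.sub | apply m11

theorem sym (a b : Fin 6) : T.T3 (fr T.G a (T.y b) - fr T.G b (T.y a)) := by
  have e : fr T.G a (T.y b) - fr T.G b (T.y a) = T.Pi * (∑ e, gam T.G a b e * fr T.G e T.G.P2 -
      3 * (T.y b * fr T.G a T.G.P2) + 3 * (T.y a * fr T.G b T.G.P2) -
      (T.u b * fr T.G a (T.v b) + T.v b * fr T.G a (T.u b)) +
      (T.u a * fr T.G b (T.v a) + T.v a * fr T.G b (T.u a))) := by
    have := T.comm a b T.G.P2
    rw [T.fr_P2 b, T.fr_P2 a] at this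
    simp only [D_add, D_mul, D_num] at this
    linear_combination T.Pi * this - (fr T.G a (T.y b) - fr T.G b (T.y a)) * T.inv
  have k1 : ∀ a b, T.T3 (3 * (T.y b * fr T.G a T.G.P2)) := fun a b =>
    .mul (M.num 3) (.of1 (m11 (T.my b) (T.m_frP2 a)))
  have z : ∀ a, T.T3 (fr T.G a 0) := fun a => by
    rw [D_zero]
    exact .of1 (M.zero _ _ _ _)
  have k2 : ∀ a b, T.T3 (T.u b * fr T.G a (T.v b) + T.v b * fr T.G a (T.u b)) := fun a b => by
    refine (T3.of1 (m11 (a0 (T.mu b))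
      (a0 ((T.mv b).der' fun x hx => T.up_low a x (by omega))))).add (.mul (a0 (T.mv b)) ?_)
    fin_cases b
    exacts [.jet a 5, .jet a 3, .jet a 4, .jet a 2, z a, z a]
  rw [e]
  refine .mul T.mPi (((((T3.of1 (M.sum _ fun e _ => ?_)).sub (k1 a b)).add (k1 b a)).sub
    (k2 a b)).add (k2 b a))
  by_cases h : e.val < 4
  · exact m11 (T.mga1 a b e h) (T.m_frP2 e)
  · have : fr T.G e T.G.P2 = 0 := by
      rw [fr_P2]
      fin_cases e <;> first | exact absurd (by decide) h | simp [y, u]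
    rw [this, mul_zero]
    exact M.zero _ _ _ _

theorem swap (a b e : Fin 6) (h : T.T3 (fr T.G a (T.y e))) :
    M T.gen 3 3 0 0 (fr T.G a (fr T.G b (T.y e))) := by
  rw [comm]
  refine (h.2 b).add (M.sum _ fun i _ => ?_)
  by_cases hi : i.val < 4
  · exact (T.mga1 a b i hi).mul' (T.mdy i e) (by omega) (by omega) le_rfl le_rfl le_rfl le_rfl
  · exact (T.mga a b i).mul' (T.vert i e (by omega)) (by omega) (by omega) le_rfl le_rfl le_rfl
      le_rfl

theorem lev3 (a b e : Fin 6) : M T.gen 3 3 0 0 (fr T.G a (fr T.G b (T.y e))) := by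
  by_cases h1 : 4 ≤ b.val ∨ 4 ≤ e.val ∨ b.val % 2 = e.val % 2
  · exact (T.det b e h1).2 a
  by_cases h2 : 4 ≤ a.val ∨ 4 ≤ e.val ∨ a.val % 2 = e.val % 2
  · exact T.swap a b e (T.det a e h2)
  rw [← add_sub_cancel (fr T.G e (T.y b)) (fr T.G b (T.y e)), D_add]
  exact (T.swap a e b (T.det a b (by omega))).add ((T.sym b e).2 a)

/-- The finite type property. -/
theorem up (a : Fin 6) : Up T.gen 0 (fr T.G a) := fun x => by
  by_cases hx : T.gen.lev x ≤ 1
  · exact T.up_low a x hx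
  obtain ⟨s, x⟩ := x
  refine T.up_conj (fun a => ?_) s a
  cases x with
  | dy b e => exact ⟨T.lev3 a b e, False.elim⟩
  | jet i w => exact ⟨a0 (T.mjet i (a :: w)), fun _ => T.mjet i (a :: w)⟩
  | _ => exact absurd (by simp [gen, Gn.lev]) hx

end Tv

end Vale.Agent.P354XF
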