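import Vale.Agent.P354XF.FamG

/-!
Lower order terms, normal ordering, and the equations of the transversal derivatives.
-/

namespace Vale.Agent.P354XF

open P354XG (GHP D_mul D_num D_add D_sub D_neg D_one D_zero)

section
variable {G R : Type*} [CommRing R] [Algebra ℂ R]

/-- Linear terms of level j and quadratic terms of level j + 1. -/
inductive Lo (g : Gen G R) (j n l : ℕ) : R → Prop
  | two {P : R} : M g (j + 1) n 2 l P → Lo g j n l P
  | mix {n1 n2 : ℕ} {P P' : R} : M g (j + 1) n1 0 l P → M g j n2 1 l P' → n1 + n2 ≤ n →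
      Lo g j n l (P * P')
  | add {P P' : R} : Lo g j n l P → Lo g j n l P' → Lo g j n l (P + P')

variable {g : Gen G R} {j n l j' n' l' : ℕ} {P P' : R}

theorem Lo.of (h : M g j n 1 l P) : Lo g j n l P := by
  simpa using Lo.mix (M.one (n := 0)) h (by omega)

theorem Lo.toM (h : Lo g j n l P) : M g (j + 1) n 1 l P := by
  induction h with
  | two h => exact h.mono le_rfl le_rfl (by omega) le_rfl
  | mix h1 h2 e => exact h1.mul' h2 le_rfl (by omega) e (by omega) le_rfl le_rfl
  | add _ _ h1 h2 => exact h1.add h2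

theorem Lo.mono (h : Lo g j n l P) (e1 : j ≤ j') (e2 : n ≤ n') (e3 : l ≤ l') : Lo g j' n' l' P := by
  induction h with
  | two h => exact .two (h.mono (by omega) e2 le_rfl e3)
  | mix h1 h2 e => exact .mix (h1.mono (by omega) le_rfl le_rfl e3) (h2.mono e1 le_rfl le_rfl e3) (by omega)
  | add _ _ h1 h2 => exact h1.add h2

theorem Lo.mul (h0 : M g (j + 1) n' 0 l P') (h : Lo g j n l P) : Lo g j (n' + n) l (P' * P) := by
  induction h with
  | two h => exact .two (h0.mul h)
  | mix h1 h2 e =>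
    rw [← mul_assoc]
    exact .mix (h0.mul h1) h2 (by omega)
  | add _ _ h1 h2 => simpa only [mul_add] using h1.add h2

theorem Lo.neg (h : Lo g j n l P) : Lo g j n l (-P) := by
  simpa using h.mul (M.c (n := 0) (-1))

theorem Lo.sub (h : Lo g j n l P) (h' : Lo g j n l P') : Lo g j n l (P - P') := by
  simpa [sub_eq_add_neg] using h.add h'.neg

theorem Lo.sum {ι : Type} (s : Finset ι) {f : ι → R} (h : ∀ i ∈ s, Lo g j n l (f i)) :
    Lo g j n l (∑ i ∈ s, f i) :=
  Finset.sum_induction _ _ (fun _ _ => Lo.add) (.two (M.zero _ _ _ _)) h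

theorem Lo.der {s e : ℕ} {d : Der R} (hd : ∀ x, g.cl x ≤ l → UpS g s e d x) (h : Lo g j n l P) :
    Lo g (j + s) (n + s) (l + e) (d P) := by
  induction h with
  | two h => exact .two ((h.derS hd).mono (by omega) le_rfl le_rfl le_rfl)
  | mix h1 h2 e =>
    rename_i P P'
    rw [Derivation.leibniz, smul_eq_mul, smul_eq_mul, mul_comm P' (d P)]
    exact (Lo.mix (h1.mono (by omega) le_rfl le_rfl (by omega)) (h2.derS hd) (by omega)).add
      (.mix ((h1.derS hd).mono (by omega) le_rfl le_rfl le_rfl)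
        (h2.mono (by omega) le_rfl le_rfl (by omega)) (by omega))
  | add _ _ h1 h2 => simpa using h1.add h2

theorem Lo.bd (h : Lo g j n l P) (K : ℝ) : ∃ C, 0 ≤ C ∧ ∀ L N mu al φ, Sz g L N K mu al φ →
    l ≤ L → n ≤ N → ‖φ P‖ ≤ C * (al j + mu * al (j + 1)) := by
  induction h with
  | two h =>
    obtain ⟨C, p, h⟩ := h.bd K
    refine ⟨C, p, fun L N mu al φ s hl hn =>
      (h L N mu al φ s hl hn).trans (mul_le_mul_of_nonneg_left ?_ p)⟩
    have := s.mono (min_le_left (j + 1) n)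
    have m0 : 0 ≤ mu := (s.nn _).trans s.half
    have := s.nn j
    simp only [be, OfNat.ofNat_ne_zero, if_false, Nat.add_one_sub_one, pow_one]
    nlinarith
  | @mix n1 n2 P P' h1 h2 e =>
    obtain ⟨C1, p1, h1⟩ := h1.bd K
    obtain ⟨C2, p2, h2⟩ := h2.bd K
    refine ⟨C1 * C2, by positivity, fun L N mu al φ s hl hn => ?_⟩
    have u1 := h1 L N mu al φ s hl (by omega)
    have u2 := h2 L N mu al φ s hl (by omega)
    have m0 : 0 ≤ mu := (s.nn _).trans s.half
    have a1 := s.nn (min (j + 1) n1)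
    have a2 := s.nn (min j n2)
    have b1 := s.mono (min_le_left (j + 1) n1)
    have b2 := s.mono (min_le_left j n2)
    have b3 := s.mono (Nat.le_succ j)
    simp only [be, if_true, one_ne_zero, if_false, Nat.sub_self, pow_zero, one_mul] at u1 u2
    rw [map_mul, norm_mul]
    refine (mul_le_mul u1 u2 (norm_nonneg _) (by positivity)).trans ?_
    rw [mul_mul_mul_comm]
    refine mul_le_mul_of_nonneg_left ?_ (by positivity)
    rcases le_total n1 n2 with h | h
    · have := (s.mono (show min (j + 1) n1 ≤ N / 2 by omega)).trans s.half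
      nlinarith
    · have := (s.mono (show min j n2 ≤ N / 2 by omega)).trans s.half
      nlinarith
  | add _ _ h1 h2 =>
    obtain ⟨C1, p1, h1⟩ := h1
    obtain ⟨C2, p2, h2⟩ := h2
    refine ⟨C1 + C2, by positivity, fun L N mu al φ s hl hn => ?_⟩
    rw [map_add, add_mul]
    exact norm_add_le_of_le (h1 L N mu al φ s hl hn) (h2 L N mu al φ s hl hn)

end

variable {A : Type*} [CommRing A] [Algebra ℂ A]

namespace Tv

variable (T : Tv A)

theorem mga0 (v b e : Fin 6) (hv : 4 ≤ v.val) : M T.gen 0 0 0 0 (gam T.G v b e) := by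
  fin_cases v <;> first | exact absurd hv (by decide) | skip
  all_goals fin_cases b <;> fin_cases e <;>
    simp only [gam, g0, Fin.reduceFinMk, Matrix.cons_val, Pi.zero_apply, sub_zero, zero_sub,
      neg_neg] <;> first | exact M.zero _ _ _ _ | exact M.one | exact M.one.neg

variable {T} {j n a : ℕ} {f : A}

theorem mfr (b : Fin 6) (h : M T.gen j n a 0 f) : M T.gen (j + 1) (n + 1) a 0 (fr T.G b f) :=
  h.der (T.up b)

theorem mwd (w : List (Fin 6)) (h : M T.gen j n a 0 f) :
    M T.gen (j + w.length) (n + w.length) a 0 (wd (fr T.G) w f) := by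
  induction w with
  | nil => exact h
  | cons b w ih => exact mfr b ih

theorem vert_step {v : Fin 6} (hv : 4 ≤ v.val) (b : Fin 6) (h : M T.gen j n a 0 f)
    (h' : M T.gen j n a 0 (fr T.G v f)) : M T.gen (j + 1) (n + 1) a 0 (fr T.G v (fr T.G b f)) := by
  rw [comm]
  exact (mfr b h').add (M.sum _ fun e _ => (T.mga0 v b e hv).mul' (mfr e h) (by omega) le_rfl
    (by omega) (by omega) le_rfl le_rfl)

variable (T)

/-- The vertical fields do not raise the level. -/
theorem up0 (v : Fin 6) (hv : 4 ≤ v.val) (x : Bool × Gn) : UpS T.gen 0 0 (fr T.G v) x := by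
  have k : ∀ v : Fin 6, 4 ≤ v.val → ∀ x, UpS T.gen 0 0 (fr T.G v) (false, x) := fun v hv x => by
    have z : fr T.G v T.G.P2 = 0 := by
      rw [fr_P2]
      fin_cases v <;> first | exact absurd hv (by decide) | simp [y, u]
    cases x with
    | p2 => exact ⟨z.symm ▸ M.zero _ _ _ _, False.elim⟩
    | pi =>
      refine ⟨?_, False.elim⟩
      change M T.gen 0 0 0 0 (fr T.G v T.Pi)
      rw [fr_Pi, z]
      simpa using M.zero _ _ _ _
    | y e => exact ⟨T.vert v e hv, False.elim⟩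
    | dy b e => exact ⟨vert_step hv b (T.my e) (T.vert v e hv), False.elim⟩
    | jet i w =>
      have : M T.gen (lv i + w.length) (lv i + w.length) 1 0
          (fr T.G v (wd (fr T.G) w (T.sb i))) := by
        induction w with
        | nil =>
          have h := T.is
          have m := T.mjet i []
          have m3 := (M.num (n := 0) 3).mul m
          have m4 := (M.num (n := 0) 4).mul m
          fin_cases v <;> first | exact absurd hv (by decide) | skip
          all_goals fin_cases i <;> simp only [fr, sb, wd, Fin.reduceFinMk, Matrix.cons_val, h.H_P0,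
            h.H_P4, h.H_ka, h.H_si, h.H_ka', h.H_si', h.Hb_P0, h.Hb_P4, h.Hb_ka, h.Hb_si, h.Hb_ka',
            h.Hb_si', zero_add] at m m3 m4 ⊢ <;>
            first | assumption | exact M.neg (by assumption) | exact M.zero _ _ _ _
        | cons b w ih => exact vert_step hv b (T.mjet i w) ih
      exact ⟨a0 this, fun _ => this⟩
  obtain ⟨_ | _, x⟩ := x
  · exact k v hv x
  · have e : fr T.G v (T.gen.x (true, x)) = T.G.c (fr T.G (bar v) (T.gen.x (false, x))) :=
      T.fr_c v _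
    have hb : 4 ≤ (bar v).val := by revert hv; fin_cases v <;> decide
    exact ⟨e ▸ conj (k _ hb x).1, fun c => e ▸ conj ((k _ hb x).2 c)⟩

variable {T}

theorem mvert {v : Fin 6} (hv : 4 ≤ v.val) (h : M T.gen j n a 0 f) :
    M T.gen j n a 0 (fr T.G v f) := h.derS fun x _ => T.up0 v hv x

theorem lfr (b : Fin 6) (h : Lo T.gen j n 0 f) : Lo T.gen (j + 1) (n + 1) 0 (fr T.G b f) :=
  h.der (e := 0) fun x _ => T.up b x

theorem crude (b c : Fin 6) (h : M T.gen j n a 0 f) :
    M T.gen (j + 1) (n + 2) a 0 (fr T.G b (fr T.G c f) - fr T.G c (fr T.G b f)) := by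
  rw [comm, add_sub_cancel_left]
  refine M.sum _ fun e _ => ?_
  by_cases he : e.val < 4
  · exact (T.mga1 b c e he).mul' (mfr e h) (by omega) le_rfl (by omega) (by omega) le_rfl le_rfl
  · exact (T.mga b c e).mul' (mvert (by omega) h) (by omega) (by omega) (by omega) (by omega) le_rfl
      le_rfl

/-- Normal ordering. -/
theorem perm {w w' : List (Fin 6)} (p : w.Perm w') (h : M T.gen j n a 0 f) :
    M T.gen (j + (w.length - 1)) (n + w.length) a 0 (wd (fr T.G) w f - wd (fr T.G) w' f) := by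
  induction p with
  | nil => simpa using M.zero _ _ _ _
  | @cons b w w' p ih =>
    rcases w with _ | ⟨c, w⟩
    · rw [← p.nil_eq, sub_self]
      exact M.zero _ _ _ _
    · exact D_sub (fr T.G b) _ _ ▸ mfr b ih
  | swap b c l => exact crude c b (mwd l h)
  | trans p _ h1 h2 =>
    rw [← p.length_eq] at h2
    simpa using h1.add h2

variable (T)

/-- The wave operator with first order terms. -/
def wv (al be ga de f : A) : A :=
  T.G.th (T.G.tp f) - T.G.et (T.G.ep f) - al * T.G.tp f - be * T.G.th f - ga * T.G.et f -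
    de * T.G.ep f

variable {T}

theorem red (b c : Fin 6) (h : M T.gen j n 1 0 f) : Lo T.gen j (n + 2) 0
    (gam T.G b c 4 * T.G.H f + gam T.G b c 5 * T.G.Hb f) :=
  (Lo.mix ((T.mga b c 4).mono (by omega) le_rfl le_rfl le_rfl) (mvert (v := 4) le_rfl h)
    (by omega)).add (.mix ((T.mga b c 5).mono (by omega) le_rfl le_rfl le_rfl)
      (mvert (v := 5) (by decide) h) (by omega))

theorem sm2 {s : A} (hs : M T.gen 1 1 1 0 s) (b : Fin 6) (h : M T.gen j n 1 0 f) :
    Lo T.gen j (n + 2) 0 (s * fr T.G b f) :=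
  .two (hs.mul' (mfr b h) (by omega) le_rfl (by omega) le_rfl le_rfl le_rfl)

theorem red01 (h : M T.gen j n 1 0 f) : Lo T.gen j (n + 2) 0 (T.G.th (T.G.tp f) - T.G.tp (T.G.th f) -
    (T.G.c T.G.ta - T.G.ta') * T.G.et f - (T.G.ta - T.G.c T.G.ta') * T.G.ep f) := by
  refine cast (congrArg _ ?_) (red 0 1 h)
  simp only [gam, g0, Matrix.cons_val, Pi.zero_apply, T.is.th_tp]
  ring

theorem red12 (h : M T.gen j n 1 0 f) : Lo T.gen j (n + 2) 0
    (T.G.tp (T.G.et f) - T.G.et (T.G.tp f) - T.G.rh' * T.G.et f + T.G.ta * T.G.tp f) := by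
  refine cast (congrArg _ ?_) (((red 1 2 h).add (sm2 (conj T.msi') 3 h)).sub (sm2 (conj T.mka') 0 h))
  simp only [gam, g0, fr, Matrix.cons_val, Pi.zero_apply, T.is.tp_et, T.h3, map_zero]
  ring

theorem red13 (h : M T.gen j n 1 0 f) : Lo T.gen j (n + 2) 0 (T.G.tp (T.G.ep f) - T.G.ep (T.G.tp f) -
    T.G.c T.G.rh' * T.G.ep f + T.G.c T.G.ta * T.G.tp f) := by
  refine cast (congrArg _ ?_) (((red 1 3 h).add (sm2 T.msi' 2 h)).sub (sm2 T.mka' 0 h))
  simp only [gam, g0, fr, Matrix.cons_val, Pi.zero_apply, T.is.tp_ep, T.h3]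
  ring

theorem red23 (h : M T.gen j n 1 0 f) : Lo T.gen j (n + 2) 0 (T.G.et (T.G.ep f) - T.G.ep (T.G.et f) -
    (T.G.c T.G.rh' - T.G.rh') * T.G.th f - (T.G.rh - T.G.c T.G.rh) * T.G.tp f) := by
  refine cast (congrArg _ ?_) (red 2 3 h)
  simp only [gam, g0, Matrix.cons_val, Pi.zero_apply, T.is.et_ep]
  ring

/-- Commutation with thorn prime. -/
theorem wv_tp {al be ga de : A} (h1 : M T.gen 1 1 0 0 al) (h2 : M T.gen 1 1 0 0 be)
    (h3 : M T.gen 1 1 0 0 ga) (h4 : M T.gen 1 1 0 0 de) (h : M T.gen j n 1 0 f)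
    (hw : Lo T.gen j (n + 2) 0 (T.wv al be ga de f)) : Lo T.gen (j + 1) (n + 3) 0
      (T.wv al (be + (T.G.rh' + T.G.c T.G.rh')) (ga - T.G.ta') (de - T.G.c T.G.ta') (T.G.tp f)) := by
  have k1 : ∀ {p} (c b : Fin 6), M T.gen 1 1 0 0 p →
      Lo T.gen (j + 1) (n + 3) 0 (fr T.G c p * fr T.G b f) := fun c b hp =>
    .mix ((mfr c hp).mono (by omega) le_rfl le_rfl le_rfl) (mfr b h) (by omega)
  have k2 : ∀ {p} (b : Fin 6), M T.gen 1 1 0 0 p → Lo T.gen (j + 1) (n + 3) 0
      (p * (fr T.G 1 (fr T.G b f) - fr T.G b (fr T.G 1 f))) := fun b hp =>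
    .mix (hp.mono (by omega) le_rfl le_rfl le_rfl) (crude 1 b h) (by omega)
  have r : M T.gen 1 1 0 0 (T.G.rh' + T.G.c T.G.rh') := (T.my 1).add (conj (T.my 1))
  have k3 : ∀ {p} (b : Fin 6), M T.gen 1 1 0 0 p → Lo T.gen (j + 1) (n + 3) 0
      ((T.G.rh' + T.G.c T.G.rh') * p * fr T.G b f) := fun b hp =>
    .mix ((r.mul hp).mono (by omega) le_rfl le_rfl le_rfl) (mfr b h) (by omega)
  have := (((((((((((((((((((red01 (mfr 1 h)).add (red12 (mfr 3 h))).add (lfr 2 (red13 h))).add
    (lfr 1 hw)).add (k1 1 1 h1)).add (k1 1 0 h2)).add (k1 1 2 h3)).add (k1 1 3 h4)).add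
    (k2 0 h2)).add (k2 2 h3)).add (k2 3 h4)).sub (k2 3 (T.my 2))).sub
    ((hw.mul (r.mono (by omega) le_rfl le_rfl le_rfl)).mono (by omega) (by omega) le_rfl)).sub
    (k3 1 h1)).sub (k3 0 h2)).sub (k3 2 h3)).sub (k3 3 h4)).add (k1 2 3 (conj (T.my 1)))).sub
    (k1 2 1 (conj (T.my 2))))
  refine cast (congrArg _ ?_) this
  simp only [wv, fr, y, Matrix.cons_val, D_sub, D_add, D_mul]
  ring

variable (T)

/-- The first order coefficients after j commutations. -/
def cA (s : Bool) : A := cond s (T.G.c T.G.rh) (4 * T.G.rh + T.G.c T.G.rh)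
def cB (s : Bool) (j : ℕ) : A := cond s (5 * T.G.rh') T.G.rh' + j * (T.G.rh' + T.G.c T.G.rh')
def cG (s : Bool) (j : ℕ) : A := -cond s (5 * T.G.ta') T.G.ta' - j * T.G.ta'
def cD (s : Bool) (j : ℕ) : A :=
  -cond s (T.G.c T.G.ta') (4 * T.G.ta + T.G.c T.G.ta') - j * T.G.c T.G.ta'

theorem m_cA (s : Bool) (j : ℕ) : M T.gen 1 1 0 0 (T.cA s) ∧ M T.gen 1 1 0 0 (T.cB s j) ∧
    M T.gen 1 1 0 0 (T.cG s j) ∧ M T.gen 1 1 0 0 (T.cD s j) := by
  have c : M T.gen 1 0 0 0 (j : A) := map_natCast (algebraMap ℂ A) j ▸ M.c (j : ℂ)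
  have c4 : M T.gen 1 0 0 0 (4 : A) := M.num 4
  have c5 : M T.gen 1 0 0 0 (5 : A) := M.num 5
  have r := c.mul ((T.my 1).add (conj (T.my 1)))
  cases s
  · exact ⟨(c4.mul (T.my 0)).add (conj (T.my 0)), (T.my 1).add r, (T.my 3).neg.sub (c.mul (T.my 3)),
      ((c4.mul (T.my 2)).add (conj (T.my 3))).neg.sub (c.mul (conj (T.my 3)))⟩
  · exact ⟨conj (T.my 0), (c5.mul (T.my 1)).add r, (c5.mul (T.my 3)).neg.sub (c.mul (T.my 3)),
      (conj (T.my 3)).neg.sub (c.mul (conj (T.my 3)))⟩

/-- The quantities P0 and P4. -/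
def pp (s : Bool) : A := cond s T.G.P4 T.G.P0

theorem mpp (s : Bool) : M T.gen 0 0 1 0 (T.pp s) := by
  cases s
  exacts [T.mP0, T.mP4]

/-- The equation of the j-th thorn prime derivative of P0 and of P4. -/
theorem wv_pp (s : Bool) (j : ℕ) : Lo T.gen j (j + 2) 0 (T.wv (T.cA s) (T.cB s j) (T.cG s j)
    (T.cD s j) (wd (fr T.G) (List.replicate j 1) (T.pp s))) := by
  induction j with
  | zero =>
    cases s
    · refine cast (congrArg _ ?_) ((Lo.two (T.m_cub T.mP0)).sub (.mix T.m_c0 T.mP0 le_rfl))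
      rw [← tk0_P0]
      simp only [wv, tk0, cA, cB, cG, cD, pp, cond, wd, List.replicate, Nat.cast_zero]
      ring
    · refine cast (congrArg _ ?_) ((((Lo.two (T.m_cub T.mP4)).sub (.mix T.m_c0 T.mP4 le_rfl)).add
        (red01 T.mP4)).sub (red23 T.mP4))
      rw [← tk4_P4]
      simp only [wv, tk4, cA, cB, cG, cD, pp, cond, wd, List.replicate, Nat.cast_zero]
      ring
  | succ j ih =>
    obtain ⟨h1, h2, h3, h4⟩ := T.m_cA s j
    have m := mwd (List.replicate j 1) (T.mpp s)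
    rw [List.length_replicate, zero_add] at m
    refine cast (congrArg _ ?_) (wv_tp h1 h2 h3 h4 m ih)
    simp only [wv, cB, cG, cD, wd, List.replicate, fr, Matrix.cons_val, Nat.cast_succ]
    ring

end Tv

end Vale.Agent.P354XF
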