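import Vale.Agent.P354XF.Low

/-!
Lower order terms for the family of frozen operators.
-/

namespace Vale.Agent.P354XF

open TensorProduct Op

namespace Duo

variable {G A : Type*} [CommRing A] [Algebra ℂ A] {g : Gen G (A × A)} {B ι : Type} [Fintype B]
  (U : Duo g B ι)

/-- Linear terms of level j and errors of level j + 1. -/
def La (j n l : ℕ) (f : A) : Prop :=
  ∃ P f', Lo U.gen j n l P ∧ U.Qa (j + 1) n l f' ∧ f = e1 A P + f'

theorem F_addf (e : Op A B) (f f' : A) : U.F e (f + f') = U.F e f + U.F e f' := by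
  rw [F, F, F, Fr, Fr, Fr, ← map_add, ← ev_add, ← add_tmul]
  simp

theorem F_subf (e : Op A B) (f f' : A) : U.F e (f - f') = U.F e f - U.F e f' := by
  rw [F, F, F, Fr, Fr, Fr, ← map_sub, ← ev_sub, ← sub_tmul]
  simp

variable {U} {j n a l j' n' l' k : ℕ} {f f' x : A} {e : Op A B}

theorem La.q (h : U.Qa (j + 1) n l f) : U.La j n l f := ⟨0, f, .two (M.zero _ _ _ _), h, by simp⟩

theorem La.m (h : U.Ma j n 1 l f) : U.La j n l f := by
  obtain ⟨P, h, rfl⟩ := h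
  exact ⟨P, 0, .of h, .zero, by simp⟩

theorem La.mono (h : U.La j n l f) (e1 : j ≤ j') (e2 : n ≤ n') (e3 : l ≤ l') : U.La j' n' l' f := by
  obtain ⟨P, f', h, h', rfl⟩ := h
  exact ⟨P, f', h.mono e1 e2 e3, h'.mono (by omega) e2 e3, rfl⟩

theorem La.add (h : U.La j n l f) (h' : U.La j n l f') : U.La j n l (f + f') := by
  obtain ⟨P, f, h, k, rfl⟩ := h
  obtain ⟨P', f', h', k', rfl⟩ := h'
  exact ⟨_, _, h.add h', k.add k', by rw [map_add]; ring⟩

theorem La.sub (h : U.La j n l f) (h' : U.La j n l f') : U.La j n l (f - f') := by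
  obtain ⟨P, f, h, k, rfl⟩ := h
  obtain ⟨P', f', h', k', rfl⟩ := h'
  exact ⟨_, _, h.sub h', k.sub k', by rw [map_sub]; ring⟩

theorem La.sum {κ : Type} (s : Finset κ) {f : κ → A} (h : ∀ i ∈ s, U.La j n l (f i)) :
    U.La j n l (∑ i ∈ s, f i) := Finset.sum_induction _ _ (fun _ _ => La.add) (.q .zero) h

theorem La.mul (h0 : U.Ma (j + 1) n' 0 l f') (h : U.La j n l f) : U.La j (n' + n) l (f' * f) := by
  obtain ⟨P, f, h, k, rfl⟩ := h
  have := k.mul h0
  obtain ⟨P', h0, rfl⟩ := h0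
  exact ⟨_, _, h.mul h0, this, by rw [map_mul]; ring⟩

theorem La.smul (hx : x ∈ U.S) (h : U.La j n l f) : U.La j n l (x * f) :=
  (h.mul ((Ma.ref hx).mono (by omega) le_rfl le_rfl (by omega))).mono le_rfl (by omega) le_rfl

theorem La.Y (b : B) (h : U.La j n l f) : U.La (j + 1) (n + 1) (l + 1) (U.Y b f) := by
  obtain ⟨P, f, h, k, rfl⟩ := h
  exact ⟨_, _, h.der fun x _ => U.up_DY b x, k.Y b, by rw [map_add, e1_DY]⟩

theorem La.Z (b : B) (h : U.La j n l f) : U.La (j + 1) (n + 1) (l + 1) (U.Z b f) := by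
  obtain ⟨P, f, h, k, rfl⟩ := h
  exact ⟨_, _, h.der fun x _ => U.up_DZ b x, k.Z b, by rw [map_add, e1_DZ]⟩

theorem La.bd (h : U.La j n l f) (K0 : ℝ) : ∃ C, 0 ≤ C ∧ ∀ L N mu ds al φ,
    U.Pt L N K0 mu ds al φ → l ≤ L → n ≤ N → ‖φ f‖ ≤ C * (al j + (ds + mu) * al (j + 1)) := by
  obtain ⟨P, f, h, k, rfl⟩ := h
  obtain ⟨C, p, h⟩ := h.bd K0
  obtain ⟨C', p', k⟩ := k.bd K0
  refine ⟨C + C', by positivity, fun L N mu ds al φ q hl hn => ?_⟩
  have := q.sz.nn j
  have := mul_nonneg q.ds0 (q.sz.nn (j + 1))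
  have := mul_nonneg ((q.sz.nn _).trans q.half) (q.sz.nn (j + 1))
  rw [map_add, add_mul]
  exact norm_add_le_of_le ((h L N mu al _ q.sz hl hn).trans
    (mul_le_mul_of_nonneg_left (by linarith) p))
    ((k L N mu ds al φ q hl hn).trans (mul_le_mul_of_nonneg_left (by linarith) p'))

theorem LoL {p : A × A} (h : Lo g j n l p) : Lo U.gen j n l (p ⊗ₜ 1) := by
  induction h with
  | two h => exact .two (ML h)
  | mix h1 h2 e => simpa using Lo.mix (ML (U := U) h1) (ML h2) e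
  | add _ _ h1 h2 => simpa only [add_tmul] using h1.add h2

theorem La.F (he : Ok U.S e (k + 1)) (h : Lo g j n 0 (f, 0)) :
    U.La (j + k) (n + k) 0 (U.F e f) := by
  have : ∀ e m, Ok U.S e m → ∀ k, m ≤ k + 1 → Lo U.gen (j + k) (n + k) 0 (U.Fr e f) :=
    fun e m h0 => by
    clear he
    induction h0 with
    | one => exact fun k _ => (LoL h).mono (by omega) (by omega) le_rfl
    | zero => exact fun _ _ => .two (M.zero _ _ _ _)
    | smul h _ ih =>
      exact fun k hk => ((ih k hk).mul ((Mi h).mono (by omega) le_rfl le_rfl le_rfl)).mono le_rfl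
        (by omega) le_rfl
    | der b h0 ih =>
      rintro (_ | k) hk
      · rw [Fr, ev, (h0.mono (by omega)).ev_zero, map_zero]
        exact .two (M.zero _ _ _ _)
      · exact (ih k (by omega)).der (U.tw.up b)
    | add _ _ h1 h2 => exact fun k hk => (h1 k hk).add (h2 k hk)
  exact ⟨_, 0, this _ _ he k le_rfl, .zero, (add_zero _).symm⟩

/-- The honest second order operator of the solution. -/
def opZ (U : Duo g B ι) (a b a' b' : B) (cs : B → A) (s0 f : A) : A :=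
  U.Z a (U.Z b f) - U.Z a' (U.Z b' f) + ∑ c, cs c * U.Z c f + s0 * f

variable {a b a' b' : B} {cs ck : B → A} {s0 k0 : A}

theorem wave1 (h1 : ∀ e, M g 1 1 0 0 (cs e, ck e)) (h2 : M g 1 2 0 0 (s0, k0))
    (h3 : ∀ e, ck e ∈ U.S) (h4 : k0 ∈ U.S) (h : M g j n 1 0 (f, 0)) (he : Ok U.S e (k + 1)) :
    U.Qa (j + k + 1) (n + k + 2) 2
      (U.opZ a b a' b' cs s0 (U.F e f) - U.F ((opO a b a' b' ck k0).comp e) f) := by
  have e0 : U.F ((opO a b a' b' ck k0).comp e) f = U.F ((word [a, b]).comp e) f -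
      U.F ((word [a', b']).comp e) f + ∑ c, ck c * U.F ((word [c]).comp e) f + k0 * U.F e f := by
    rw [F, Fr, ev_comp]
    refine (congrArg (e1 A) (ev_opO U.dl (io A).toRingHom _ _ _ _ _ _ _)).trans ?_
    simp [e1_io, F, Fr, word, comp, ev]
  have m0 : U.Ma (j + k + 1) (n + k) 1 2 (U.F e f) :=
    (Ma.F he h).mono (by omega) (by omega) le_rfl (by omega)
  have := ((((Z_F a [b] he h).sub (Z_F a' [b'] he h)).mono (j' := j + k + 1) (n' := n + k + 2)
    (l' := 2) (by simp) (by simp) (by simp)).add (Qa.sum Finset.univ fun c _ =>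
      (((coef ((h1 c).mono (by omega) le_rfl le_rfl le_rfl) (h3 c)
        (((Ma.F he h).Z c).mono (j' := j + k + 1) (l' := 2) (by omega) le_rfl le_rfl
          (by omega))).mono le_rfl (by omega) le_rfl).add (((Z_F c [] he h).smul (h3 c)).mono
            (by simp) (by simp) (by simp))))).add
    ((coef (h2.mono (by omega) le_rfl le_rfl le_rfl) h4 m0).mono le_rfl (by omega) le_rfl)
  rw [e0]
  refine cast (congrArg _ ?_) this
  simp only [opZ, wd, sub_mul, mul_sub, sub_add_sub_cancel, Finset.sum_sub_distrib]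
  ring

theorem wave2 (h1 : ∀ e, M g 1 1 0 0 (cs e, ck e)) (h2 : M g 1 2 0 0 (s0, k0))
    (h3 : ∀ e, ck e ∈ U.S) (h4 : k0 ∈ U.S) (h : M g j n 1 0 (f, 0)) (he : Ok U.S e (k + 1)) :
    U.Qa (j + k + 1) (n + k + 2) 0
      (U.F e (U.opZ a b a' b' cs s0 f) - U.F (e.comp (opO a b a' b' ck k0)) f) := by
  have e0 : (U.opZ a b a' b' cs s0 f, (0 : A)) ⊗ₜ[ℂ] 1 - U.Fr (opO a b a' b' ck k0) f =
      ∑ c, ((cs c, ck c) ⊗ₜ[ℂ] 1 - io A (ck c)) * U.dl c ((f, (0 : A)) ⊗ₜ 1) +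
      ((s0, k0) ⊗ₜ[ℂ] 1 - io A k0) * ((f, (0 : A)) ⊗ₜ 1) := by
    have := ev_opO U.dl (io A).toRingHom a b a' b' ck k0 ((f, (0 : A)) ⊗ₜ 1)
    have e1 : (U.opZ a b a' b' cs s0 f, (0 : A)) =
        (U.Z a (U.Z b f), 0) - (U.Z a' (U.Z b' f), 0) + ∑ c, (cs c, ck c) * (U.Z c f, 0) +
          (s0, k0) * (f, 0) := by ext <;> simp [opZ, Prod.fst_sum, Prod.snd_sum]
    refine (congrArg _ this).trans ?_
    simp only [e1, dl_L, map_zero, add_tmul, sub_tmul, sum_tmul, sub_mul,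
      Algebra.TensorProduct.tmul_mul_tmul, mul_one, Finset.sum_sub_distrib, AlgHom.toRingHom_eq_coe,
      RingHom.coe_coe]
    ring
  have q1 : ∀ c, Qd U.gen (K A) (j + 1) (n + 2) 0
      (((cs c, ck c) ⊗ₜ[ℂ] 1 - io A (ck c)) * U.dl c ((f, (0 : A)) ⊗ₜ 1)) := fun c =>
    .ker (n1 := 1) (n2 := n + 1) (Kp _ _) (((ML (h1 c)).mono (by omega) le_rfl le_rfl le_rfl).sub
      ((Mi (h3 c)).mono (by omega) (by omega) le_rfl le_rfl)) ((ML h).derS (U.tw.up c)) (by omega)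
  have q2 : Qd U.gen (K A) (j + 1) (n + 2) 0
      (((s0, k0) ⊗ₜ[ℂ] 1 - io A k0) * ((f, (0 : A)) ⊗ₜ 1)) := .ker (n1 := 2) (n2 := n) (Kp _ _)
    (((ML h2).mono (by omega) le_rfl le_rfl le_rfl).sub
      ((Mi h4).mono (by omega) (by omega) le_rfl le_rfl))
    ((ML h).mono (by omega) le_rfl le_rfl le_rfl) (by omega)
  have q := (Qd.sum Finset.univ fun c _ => q1 c).add q2
  rw [← e0] at q
  refine ⟨_, (Tw.Q_ev (W := U.tw) he q).mono (by omega) (by omega) le_rfl, ?_⟩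
  rw [ev_sub, map_sub, F, F, Fr, Fr, Fr, ev_comp]
  rfl

/-- Operators which commute on the reference solution commute up to errors. -/
theorem wave3 (hs : Span U.Y) (h1 : ∀ e, M g 1 1 0 0 (cs e, ck e)) (h2 : M g 1 2 0 0 (s0, k0))
    (h3 : ∀ e, ck e ∈ U.S) (h4 : k0 ∈ U.S) (h : M g j n 1 0 (f, 0)) (he : Ok U.S e (k + 1))
    (hc : ∀ f, (opO a b a' b' ck k0).ev U.Y id (e.ev U.Y id f) =
      e.ev U.Y id ((opO a b a' b' ck k0).ev U.Y id f)) :
    U.Qa (j + k + 1) (n + k + 3) 2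
      (U.opZ a b a' b' cs s0 (U.F e f) - U.F e (U.opZ a b a' b' cs s0 f)) := by
  have k1 := transfer' (k := k + 1) (e := (opO a b a' b' ck k0).comp e)
    (e' := e.comp (opO a b a' b' ck k0)) hs (((ok_opO h3 h4).comp he).mono (by omega))
    ((he.comp (ok_opO h3 h4)).mono (by omega)) (fun f => by rw [ev_comp, ev_comp, hc]) h
  have := (((wave1 (a := a) (b := b) (a' := a') (b' := b') h1 h2 h3 h4 h he).mono le_rfl
    (n' := n + k + 3) (by omega) le_rfl).add (k1.mono le_rfl le_rfl (by omega))).sub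
    ((wave2 (a := a) (b := b) (a' := a') (b' := b') h1 h2 h3 h4 h he).mono le_rfl (by omega)
      (by omega))
  refine cast (congrArg _ ?_) this
  ring

end Duo

namespace Cmp

variable {A : Type*} [CommRing A] [Algebra ℂ A] {ι : Type} (C : Cmp A ι)

/-- The coefficients of the commuted operators. -/
def cw (T : Tv A) (s : Bool) (j : ℕ) : Fin 6 → A := ![-T.cB s j, -T.cA s, -T.cG s j, -T.cD s j, 0, 0]

/-- The commuted operators. -/
def wj (T : Tv A) (s : Bool) (j : ℕ) (f : A) : A := T.wv (T.cA s) (T.cB s j) (T.cG s j) (T.cD s j) f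

theorem wj_eq (T : Tv A) (s : Bool) (j : ℕ) (f : A) : wj T s j f = fr T.G 0 (fr T.G 1 f) -
    fr T.G 2 (fr T.G 3 f) + ∑ c, cw T s j c * fr T.G c f + 0 * f := by
  simp only [wj, Tv.wv, cw, fr, Fin.sum_univ_six, Matrix.cons_val]
  ring

theorem pp_prod (s : Bool) : (C.T.prod C.K).pp s = (C.T.pp s, 0) := by
  cases s
  exacts [C.sb_prod 0, C.sb_prod 1]

theorem wd_pp (s : Bool) (w : List (Fin 6)) :
    wd (fr (C.T.prod C.K).G) w ((C.T.prod C.K).pp s) = (wd (fr C.T.G) w (C.T.pp s), 0) := by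
  rw [pp_prod]
  exact (wd_prod _ _ _ _).trans (by rw [wd_zero])

theorem m_pp (s : Bool) (w : List (Fin 6)) :
    M C.gen w.length w.length 1 0 (wd (fr C.T.G) w (C.T.pp s), 0) := by
  simpa [wd_pp, gen] using Tv.mwd w ((C.T.prod C.K).mpp s)

/-- Normal ordering inside the family. -/
theorem perm_F (s : Bool) {w w' : List (Fin 6)} (p : w.Perm w') {e : Op A (Fin 6)} {k : ℕ}
    (he : Ok C.duo.S e (k + 1)) : C.duo.Ma (w.length - 1 + k) (w.length + k) 1 0
      (C.duo.F e (wd (fr C.T.G) w (C.T.pp s)) - C.duo.F e (wd (fr C.T.G) w' (C.T.pp s))) := by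
  have := Tv.perm p ((C.T.prod C.K).mpp s)
  rw [wd_pp, wd_pp, Prod.mk_sub_mk, sub_zero, zero_add, zero_add] at this
  rw [← Duo.F_subf]
  exact Duo.Ma.F he this

/-- The equation of the frozen words W of the thorn prime derivatives of P0 and P4. -/
theorem wave_tp (hs : Span (fr C.K.G)) (s : Bool) (j : ℕ) {W : Op A (Fin 6)} {k : ℕ}
    (he : Ok C.duo.S W (k + 1)) (hc : ∀ f, wj C.K s j (W.ev (fr C.K.G) id f) =
      W.ev (fr C.K.G) id (wj C.K s j f)) :
    C.duo.La (j + k) (j + k + 3) 2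
      (wj C.T s j (C.duo.F W (wd (fr C.T.G) (List.replicate j 1) (C.T.pp s)))) := by
  have m := C.m_pp s (List.replicate j 1)
  rw [List.length_replicate] at m
  obtain ⟨a1, a2, a3, a4⟩ := (C.T.prod C.K).m_cA s j
  have n4 : (4 : A) ∈ C.duo.S := ofNat_mem _ 4
  have n5 : (5 : A) ∈ C.duo.S := ofNat_mem _ 5
  have nj : (j : A) ∈ C.duo.S := natCast_mem _ j
  obtain ⟨⟨_, _⟩, ⟨_, _⟩, ⟨_, _⟩, _, _⟩ : (C.K.G.rh ∈ C.duo.S ∧ C.K.G.c C.K.G.rh ∈ C.duo.S) ∧
    (C.K.G.rh' ∈ C.duo.S ∧ C.K.G.c C.K.G.rh' ∈ C.duo.S) ∧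
    (C.K.G.ta ∈ C.duo.S ∧ C.K.G.c C.K.G.ta ∈ C.duo.S) ∧
    (C.K.G.ta' ∈ C.duo.S ∧ C.K.G.c C.K.G.ta' ∈ C.duo.S) := ⟨C.Sy 0, C.Sy 1, C.Sy 2, C.Sy 3⟩
  have k1 := Duo.wave3 (U := C.duo) (a := 0) (b := 1) (a' := 2) (b' := 3) (cs := cw C.T s j)
    (ck := cw C.K s j) (s0 := 0) (k0 := 0) hs (fun c => by
      fin_cases c <;> cases s
      exacts [a2.neg, a2.neg, a1.neg, a1.neg, a3.neg, a3.neg, a4.neg, a4.neg, M.zero _ _ _ _,
        M.zero _ _ _ _, M.zero _ _ _ _, M.zero _ _ _ _]) (M.zero _ _ _ _) (fun c => by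
      fin_cases c <;> cases s <;>
        simp only [cw, Tv.cA, Tv.cB, Tv.cG, Tv.cD, cond, Fin.reduceFinMk, Matrix.cons_val] <;>
        repeat' first
          | exact zero_mem _ | assumption
          | apply neg_mem | apply add_mem | apply sub_mem | apply mul_mem) (zero_mem _) m he
    (fun f => by
      have e := fun f => (Duo.ev_opO (fr C.K.G) (RingHom.id A) 0 1 2 3 (cw C.K s j) 0 f).trans
        (wj_eq C.K s j f).symm
      exact (e _).trans ((hc f).trans (congrArg _ (e f).symm)))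
  have k2 := (C.T.prod C.K).wv_pp s j
  have e : (C.T.prod C.K).wv ((C.T.prod C.K).cA s) ((C.T.prod C.K).cB s j) ((C.T.prod C.K).cG s j)
      ((C.T.prod C.K).cD s j) (wd (fr (C.T.prod C.K).G) (List.replicate j 1) ((C.T.prod C.K).pp s)) =
      (wj C.T s j (wd (fr C.T.G) (List.replicate j 1) (C.T.pp s)), 0) := by
    rw [wd_pp]
    refine Prod.ext (by cases s <;> rfl) ?_
    simp [Tv.wv, Tv.prod, prG, prD_ap]
  rw [e] at k2
  have := (Duo.La.q k1).add ((Duo.La.F he k2).mono le_rfl (by omega) (by omega))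
  rw [wj_eq] at this
  rw [wj_eq]
  exact cast (congrArg _ (sub_add_cancel _ _)) this

end Cmp

end Vale.Agent.P354XF
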