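import Vale.Agent.P354XF.Ext

/-!
The quadratic class of an ideal, and formal differential operators with their symbols.
-/

namespace Vale.Agent.P354XF

section
variable {G R : Type*} [CommRing R] [Algebra ℂ R] {g : Gen G R}

/-- d raises the level of x by s and its frozen level by e. -/
def UpS (g : Gen G R) (s e : ℕ) (d : Der R) (x : G) : Prop :=
  M g (g.lev x + s) (g.lev x + s) 0 (g.cl x + e) (d (g.x x)) ∧
    (g.sm x → M g (g.lev x + s) (g.lev x + s) 1 (g.cl x + e) (d (g.x x)))

theorem M.derS {s e j n a l : ℕ} {d : Der R} {P : R} (h : M g j n a l P)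
    (hd : ∀ x, g.cl x ≤ l → UpS g s e d x) : M g (j + s) (n + s) a (l + e) (d P) := by
  induction h with
  | zero => simpa using M.zero _ _ _ _
  | const z => simpa using M.zero _ _ _ _
  | gen x => exact (hd x le_rfl).1
  | small x hx => exact (hd x le_rfl).2 hx
  | add _ _ h1 h2 => simpa using (h1 hd).add (h2 hd)
  | mul p1 p2 h1 h2 =>
    rw [Derivation.leibniz, smul_eq_mul, smul_eq_mul]
    exact (p1.mul' (h2 hd) (by omega) le_rfl (by omega) le_rfl (by omega) le_rfl).add
      (p2.mul' (h1 hd) (by omega) le_rfl (by omega) (by omega) (by omega) le_rfl)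
  | mono _ e1 e2 e3 e4 h =>
    exact (h fun x hx => hd x (by omega)).mono (by omega) (by omega) e3 (by omega)

/-- The quadratic class. -/
inductive Qd (g : Gen G R) (K : Ideal R) (j n l : ℕ) : R → Prop
  | two {P : R} : M g j n 2 l P → Qd g K j n l P
  | ker {n1 n2 : ℕ} {P P' : R} : P ∈ K → M g j n1 0 l P → M g j n2 1 l P' →
      n1 + n2 ≤ n → Qd g K j n l (P * P')
  | add {P P' : R} : Qd g K j n l P → Qd g K j n l P' → Qd g K j n l (P + P')

variable {K : Ideal R} {j n a l j' n' l' : ℕ} {P P' : R}

theorem Qd.mono (h : Qd g K j n l P) (e1 : j ≤ j') (e2 : n ≤ n') (e3 : l ≤ l') :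
    Qd g K j' n' l' P := by
  induction h with
  | two h => exact .two (h.mono e1 e2 le_rfl e3)
  | ker h h1 h2 e => exact .ker h (h1.mono e1 le_rfl le_rfl e3) (h2.mono e1 le_rfl le_rfl e3) (by omega)
  | add _ _ h1 h2 => exact h1.add h2

theorem Qd.zero : Qd g K j n l 0 := .two (M.zero _ _ _ _)

theorem Qd.mul (h0 : M g j n' 0 l P') (h : Qd g K j n l P) : Qd g K j (n' + n) l (P' * P) := by
  induction h with
  | two h => exact .two (h0.mul h)
  | ker h h1 h2 e =>
    rw [mul_left_comm]
    exact .ker h h1 (h0.mul h2) (by omega)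
  | add _ _ h1 h2 => simpa only [mul_add] using h1.add h2

theorem Qd.mul0 (h0 : M g 0 0 0 0 P') (h : Qd g K j n l P) : Qd g K j n l (P' * P) :=
  (h.mul (h0.mono (by omega) le_rfl le_rfl (by omega))).mono le_rfl (by omega) le_rfl

theorem Qd.neg (h : Qd g K j n l P) : Qd g K j n l (-P) := by
  simpa using h.mul (M.c (n := 0) (-1))

theorem Qd.sub (h : Qd g K j n l P) (h' : Qd g K j n l P') : Qd g K j n l (P - P') := by
  simpa [sub_eq_add_neg] using h.add h'.neg

theorem Qd.sum {ι : Type} (s : Finset ι) {f : ι → R}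
    (h : ∀ i ∈ s, Qd g K j n l (f i)) : Qd g K j n l (∑ i ∈ s, f i) :=
  Finset.sum_induction _ _ (fun _ _ => Qd.add) Qd.zero h

theorem Qd.der {e : ℕ} {d : Der R} (hd : ∀ x, g.cl x ≤ l → UpS g 1 e d x)
    (hK : ∀ P ∈ K, d P ∈ K) (h : Qd g K j n l P) : Qd g K (j + 1) (n + 1) (l + e) (d P) := by
  induction h with
  | two h => exact .two (h.derS hd)
  | ker h h1 h2 e =>
    rename_i P P'
    rw [Derivation.leibniz, smul_eq_mul, smul_eq_mul, mul_comm P' (d P)]
    exact (Qd.ker h (h1.mono (by omega) le_rfl le_rfl (by omega)) (h2.derS hd) (by omega)).add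
      (.ker (hK _ h) (h1.derS hd) (h2.mono (by omega) le_rfl le_rfl (by omega)) (by omega))
  | add _ _ h1 h2 => simpa using h1.add h2

/-- The pointwise bound for the quadratic class. -/
theorem Qd.bd (h : Qd g K j n l P) (K0 : ℝ) : ∃ C, 0 ≤ C ∧ ∀ L N mu ds al φ ψ,
    Sz g L N K0 mu al φ → Rf g L K0 ds φ ψ → (∀ P ∈ K, ψ P = 0) → l ≤ L → n ≤ N →
      ‖φ P‖ ≤ C * ((ds + mu) * al j) := by
  let F : Fz g Empty Empty := ⟨nofun, nofun, nofun, nofun, K, nofun, nofun, nofun, nofun, nofun,
    nofun, nofun, nofun, nofun, nofun, nofun⟩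
  have : F.Q j n l P := by
    induction h with
    | two h => exact .two h
    | ker h h1 h2 e => exact .ker h h1 h2 e
    | add _ _ h1 h2 => exact h1.add h2
  exact this.bd K0

end

/-- Formal differential operators. -/
inductive Op (A B : Type*) where
  | one : Op A B
  | zero : Op A B
  | smul (a : A) (e : Op A B) : Op A B
  | der (b : B) (e : Op A B) : Op A B
  | add (e e' : Op A B) : Op A B

namespace Op

variable {A B R : Type*} [CommRing A] [Algebra ℂ A] [CommRing R] [Algebra ℂ R]

/-- The evaluation. -/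
def ev (D : B → Der R) (i : A → R) : Op A B → R → R
  | one, P => P
  | zero, _ => 0
  | smul a e, P => i a * ev D i e P
  | der b e, P => D b (ev D i e P)
  | add e e', P => ev D i e P + ev D i e' P

/-- The composition. -/
def comp : Op A B → Op A B → Op A B
  | one, u => u
  | zero, _ => zero
  | smul a e, u => smul a (comp e u)
  | der b e, u => der b (comp e u)
  | add e e', u => add (comp e u) (comp e' u)

def sub (e e' : Op A B) : Op A B := add e (smul (-1) e')

def word : List B → Op A B
  | [] => one
  | b :: w => der b (word w)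

/-- The sum over a list. -/
def lsum : List (Op A B) → Op A B
  | [] => zero
  | e :: l => add e (lsum l)

/-- The coefficients lie in S and the order is less than k. -/
inductive Ok (S : Subalgebra ℂ A) : Op A B → ℕ → Prop
  | one (k : ℕ) : Ok S one (k + 1)
  | zero (k : ℕ) : Ok S zero k
  | smul {a : A} {e : Op A B} {k : ℕ} : a ∈ S → Ok S e k → Ok S (smul a e) k
  | der (b : B) {e : Op A B} {k : ℕ} : Ok S e k → Ok S (der b e) (k + 1)
  | add {e e' : Op A B} {k : ℕ} : Ok S e k → Ok S e' k → Ok S (add e e') k

variable {S : Subalgebra ℂ A} {e u : Op A B} {k k' : ℕ} (D : B → Der R) (i : A → R)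

omit [CommRing A] [Algebra ℂ A] in
theorem ev_comp (e u : Op A B) (P : R) : ev D i (e.comp u) P = ev D i e (ev D i u P) := by
  induction e <;> simp only [comp, ev, *]

omit [CommRing A] [Algebra ℂ A] in
theorem ev_word (w : List B) (P : R) : ev D i (word w) P = wd D w P := by
  induction w <;> simp only [word, ev, wd, *]

omit [CommRing A] [Algebra ℂ A] in
theorem ev_add (e : Op A B) (P P' : R) : ev D i e (P + P') = ev D i e P + ev D i e P' := by
  induction e <;> simp only [ev, map_add, *] <;> ring

omit [CommRing A] [Algebra ℂ A] in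
theorem ev_sub (e : Op A B) (P P' : R) : ev D i e (P - P') = ev D i e P - ev D i e P' := by
  induction e <;> simp only [ev, map_sub, *] <;> ring

omit [CommRing A] [Algebra ℂ A] in
theorem ev_lsum (l : List (Op A B)) (P : R) :
    ev D i (lsum l) P = (l.map fun e => ev D i e P).sum := by
  induction l <;> simp only [lsum, ev, List.map, List.sum_nil, List.sum_cons, *]

theorem Ok.mono (h : Ok S e k) (hk : k ≤ k') : Ok S e k' := by
  induction h generalizing k' with
  | one k =>
    obtain ⟨m, rfl⟩ : ∃ m, k' = m + 1 := ⟨k' - 1, by omega⟩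
    exact .one m
  | zero => exact .zero _
  | smul h _ ih => exact .smul h (ih hk)
  | der b _ ih =>
    obtain ⟨m, rfl⟩ : ∃ m, k' = m + 1 := ⟨k' - 1, by omega⟩
    exact .der b (ih (by omega))
  | add _ _ h1 h2 => exact .add (h1 hk) (h2 hk)

theorem Ok.comp (h : Ok S e (k + 1)) (h' : Ok S u (k' + 1)) : Ok S (e.comp u) (k + k' + 1) := by
  have : ∀ e m, Ok S e m → Ok S (e.comp u) (m + k') := fun e m h0 => by
    clear h
    induction h0 with
    | one k => exact h'.mono (by omega)
    | zero => exact .zero _
    | smul h _ ih => exact .smul h ih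
    | der b _ ih => exact (Ok.der b ih).mono (by omega)
    | add _ _ h1 h2 => exact .add h1 h2
  exact (this _ _ h).mono (by omega)

theorem Ok.sub (h : Ok S e k) (h' : Ok S u k) : Ok S (e.sub u) k :=
  .add h (.smul (S.neg_mem S.one_mem) h')

theorem Ok.word (w : List B) : Ok S (word w : Op A B) (w.length + 1) := by
  induction w with
  | nil => exact .one 0
  | cons b w ih => exact .der b ih

theorem Ok.lsum {l : List (Op A B)} (h : ∀ e ∈ l, Ok S e k) : Ok S (lsum l) k := by
  induction l with
  | nil => exact .zero _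
  | cons e l ih => exact .add (h e (by simp)) (ih fun e he => h e (by simp [he]))

theorem Ok.ev_zero (h : Ok S e 0) (P : R) : ev D i e P = 0 := by
  generalize hk : 0 = k at h
  induction h with
  | one => omega
  | zero => rfl
  | smul _ _ ih => simp [ev, ih hk]
  | der => omega
  | add _ _ h1 h2 => simp [ev, h1 hk, h2 hk]

open MvPolynomial

/-- The symbol of order k. -/
noncomputable def sym : ℕ → Op A B → MvPolynomial B A
  | 0, one => 1
  | _ + 1, one => 0
  | _, zero => 0
  | k, smul a e => C a * sym k e
  | 0, der _ _ => 0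
  | k + 1, der b e => X b * sym k e
  | k, add e e' => sym k e + sym k e'

variable [Fintype B]

/-- L is a differential operator of order k with symbol p. -/
def Sy (Y : B → Der A) : ℕ → (A → A) → MvPolynomial B A → Prop
  | 0, L, p => ∃ a, p = C a ∧ ∀ f, L f = a * f
  | k + 1, L, p => p.IsHomogeneous (k + 1) ∧
      ∀ x, Sy Y k (fun f => L (x * f) - x * L f) (∑ b, C (Y b x) * pderiv b p)

variable {Y : B → Der A} {L L' : A → A} {p p' : MvPolynomial B A}

theorem Sy.hom (h : Sy Y k L p) : p.IsHomogeneous k := by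
  cases k with
  | zero =>
    obtain ⟨a, rfl, -⟩ := h
    exact isHomogeneous_C _ _
  | succ k => exact h.1

theorem Sy.congr (h : Sy Y k L p) (e1 : ∀ f, L' f = L f) (e2 : p' = p) : Sy Y k L' p' := by
  rw [e2, show L' = L from funext e1]
  exact h

theorem Sy.lin (a : A) (h : Sy Y k L p) (h' : Sy Y k L' p') :
    Sy Y k (fun f => a * L f + L' f) (C a * p + p') := by
  induction k generalizing L L' p p' with
  | zero =>
    obtain ⟨b, rfl, h⟩ := h
    obtain ⟨b', rfl, h'⟩ := h'
    exact ⟨a * b + b', by simp, fun f => by simp only [h, h']; ring⟩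
  | succ k ih =>
    refine ⟨(h.1.C_mul a).add h'.1, fun x => (ih (h.2 x) (h'.2 x)).congr (fun f => by ring) ?_⟩
    simp only [map_add, pderiv_C_mul, Finset.mul_sum, ← Finset.sum_add_distrib]
    exact Finset.sum_congr rfl fun b _ => by ring

theorem Sy.zero (k : ℕ) : Sy Y k (fun _ => 0) 0 := by
  induction k with
  | zero => exact ⟨0, by simp, by simp⟩
  | succ k ih => exact ⟨isHomogeneous_zero _ _ _, fun x => ih.congr (by simp) (by simp)⟩

theorem Sy.low (h : Sy Y k L p) : Sy Y (k + 1) L 0 := by
  induction k generalizing L p with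
  | zero =>
    obtain ⟨b, -, h⟩ := h
    exact ⟨isHomogeneous_zero _ _ _, fun x => (Sy.zero 0).congr (fun f => by simp only [h]; ring)
      (by simp)⟩
  | succ k ih => exact ⟨isHomogeneous_zero _ _ _, fun x => (ih (h.2 x)).congr (fun _ => rfl) (by simp)⟩

theorem Sy.der (b : B) (h : Sy Y k L p) : Sy Y (k + 1) (fun f => Y b (L f)) (X b * p) := by
  classical
  have e : ∀ x p, ∑ e, C (Y e x) * pderiv e (X b * p : MvPolynomial B A) =
      C (Y b x) * p + X b * ∑ e, C (Y e x) * pderiv e p := fun x p => by
    simp only [Derivation.leibniz, smul_eq_mul, pderiv_X, Pi.single_apply, mul_add, mul_ite, mul_one,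
      mul_zero, Finset.sum_add_distrib, Finset.sum_ite_eq, Finset.mem_univ, if_true, Finset.mul_sum]
    rw [add_comm]
    exact congrArg _ (Finset.sum_congr rfl fun _ _ => by ring)
  induction k generalizing L p with
  | zero =>
    refine ⟨by simpa using (isHomogeneous_X A b).mul h.hom, fun x => ?_⟩
    obtain ⟨a, rfl, h⟩ := h
    refine ⟨Y b x * a, by rw [e]; simp, fun f => ?_⟩
    simp only [h, Derivation.leibniz, smul_eq_mul]
    ring
  | succ k ih =>
    refine ⟨by simpa [add_comm] using (isHomogeneous_X A b).mul h.hom, fun x =>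
      (h.lin (Y b x) (ih (h.2 x))).congr (fun f => ?_) (e x p)⟩
    simp only [map_sub, Derivation.leibniz, smul_eq_mul]
    ring

theorem Ok.sy (h : Ok S e (k + 1)) : Sy Y k (ev Y id e) (sym k e) := by
  induction e generalizing k with
  | one =>
    have : ∀ k, Sy Y k (fun f => f) (sym k (Op.one : Op A B)) := fun k => by
      induction k with
      | zero => exact ⟨1, by simp [sym], by simp⟩
      | succ k ih => exact ih.low
    exact this k
  | zero => exact (Sy.zero k).congr (fun _ => rfl) (by simp [sym])
  | smul a e ih =>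
    cases h with
    | smul _ h => exact ((ih h).lin a (Sy.zero k)).congr (fun f => by simp [ev]) (by simp [sym])
  | der b e ih =>
    cases h with
    | der _ h =>
      cases k with
      | zero => exact (Sy.zero 0).congr (fun f => by simp [ev, h.ev_zero]) rfl
      | succ k => exact (ih h).der b
  | add e e' h1 h2 =>
    cases h with
    | add h h' => exact ((h1 h).lin 1 (h2 h')).congr (fun f => by simp [ev]) (by simp [sym])

/-- The differentials of the functions span the dual of the frame. -/
def Span (Y : B → Der A) : Prop :=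
  ∀ c : B → MvPolynomial B A, (∀ x, ∑ b, C (Y b x) * c b = 0) → ∀ b, c b = 0

theorem Sy.eq_zero (hs : Span Y) (h : Sy Y k (fun _ => 0) p) : p = 0 := by
  induction k generalizing p with
  | zero =>
    obtain ⟨a, rfl, h⟩ := h
    rw [← mul_one a, ← h 1, map_zero]
  | succ k ih =>
    have h1 := hs _ fun x => ih ((h.2 x).congr (fun f => by simp) rfl)
    have h2 := h.1.sum_X_mul_pderiv
    simp only [h1, mul_zero, Finset.sum_const_zero] at h2
    have h3 : ((k + 1 : ℕ) : ℂ) • p = 0 := by rw [Nat.cast_smul_eq_nsmul, ← h2]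
    exact (smul_eq_zero_iff_right (Nat.cast_ne_zero.2 (by omega))).1 h3

/-- A dual frame of differentials gives the spanning property. -/
theorem span_of {ι : Type*} [Fintype ι] [DecidableEq B] (x : ι → A) (u : B → ι → A)
    (h : ∀ b e, ∑ i, u b i * Y e (x i) = if e = b then 1 else 0) : Span Y := fun c hc b => by
  have : ∑ i, C (u b i) * ∑ e, C (Y e (x i)) * c e = c b := by
    simp only [Finset.mul_sum, ← mul_assoc, ← map_mul]
    rw [Finset.sum_comm]
    simp only [← Finset.sum_mul, ← map_sum, h]
    simp [apply_ite C]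
  simpa [hc] using this.symm

end Op

end Vale.Agent.P354XF
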