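import Vale.Agent.P354XF.Trans

/-!
Two frames on one algebra: the solution and the reference solution.
-/

namespace Vale.Agent.P354XF

open TensorProduct Op

section
variable {A A' : Type*} [CommRing A] [Algebra ℂ A] [CommRing A'] [Algebra ℂ A']

/-- The product of two derivations. -/
def prD (D : Der A) (D' : Der A') : Der (A × A') :=
  Derivation.mk' ((D : A →ₗ[ℂ] A).prodMap (D' : A' →ₗ[ℂ] A')) fun p q => by ext <;> simp

theorem prD_ap (D : Der A) (D' : Der A') (p : A × A') : prD D D' p = (D p.1, D' p.2) := rfl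

/-- Derivations of a tensor product. -/
noncomputable def tD (D : Der A) (D' : Der A') : Der (A ⊗[ℂ] A') :=
  Derivation.mk' ((D : A →ₗ[ℂ] A).rTensor A' + (D' : A' →ₗ[ℂ] A').lTensor A) fun p q => by
    induction p using TensorProduct.induction_on with
    | zero => simp
    | add p p' h1 h2 => simp only [add_mul, map_add, h1, h2, smul_eq_mul]; ring
    | tmul a b =>
      induction q using TensorProduct.induction_on with
      | zero => simp
      | add q q' h1 h2 => simp only [mul_add, map_add, h1, h2, smul_eq_mul]; ring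
      | tmul a' b' => simp [add_tmul, tmul_add, mul_add, mul_comm]; abel

theorem tD_ap (D : Der A) (D' : Der A') (a : A) (b : A') :
    tD D D' (a ⊗ₜ b) = D a ⊗ₜ b + a ⊗ₜ D' b := by simp [tD]

theorem tD_ext {d d' : Der (A ⊗[ℂ] A')} (h1 : ∀ a, d (a ⊗ₜ 1) = d' (a ⊗ₜ 1))
    (h2 : ∀ b, d (1 ⊗ₜ b) = d' (1 ⊗ₜ b)) (P : A ⊗[ℂ] A') : d P = d' P := by
  induction P using TensorProduct.induction_on with
  | zero => simp
  | add p p' k1 k2 => simp only [map_add, k1, k2]
  | tmul a b =>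
    rw [show a ⊗ₜ[ℂ] b = (a ⊗ₜ 1) * (1 ⊗ₜ b) by simp, Derivation.leibniz, Derivation.leibniz, h1, h2]

end

/-- The frame Z of the solution and the frame Y of the reference solution; g generates pairs
(value on the solution, value on the reference), kf the reference functions. -/
structure Duo {G A : Type*} [CommRing A] [Algebra ℂ A] (g : Gen G (A × A)) (B ι : Type)
    [Fintype B] where
  Z : B → Der A
  Y : B → Der A
  ga : B → B → B → A
  gk : B → B → B → A
  sg : B → B → A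
  ta : B → B → A
  kf : ι → A
  cl0 : ∀ x, g.cl x = 0
  up : ∀ b, Up g 0 (prD (Z b) (Y b))
  mga : ∀ a b e, M g 1 2 0 0 (ga a b e, gk a b e)
  sm0 : ∀ x, g.sm x → (g.x x).2 = 0
  commZ : ∀ a b f, Z a (Z b f) = Z b (Z a f) + ∑ e, ga a b e * Z e f
  commY : ∀ a b f, Y a (Y b f) = Y b (Y a f) + ∑ e, gk a b e * Y e f
  SY : ∀ b i, Y b (kf i) ∈ Algebra.adjoin ℂ (Set.range kf)
  Sg : ∀ a b e, gk a b e ∈ Algebra.adjoin ℂ (Set.range kf)
  ZY : ∀ b f, Z b f = Y b f + ∑ e, sg b e * Y e f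
  YZ : ∀ b f, Y b f = Z b f + ∑ e, ta b e * Z e f

namespace Duo

variable {G A : Type*} [CommRing A] [Algebra ℂ A] {g : Gen G (A × A)} {B ι : Type} [Fintype B]
  (U : Duo g B ι)

/-- The reference functions. -/
def S : Subalgebra ℂ A := Algebra.adjoin ℂ (Set.range U.kf)

/-- The big ring. -/
abbrev Rg (A : Type*) [CommRing A] [Algebra ℂ A] := (A × A) ⊗[ℂ] (A × A)

noncomputable def io (A : Type*) [CommRing A] [Algebra ℂ A] : A →ₐ[ℂ] Rg A :=
  Algebra.TensorProduct.includeRight.comp ((AlgHom.id ℂ A).prod (AlgHom.id ℂ A))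

noncomputable def e1 (A : Type*) [CommRing A] [Algebra ℂ A] : Rg A →ₐ[ℂ] A :=
  Algebra.TensorProduct.lift (AlgHom.fst ℂ A A) (AlgHom.fst ℂ A A) fun _ _ => Commute.all _ _

noncomputable def e2 (A : Type*) [CommRing A] [Algebra ℂ A] : Rg A →ₐ[ℂ] A :=
  Algebra.TensorProduct.lift (AlgHom.snd ℂ A A) (AlgHom.snd ℂ A A) fun _ _ => Commute.all _ _

theorem io_ap (a : A) : io A a = 1 ⊗ₜ (a, a) := rfl
theorem e1_ap (p q : A × A) : e1 A (p ⊗ₜ q) = p.1 * q.1 := rfl
theorem e2_ap (p q : A × A) : e2 A (p ⊗ₜ q) = p.2 * q.2 := rfl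

def jt (s : Bool) (b e : B) (w : List B) : A := wd U.Y w (cond s (U.ta b e) (U.sg b e))

noncomputable def gen : Gen (G ⊕ ι ⊕ Bool × B × B × List B) (Rg A) where
  x := Sum.elim (fun x => g.x x ⊗ₜ 1) (Sum.elim (fun i => io A (U.kf i))
    fun j => 1 ⊗ₜ (U.jt j.1 j.2.1 j.2.2.1 j.2.2.2, 0))
  lev := Sum.elim g.lev fun _ => 0
  sm := Sum.elim g.sm fun _ => False
  cl := Sum.elim g.cl (Sum.elim (fun _ => 0) fun j => j.2.2.2.length + 1)

noncomputable def d (b : B) : Der (Rg A) := tD (prD (U.Z b) (U.Y b)) 0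
noncomputable def d' (b : B) : Der (Rg A) := tD 0 (prD (U.Y b) (U.Y b))
noncomputable def dl (b : B) : Der (Rg A) := tD (prD (U.Z b) (U.Y b)) (prD (U.Y b) (U.Y b))
noncomputable def DY (b : B) : Der (Rg A) := U.dl b + ∑ e, ((1 : A × A) ⊗ₜ[ℂ] (U.ta b e, (0 : A))) • U.d e
noncomputable def DZ (b : B) : Der (Rg A) := U.dl b + ∑ e, ((1 : A × A) ⊗ₜ[ℂ] (U.sg b e, (0 : A))) • U.d' e

theorem dl_eq (b : B) (P : Rg A) : U.dl b P = U.d b P + U.d' b P :=
  tD_ext (d' := U.d b + U.d' b) (fun a => by simp [dl, d, d', tD_ap])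
    (fun a => by simp [dl, d, d', tD_ap]) P

variable {U} {j n a l : ℕ}

theorem ML {p : A × A} (h : M g j n a l p) : M U.gen j n a l (p ⊗ₜ 1) :=
  h.map (g' := U.gen) (Algebra.TensorProduct.includeLeft (S := ℂ)).toRingHom Sum.inl
    (fun z => ⟨z, AlgHom.commutes _ z⟩) fun _ => ⟨rfl, rfl, rfl, id⟩

theorem Mi {x : A} (h : x ∈ U.S) : M U.gen 0 0 0 0 (io A x) := by
  induction h using Algebra.adjoin_induction with
  | mem x h =>
    obtain ⟨i, rfl⟩ := h
    exact M.gen (g := U.gen) (.inr (.inl i))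
  | algebraMap z => exact ((io A).commutes z).symm ▸ M.const z
  | add _ _ _ _ h1 h2 => exact (map_add (io A) _ _).symm ▸ h1.add h2
  | mul _ _ _ _ h1 h2 => exact (map_mul (io A) _ _).symm ▸ h1.mul h2

theorem SY' (b : B) {x : A} (h : x ∈ U.S) : U.Y b x ∈ U.S := by
  induction h using Algebra.adjoin_induction with
  | mem x h =>
    obtain ⟨i, rfl⟩ := h
    exact U.SY b i
  | algebraMap z => simp
  | add _ _ _ _ h1 h2 => simpa using U.S.add_mem h1 h2
  | mul _ _ k1 k2 h1 h2 => simpa using U.S.add_mem (U.S.mul_mem k1 h2) (U.S.mul_mem k2 h1)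

variable (U)

theorem Mj (s : Bool) (b e : B) (w : List B) :
    M U.gen 0 0 0 (w.length + 1) (1 ⊗ₜ (U.jt s b e w, 0)) :=
  M.gen (g := U.gen) (.inr (.inr (s, b, e, w)))

theorem up_d (b : B) (x) : UpS U.gen 1 0 (U.d b) x := by
  rcases x with x | i | j
  · simp only [UpS, gen, Sum.elim_inl, d, tD_ap, Derivation.map_one_eq_zero, tmul_zero, add_zero]
    exact ⟨ML (U.up b x).1, fun h => ML ((U.up b x).2 h)⟩
  all_goals simpa [UpS, gen, d, tD_ap, io_ap] using M.zero _ _ _ _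

theorem up_d' (b : B) (x) : UpS U.gen 0 1 (U.d' b) x ∧ (U.gen.cl x ≤ 0 → UpS U.gen 0 0 (U.d' b) x) := by
  rcases x with x | i | j
  · simpa [UpS, gen, d', tD_ap] using ⟨⟨M.zero _ _ _ _, fun _ => M.zero _ _ _ _⟩,
      fun _ => ⟨M.zero _ _ _ _, fun _ => M.zero _ _ _ _⟩⟩
  · have : U.d' b (io A (U.kf i)) = io A (U.Y b (U.kf i)) := by simp [d', tD_ap, io_ap, prD_ap]
    have h := this ▸ Mi (U := U) (U.SY b i)
    exact ⟨⟨h.mono le_rfl le_rfl le_rfl (by omega), False.elim⟩, fun _ => ⟨h, False.elim⟩⟩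
  · refine ⟨⟨?_, False.elim⟩, fun h => by simp [gen] at h⟩
    simpa [gen, d', tD_ap, prD_ap, jt, wd] using U.Mj j.1 j.2.1 j.2.2.1 (b :: j.2.2.2)

theorem up_dl {e : ℕ} (b : B) (x) (h : UpS U.gen 0 e (U.d' b) x) : UpS U.gen 1 e (U.dl b) x := by
  rw [UpS, dl_eq]
  exact ⟨((U.up_d b x).1.mono le_rfl le_rfl le_rfl (by omega)).add
    (h.1.mono (by omega) (by omega) le_rfl le_rfl), fun k =>
    (((U.up_d b x).2 k).mono le_rfl le_rfl le_rfl (by omega)).add
    ((h.2 k).mono (by omega) (by omega) le_rfl le_rfl)⟩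

theorem up_sum {s e : ℕ} (t : Bool) (D : B → Der (Rg A)) (hs : s ≤ 1) (he : e ≤ 1)
    (h : ∀ b x, UpS U.gen s e (D b) x) (b : B) (x) :
    UpS U.gen 1 1 (U.dl b + ∑ e, ((1 : A × A) ⊗ₜ[ℂ] (U.jt t b e [], (0 : A))) • D e) x := by
  rw [UpS, Derivation.add_apply, sum_ap]
  have k := U.up_dl b x (U.up_d' b x).1
  exact ⟨k.1.add (M.sum _ fun e _ => (U.Mj t b e []).mul' (h e x).1 (by omega) (by omega) (by omega)
    le_rfl (by simp) (by omega)), fun c => (k.2 c).add (M.sum _ fun e _ => (U.Mj t b e []).mul'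
      ((h e x).2 c) (by omega) (by omega) (by omega) le_rfl (by simp) (by omega))⟩

theorem up_DY (b : B) (x) : UpS U.gen 1 1 (U.DY b) x :=
  U.up_sum true U.d le_rfl (by omega) U.up_d b x

theorem up_DZ (b : B) (x) : UpS U.gen 1 1 (U.DZ b) x :=
  U.up_sum false U.d' (by omega) le_rfl (fun b x => (U.up_d' b x).1) b x

theorem e2_dl (b : B) (P : Rg A) : e2 A (U.dl b P) = U.Y b (e2 A P) := by
  induction P using TensorProduct.induction_on with
  | zero => simp
  | add p p' k1 k2 => simp only [map_add, k1, k2]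
  | tmul p q => simp [dl, tD_ap, e2_ap, prD_ap, mul_comm, add_comm]

theorem e1_DY (b : B) (P : Rg A) : e1 A (U.DY b P) = U.Y b (e1 A P) := by
  induction P using TensorProduct.induction_on with
  | zero => simp
  | add p p' k1 k2 => simp only [map_add, k1, k2]
  | tmul p q =>
    rw [DY, Derivation.add_apply, sum_ap]
    simp only [dl, d, tD_ap, e1_ap, prD_ap, map_add, map_sum, map_mul, Derivation.leibniz,
      U.YZ b p.1, Derivation.zero_apply, tmul_zero, add_zero, smul_eq_mul, Prod.fst_one, one_mul,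
      ← mul_assoc, ← Finset.sum_mul]
    ring

theorem e1_DZ (b : B) (P : Rg A) : e1 A (U.DZ b P) = U.Z b (e1 A P) := by
  induction P using TensorProduct.induction_on with
  | zero => simp
  | add p p' k1 k2 => simp only [map_add, k1, k2]
  | tmul p q =>
    rw [DZ, Derivation.add_apply, sum_ap]
    simp only [dl, d', tD_ap, e1_ap, prD_ap, map_add, map_sum, map_mul, Derivation.leibniz,
      U.ZY b q.1, Derivation.zero_apply, zero_tmul, zero_add, smul_eq_mul, Prod.fst_one, one_mul,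
      mul_add, Finset.mul_sum, mul_left_comm p.1]
    ring

/-- The elements which vanish on the reference solution. -/
noncomputable def K (A : Type*) [CommRing A] [Algebra ℂ A] : Ideal (Rg A) := RingHom.ker (e2 A)

theorem Kd (b : B) (P : Rg A) (h : P ∈ K A) : U.dl b P ∈ K A := by
  rw [K, RingHom.mem_ker] at h ⊢
  rw [e2_dl, h, map_zero]

theorem Kj (x : A) : (1 : A × A) ⊗ₜ[ℂ] (x, (0 : A)) ∈ K A := by
  rw [K, RingHom.mem_ker, e2_ap, mul_zero]

theorem K_sum (c : B → A) (D : B → Der (Rg A)) (b : B) (P : Rg A) (h : P ∈ K A) :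
    (U.dl b + ∑ e, ((1 : A × A) ⊗ₜ[ℂ] (c e, (0 : A))) • D e) P ∈ K A := by
  rw [Derivation.add_apply, sum_ap]
  exact (K A).add_mem (U.Kd b P h) (Ideal.sum_mem _ fun e _ => (K A).mul_mem_right _ (Kj _))

theorem Kp (x y : A) : (x, y) ⊗ₜ[ℂ] 1 - io A y ∈ K A := by
  rw [K, RingHom.mem_ker, map_sub, io_ap, e2_ap, e2_ap]
  simp

theorem comm_dl (a b : B) (P : Rg A) : U.dl a (U.dl b P) - U.dl b (U.dl a P) -
    ∑ e, io A (U.gk a b e) * U.dl e P =
      ∑ e, ((U.ga a b e, U.gk a b e) ⊗ₜ[ℂ] 1 - io A (U.gk a b e)) * U.d e P := by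
  have := tD_ext (d := ⁅U.dl a, U.dl b⁆) (d' := ∑ e, io A (U.gk a b e) • U.dl e +
    ∑ e, ((U.ga a b e, U.gk a b e) ⊗ₜ[ℂ] 1 - io A (U.gk a b e)) • U.d e) (fun p => by
      rw [Derivation.commutator_apply, Derivation.add_apply, sum_ap, sum_ap,
        ← Finset.sum_add_distrib]
      simp only [dl, d, tD_ap, Derivation.map_one_eq_zero, tmul_zero, add_zero, ← add_mul,
        add_sub_cancel, Algebra.TensorProduct.tmul_mul_tmul, ← sum_tmul, ← sub_tmul, mul_one]
      refine congrArg (· ⊗ₜ[ℂ] 1) (Prod.ext ?_ ?_) <;>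
        simp [prD_ap, Prod.fst_sum, Prod.snd_sum, U.commZ a b, U.commY a b]) (fun q => by
      rw [Derivation.commutator_apply, Derivation.add_apply, sum_ap, sum_ap]
      simp only [dl, d, tD_ap, Derivation.map_one_eq_zero, zero_tmul, zero_add, io_ap,
        Derivation.zero_apply, tmul_zero, mul_zero, Finset.sum_const_zero, add_zero,
        Algebra.TensorProduct.tmul_mul_tmul, ← tmul_sum, ← tmul_sub, mul_one]
      refine congrArg ((1 : A × A) ⊗ₜ[ℂ] ·) (Prod.ext ?_ ?_) <;>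
        simp [prD_ap, Prod.fst_sum, Prod.snd_sum, U.commY a b]) P
  rw [Derivation.commutator_apply, Derivation.add_apply, sum_ap, sum_ap] at this
  linear_combination this

/-- The frozen calculus. -/
noncomputable def tw : Tw U.gen A B where
  Y := U.Y
  gk := U.gk
  S := U.S
  i := io A
  dl := U.dl
  K := K A
  SY b _ := SY' b
  Sg := U.Sg
  mi _ := Mi
  di b x := by simp [dl, tD_ap, io_ap, prD_ap]
  up b x h := U.up_dl b x ((U.up_d' b x).2 h)
  Kd := U.Kd
  commY := U.commY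
  comm a b j n P h := by
    rw [comm_dl]
    exact Qd.sum _ fun e _ => .ker (n1 := 2) (n2 := n + 1) (Kp _ _)
      (((ML (U.mga a b e)).mono (by omega) le_rfl le_rfl le_rfl).sub
        ((Mi (U.Sg a b e)).mono (by omega) (by omega) le_rfl le_rfl))
      (h.derS fun x _ => U.up_d e x) (by omega)

end Duo

end Vale.Agent.P354XF
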