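import Vale.Agent.P354IF.Defs

/-!
The principal parts of the members of the family.
-/

namespace Vale.Agent.P354XF

open TensorProduct Filter
open P354FX (ct ev_add)
open P354FA (Lt)
open P354IF (ix Dw top)

variable {A : Type*} [CommRing A] [Algebra ℂ A] {ι : Type} {b : Brg A ι} {j n : ℕ}

omit [Algebra ℂ A] in
theorem map_ev {R κ : Type*} [CommRing R] [Fintype κ] (f : R →+* A) (l : List (κ → R))
    (T : List κ → R) : f (P354FX.ev l T) = P354FX.ev (l.map fun Y x => f (Y x)) fun w => f (T w) := by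
  induction l generalizing T with
  | nil => rfl
  | cons Y l ih =>
    rw [P354FX.ev, ih, List.map_cons, P354FX.ev]
    exact congrArg _ (funext fun w => by simp only [ct, map_sum, map_mul])

omit [Algebra ℂ A] in
theorem ev_ct {κ : Type*} [Fintype κ] (l : List (κ → A)) (Y : κ → A) (T : List κ → A) :
    P354FX.ev l (ct Y T) = ∑ x, Y x * P354FX.ev l fun w => T (x :: w) := by
  induction l generalizing T with
  | nil => rfl
  | cons Z l ih =>
    have : ct Z (ct Y T) = ct Y fun w => ∑ z, Z z * T (w.take 1 ++ z :: w.drop 1) := by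
      funext w
      simp only [ct, Finset.mul_sum, List.take_succ_cons, List.take_zero, List.drop_succ_cons,
        List.drop_zero, List.cons_append, List.nil_append]
      rw [Finset.sum_comm]
      simp only [mul_left_comm]
    rw [P354FX.ev, this, ih]
    rfl

theorem m_ev (c : Fin 6) (l : List (Lt → A)) (hl : ∀ Y ∈ l, ∀ x, Y x ∈ b.S)
    (T : List Lt → Duo.Rg A) (h : ∀ w, w.length = l.length → M b.U.gen j n 1 0 (T w)) :
    M b.U.gen j n 1 0 (P354FX.ev (l.map fun Y x => Duo.io A (Y x)) T) ∧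
      M b.U.gen j n 1 0 (b.U.dl c (P354FX.ev (l.map fun Y x => Duo.io A (Y x)) T) -
        P354FX.ev (l.map fun Y x => Duo.io A (Y x)) fun w => b.U.dl c (T w)) := by
  induction l generalizing T with
  | nil => exact ⟨h [] rfl, by simpa [P354FX.ev] using M.zero _ _ _ _⟩
  | cons Y l ih =>
    have k : ∀ Y : Lt → A, (∀ x, Y x ∈ b.S) → ∀ w : List Lt, w.length = l.length →
        M b.U.gen j n 1 0 (ct (fun x => Duo.io A (Y x)) T w) := fun Y hY w hw =>
      M.sum _ fun x _ => (Duo.Mi (hY x)).mul' (h (x :: w) (by simp [hw])) (by omega) le_rfl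
        (by omega) (by omega) le_rfl le_rfl
    have hl' := fun Z hZ => hl Z (List.mem_cons_of_mem Y hZ)
    have k1 := ih hl' _ (k Y (hl Y (by simp)))
    have k2 := (ih hl' _ (k (fun x => b.Y c (Y x)) fun x => Duo.SY' c (hl Y (by simp) x))).1
    refine ⟨k1.1, cast (congrArg _ ?_) (k1.2.add k2)⟩
    have e : (fun w => b.U.dl c (ct (fun x => Duo.io A (Y x)) T w)) =
        ct (fun x => Duo.io A (Y x)) (fun w => b.U.dl c (T w)) +
          ct (fun x => Duo.io A (b.Y c (Y x))) T := by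
      funext w
      simp only [ct, map_sum, Derivation.leibniz, smul_eq_mul, Pi.add_apply,
        show ∀ x, b.U.dl c (Duo.io A x) = Duo.io A (b.Y c x) from b.U.tw.di c,
        Finset.sum_add_distrib, mul_comm (T _)]
    simp only [e, ev_add, List.map_cons, P354FX.ev]
    ring

theorem sum_ix {R : Type*} [AddCommMonoid R] (f : Fin 6 → R) :
    ∑ c, f c = ∑ x : Lt, f (ix x) + (f (vt false) + f (vt true)) := by
  simp only [Fin.sum_univ_six, Fintype.sum_prod_type, Fintype.sum_bool, ix, vt, cond]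
  abel

theorem Brg.Is.m_top (h : b.Is) (σ : Bool) (J : List (Fin 5)) (t : ℕ) (hJ : J.length ≤ t + 1) :
    P354XF.M b.U.gen t (t + 1) 1 0 (b.U.Fr (b.XW (b.e0 σ) J) (b.T.ps σ) - Duo.io A (b.wi σ) *
      P354FX.ev ((J.map fun a x => b.cX a (ix x)).map fun Y x => Duo.io A (Y x))
        fun w => wd b.U.dl (w.map ix) ((b.T.ps σ, (0 : A)) ⊗ₜ 1)) := by
  induction J generalizing t with
  | nil => exact cast (congrArg _ (sub_self _).symm) (P354XF.M.zero _ _ _ _)
  | cons a J ih =>
    rw [List.length_cons] at hJ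
    have k1 := fun c => m_ev (b := b) (j := t) (n := t) c (J.map fun a x => b.cX a (ix x))
      (List.forall_mem_map.2 fun a _ x => h.cX a _) _ fun w hw =>
        (b.U.tw.M_wd (Duo.ML (b.mps σ)) (w.map ix)).mono (by simp at hw ⊢; omega)
          (by simp at hw ⊢; omega) le_rfl le_rfl
    have k2 : ∀ c, P354XF.M b.U.gen t (t + 1) 1 0 (b.U.dl c (b.U.Fr (b.XW (b.e0 σ) J) (b.T.ps σ) -
        Duo.io A (b.wi σ) * P354FX.ev ((J.map fun a x => b.cX a (ix x)).map
          fun Y x => Duo.io A (Y x)) fun w => wd b.U.dl (w.map ix) ((b.T.ps σ, (0 : A)) ⊗ₜ 1))) :=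
      fun c => by
      rcases t with _ | t
      · rw [List.length_eq_zero_iff.1 (show J.length = 0 by omega)]
        exact (congrArg (b.U.dl c) (sub_self _)).trans (map_zero _) ▸ P354XF.M.zero _ _ _ _
      · exact (ih t (by omega)).derS (b.U.tw.up c)
    have mu : ∀ {x P n}, x ∈ b.S → P354XF.M b.U.gen t n 1 0 P → n ≤ t + 1 →
        P354XF.M b.U.gen t (t + 1) 1 0 (Duo.io A x * P) := fun hx hP e =>
      (Duo.Mi hx).mul' hP (by omega) le_rfl (by omega) (by omega) le_rfl le_rfl
    have k3 : ∀ v, P354XF.M b.U.gen t (t + 1) 1 0 (Duo.io A (b.cX a (vt v)) *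
        b.U.dl (vt v) (b.U.Fr (b.XW (b.e0 σ) J) (b.T.ps σ))) := fun v => by
      rw [h.Fr_V, Algebra.smul_def (A := Duo.Rg A)]
      exact mu (h.cX a _) (((Duo.M_Fr (h.ok_fm σ J) (b.mps σ)).mono (by omega) le_rfl le_rfl
        le_rfl).cmul _) (by omega)
    refine cast (congrArg _ ?_) ((P354XF.M.sum Finset.univ fun x _ => mu (h.cX a (ix x))
      (((k2 (ix x)).add (mu (Duo.SY' (ix x) (h.wi σ)) (k1 0).1 (by omega))).add
        (mu (h.wi σ) (k1 (ix x)).2 (by omega))) le_rfl).add ((k3 false).add (k3 true)))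
    rw [Duo.Fr, Duo.Fr, Brg.XW, Brg.ev_XO, sum_ix, List.map_cons, List.map_cons, P354FX.ev, ev_ct,
      Finset.mul_sum, add_sub_right_comm, ← Finset.sum_sub_distrib]
    refine congrArg₂ (· + ·) (Finset.sum_congr rfl fun x _ => ?_) rfl
    rw [map_sub, Derivation.leibniz, smul_eq_mul, smul_eq_mul,
      show b.U.dl (ix x) (Duo.io A _) = Duo.io A (b.U.Y (ix x) _) from b.U.tw.di _ _]
    have e : ∀ p q r s u v z : Duo.Rg A,
        p * (q - (r * s + u * v) + v * u + r * (s - z)) = p * q - r * (p * z) := by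
      intros
      ring
    exact e _ _ _ _ _ _ _

theorem Brg.Is.ma_top (h : b.Is) (σ : Bool) (J : List (Fin 5)) (t : ℕ) (hJ : J.length ≤ t + 1) :
    b.U.Ma t (t + 1) 1 0 (b.fm σ J - top b σ J) := by
  refine ⟨_, h.m_top σ J t hJ, ?_⟩
  rw [map_sub, map_mul, Duo.e1_io]
  refine congrArg₂ (· - ·) rfl (congrArg _ ((map_ev (Duo.e1 A).toRingHom _ _).trans ?_))
  simp only [List.map_map, Function.comp_def, AlgHom.toRingHom_eq_coe, RingHom.coe_coe, Duo.e1_io]
  refine congrArg _ (funext fun w => ?_)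
  rw [← Op.ev_word b.U.dl (Duo.io A)]
  exact b.U.F_word _ _

theorem tops : P354IF.TOPS := fun A _ _ ι b h t L K => by
  obtain ⟨C0, k0, c0⟩ := ((h.al_le (L := L) (K := K) (show t + 2 ≤ t + 3 by omega)).and
    (eventually_ge_atTop 0)).exists
  have k : ∀ᶠ C in atTop, ∀ σ, ∀ J : List (Fin 5), J.length ≤ t + 1 → ∀ d φ,
      b.Pq L (t + 3) K d φ → ‖φ (b.fm σ J - top b σ J)‖ ≤ C * b.T.al φ t :=
    eventually_all.2 fun σ => ev_words _ fun J hJ => by
      obtain ⟨C, -, k⟩ := (h.ma_top σ J t hJ).bd K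
      filter_upwards [eventually_ge_atTop C] with C' hC d φ q
      exact (k _ _ _ _ _ φ q.pt (Nat.zero_le _) (by omega)).trans
        (mul_le_mul_of_nonneg_right hC (b.T.al_nn φ t))
  obtain ⟨C1, k, c1⟩ := (k.and (eventually_ge_atTop 0)).exists
  filter_upwards [eventually_ge_atTop C0, eventually_ge_atTop (C1 * C0)] with C h1 h2 d φ q hd σ J
    hJ y hy
  refine (k σ J hJ.le d φ q).trans ((mul_le_mul_of_nonneg_left
    (k0 d φ q ((mul_le_mul_of_nonneg_right h1 q.nn).trans hd) y hy) c1).trans ?_)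
  rw [← mul_assoc]
  exact mul_le_mul_of_nonneg_right h2 (hy true).nn

end Vale.Agent.P354XF
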