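import Vale.Agent.P354XF.Qd

/-!
Operator identities of the reference solution hold for the frozen operators up to quadratic terms.
-/

namespace Vale.Agent.P354XF

open MvPolynomial Op

/-- The reference frame Y on A, the reference functions S, and the frozen derivations dl on R. -/
structure Tw {G R : Type*} [CommRing R] [Algebra ℂ R] (g : Gen G R) (A : Type*) [CommRing A]
    [Algebra ℂ A] (B : Type) [Fintype B] where
  Y : B → Der A
  gk : B → B → B → A
  S : Subalgebra ℂ A
  i : A →ₐ[ℂ] R
  dl : B → Der R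
  K : Ideal R
  SY : ∀ b, ∀ a ∈ S, Y b a ∈ S
  Sg : ∀ a b e, gk a b e ∈ S
  mi : ∀ a ∈ S, M g 0 0 0 0 (i a)
  di : ∀ b a, dl b (i a) = i (Y b a)
  up : ∀ b x, g.cl x ≤ 0 → UpS g 1 0 (dl b) x
  Kd : ∀ b, ∀ P ∈ K, dl b P ∈ K
  commY : ∀ a b f, Y a (Y b f) = Y b (Y a f) + ∑ e, gk a b e * Y e f
  comm : ∀ a b j n P, M g j n 1 0 P →
    Qd g K (j + 1) (n + 3) 0 (dl a (dl b P) - dl b (dl a P) - ∑ e, i (gk a b e) * dl e P)

namespace Tw

variable {G R : Type*} [CommRing R] [Algebra ℂ R] {g : Gen G R} {A : Type*} [CommRing A]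
  [Algebra ℂ A] {B : Type} [Fintype B] (W : Tw g A B) {j n a k : ℕ} {e : Op A B} {P P' : R}

theorem M_wd (h : M g j n a 0 P) (w : List B) :
    M g (j + w.length) (n + w.length) a 0 (wd W.dl w P) := by
  induction w with
  | nil => exact h
  | cons b w ih => exact ih.derS (W.up b)

variable {W}

theorem M_ev (he : Ok W.S e (k + 1)) (h : M g j n a 0 P) :
    M g (j + k) (n + k) a 0 (e.ev W.dl W.i P) := by
  have : ∀ e m, Ok W.S e m → ∀ k, m ≤ k + 1 → M g (j + k) (n + k) a 0 (e.ev W.dl W.i P) :=
    fun e m h0 => by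
    clear he
    induction h0 with
    | one => exact fun k _ => h.mono (by omega) (by omega) le_rfl le_rfl
    | zero => exact fun _ _ => M.zero _ _ _ _
    | smul h _ ih =>
      exact fun k hk => (W.mi _ h).mul' (ih k hk) (by omega) le_rfl (by omega) (by omega) le_rfl
        le_rfl
    | der b h0 ih =>
      rintro (_ | k) hk
      · rw [ev, (h0.mono (by omega)).ev_zero, map_zero]
        exact M.zero _ _ _ _
      · exact (ih k (by omega)).derS (W.up b)
    | add _ _ h1 h2 => exact fun k hk => (h1 k hk).add (h2 k hk)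
  exact this _ _ he k le_rfl

theorem Q_ev (he : Ok W.S e (k + 1)) (h : Qd g W.K j n 0 P) :
    Qd g W.K (j + k) (n + k) 0 (e.ev W.dl W.i P) := by
  have : ∀ e m, Ok W.S e m → ∀ k, m ≤ k + 1 → Qd g W.K (j + k) (n + k) 0 (e.ev W.dl W.i P) :=
    fun e m h0 => by
    clear he
    induction h0 with
    | one => exact fun k _ => h.mono (by omega) (by omega) le_rfl
    | zero => exact fun _ _ => Qd.zero
    | smul h _ ih => exact fun k hk => (ih k hk).mul0 (W.mi _ h)
    | der b h0 ih =>
      rintro (_ | k) hk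
      · rw [ev, (h0.mono (by omega)).ev_zero, map_zero]
        exact Qd.zero
      · exact (ih k (by omega)).der (W.up b) (W.Kd b)
    | add _ _ h1 h2 => exact fun k hk => (h1 k hk).add (h2 k hk)
  exact this _ _ he k le_rfl

variable (W)

/-- The error of an identity between operators of order k. -/
def Er (j n : ℕ) : ℕ → R → Prop
  | 0, P => P = 0
  | k + 1, P => Qd g W.K (j + k) (n + k + 2) 0 P

variable {W}

theorem Er.zero : W.Er j n k 0 := by
  cases k
  exacts [rfl, Qd.zero]

theorem Er.lin {x : A} (hx : x ∈ W.S) (h : W.Er j n k P) (h' : W.Er j n k P') :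
    W.Er j n k (W.i x * P + P') := by
  cases k
  · simp_all [Er]
  · exact (Qd.mul0 (W.mi x hx) h).add h'

theorem Er.der (b : B) (h : W.Er j n k P) : W.Er j n (k + 1) (W.dl b P) := by
  cases k
  · rw [show P = 0 from h, map_zero]
    exact Qd.zero
  · exact Qd.der (W.up b) (W.Kd b) h

theorem Er.succ (h : W.Er j n k P) : W.Er j n (k + 1) P := by
  cases k
  · rw [show P = 0 from h]
    exact Qd.zero
  · exact Qd.mono h (by omega) (by omega) le_rfl

variable (W)

/-- The pair L, F is an operator of order less than k. -/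
def Rel (k : ℕ) (L : A → A) (F : R → R) : Prop :=
  ∃ e, Ok W.S e k ∧ (∀ f, L f = e.ev W.Y id f) ∧
    ∀ j n P, M g j n 1 0 P → W.Er j n k (F P - e.ev W.dl W.i P)

variable {W} {L L' : A → A} {F F' : R → R}

theorem Rel.congr (h : W.Rel k L F) (e1 : ∀ f, L' f = L f) (e2 : ∀ P, F' P = F P) :
    W.Rel k L' F' := by
  rw [show L' = L from funext e1, show F' = F from funext e2]
  exact h

theorem Rel.of (h : Ok W.S e k) : W.Rel k (e.ev W.Y id) (e.ev W.dl W.i) :=
  ⟨e, h, fun _ => rfl, fun _ _ _ _ => by simpa using Er.zero⟩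

theorem Rel.lin {x : A} (hx : x ∈ W.S) (h : W.Rel k L F) (h' : W.Rel k L' F') :
    W.Rel k (fun f => x * L f + L' f) (fun P => W.i x * F P + F' P) := by
  obtain ⟨e, h1, h2, h3⟩ := h
  obtain ⟨e', h1', h2', h3'⟩ := h'
  refine ⟨(e.smul x).add e', (h1.smul hx).add h1', fun f => by simp [ev, h2, h2'],
    fun j n P hP => ?_⟩
  have := (h3 j n P hP).lin hx (h3' j n P hP)
  simp only [ev]
  rwa [mul_sub, sub_add_sub_comm] at this

theorem Rel.der (b : B) (h : W.Rel k L F) :
    W.Rel (k + 1) (fun f => W.Y b (L f)) (fun P => W.dl b (F P)) := by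
  obtain ⟨e, h1, h2, h3⟩ := h
  exact ⟨e.der b, h1.der b, fun f => by simp [ev, h2], fun j n P hP => by
    simpa [ev] using (h3 j n P hP).der b⟩

theorem Rel.perm {w w' : List B} (h : w.Perm w') : W.Rel w.length
    (fun f => wd W.Y w f - wd W.Y w' f) (fun P => wd W.dl w P - wd W.dl w' P) := by
  induction h with
  | nil => exact (Rel.of (.zero _)).congr (by simp [ev]) (by simp [ev])
  | cons b _ ih => exact (ih.der b).congr (by simp [wd]) (by simp [wd])
  | swap a b l =>
    refine ⟨lsum (Finset.univ.toList.map fun e => smul (W.gk b a e) (word (e :: l))),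
      Ok.lsum ?_, fun f => ?_, fun j n P hP => ?_⟩
    · simp only [List.mem_map]
      rintro _ ⟨e, -, rfl⟩
      exact .smul (W.Sg _ _ _) (Ok.word _)
    · simp [ev_lsum, ev, ev_word, wd, W.commY b a, Function.comp_def]
    · have := W.comm b a _ _ _ (W.M_wd hP l)
      simp only [ev_lsum, ev, ev_word, wd, List.map_map, Function.comp_def, Finset.sum_map_toList]
      exact this
  | trans h _ h1 h2 =>
    rw [← h.length_eq] at h2
    exact (h1.lin W.S.one_mem h2).congr (by simp) (by simp)

/-- The ordered word of a monomial, and the quantisation of a polynomial. -/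
noncomputable def lst (m : B →₀ ℕ) : List B := (Finsupp.toMultiset m).toList

noncomputable def qz {R : Type*} [CommRing R] [Algebra ℂ R] (D : B → Der R) (i : A →+* R)
    (P : R) : MvPolynomial B A →+ R :=
  (Finsupp.liftAddHom fun m => (AddMonoidHom.mulRight (wd D (lst m) P)).comp i.toAddMonoidHom).comp
    (AddMonoidAlgebra.coeffAddEquiv : MvPolynomial B A ≃+ ((B →₀ ℕ) →₀ A)).toAddMonoidHom

omit [Fintype B] in
theorem qz_mon {R : Type*} [CommRing R] [Algebra ℂ R] (D : B → Der R) (i : A →+* R) (P : R)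
    (m : B →₀ ℕ) (x : A) : qz D i P (monomial m x) = i x * wd D (lst m) P :=
  Finsupp.liftAddHom_apply_single _ m x

/-- Homogeneous polynomials with coefficients in S. -/
inductive Hm (S : Subalgebra ℂ A) (k : ℕ) : MvPolynomial B A → Prop
  | zero : Hm S k 0
  | mon {m : B →₀ ℕ} {x : A} : x ∈ S → (lst m).length = k → Hm S k (monomial m x)
  | add {p q : MvPolynomial B A} : Hm S k p → Hm S k q → Hm S k (p + q)

omit [Fintype B] in
theorem perm_lst (b : B) (m : B →₀ ℕ) : (b :: lst m).Perm (lst (Finsupp.single b 1 + m)) := by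
  rw [← Multiset.coe_eq_coe, ← Multiset.cons_coe]
  simp [lst, Finsupp.toMultiset_single]

omit [Fintype B] in
theorem Hm.smul {S : Subalgebra ℂ A} {p : MvPolynomial B A} {x : A} (hx : x ∈ S) (h : Hm S k p) :
    Hm S k (C x * p) := by
  induction h with
  | zero => simpa using Hm.zero
  | mon h1 h2 => simpa [C_mul_monomial] using Hm.mon (S.mul_mem hx h1) h2
  | add _ _ h1 h2 => simpa [mul_add] using h1.add h2

omit [Fintype B] in
theorem X_mon (b : B) (m : B →₀ ℕ) (x : A) :
    X b * monomial m x = monomial (Finsupp.single b 1 + m) x := by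
  rw [X, monomial_mul, one_mul]

omit [Fintype B] in
theorem Hm.der {S : Subalgebra ℂ A} {p : MvPolynomial B A} (b : B) (h : Hm S k p) :
    Hm S (k + 1) (X b * p) := by
  induction h with
  | zero => simpa using Hm.zero
  | mon h1 h2 =>
    rw [X_mon]
    exact .mon h1 (by rw [← (perm_lst b _).length_eq, List.length_cons, h2])
  | add _ _ h1 h2 => simpa [mul_add] using h1.add h2

omit [Fintype B] in
theorem qz_smul {R : Type*} [CommRing R] [Algebra ℂ R] (D : B → Der R) (i : A →+* R) (P : R)
    (x : A) (p : MvPolynomial B A) : qz D i P (C x * p) = i x * qz D i P p := by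
  induction p using MvPolynomial.induction_on' with
  | monomial m y => rw [C_mul_monomial, qz_mon, qz_mon, map_mul, mul_assoc]
  | add p q h1 h2 => simp only [mul_add, map_add, h1, h2]

theorem Rel.qz_der {p : MvPolynomial B A} (b : B) (h : Hm W.S k p) : W.Rel (k + 1)
    (fun f => W.Y b (qz W.Y (RingHom.id A) f p) - qz W.Y (RingHom.id A) f (X b * p))
    (fun P => W.dl b (qz W.dl W.i P p) - qz W.dl W.i P (X b * p)) := by
  induction h with
  | zero => exact (Rel.of (.zero _)).congr (by simp [ev]) (by simp [ev])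
  | @mon m x h1 h2 =>
    have k1 := Rel.perm (W := W) (perm_lst b m)
    have k2 := Rel.of (W := W) ((Ok.word (lst m)).smul (W.SY b x h1))
    rw [List.length_cons, h2] at k1
    rw [h2] at k2
    refine (k1.lin h1 k2).congr (fun f => ?_) fun P => ?_
    · simp only [X_mon, qz_mon, ev, ev_word, wd, Derivation.leibniz, smul_eq_mul, RingHom.id_apply,
        id]
      ring
    · simp only [X_mon, qz_mon, ev, ev_word, wd, Derivation.leibniz, smul_eq_mul, RingHom.coe_coe,
        W.di]
      ring
  | add _ _ h1 h2 =>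
    exact (h1.lin W.S.one_mem h2).congr (fun f => by simp only [mul_add, map_add]; ring)
      fun P => by simp only [mul_add, map_add, map_one]; ring

theorem Rel.sym (h : Ok W.S e (k + 1)) : Hm W.S k (sym k e) ∧ W.Rel k
    (fun f => e.ev W.Y id f - qz W.Y (RingHom.id A) f (sym k e))
    (fun P => e.ev W.dl W.i P - qz W.dl W.i P (sym k e)) := by
  induction e generalizing k with
  | one =>
    cases k with
    | zero =>
      have e : Op.sym 0 (Op.one : Op A B) = monomial 0 1 := rfl
      rw [e]
      exact ⟨.mon W.S.one_mem (by simp [lst]), (Rel.of (.zero _)).congr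
        (fun f => by rw [qz_mon]; simp [ev, lst, wd]) fun f => by rw [qz_mon]; simp [ev, lst, wd]⟩
    | succ k => exact ⟨.zero, (Rel.of (.one k)).congr (by simp [Op.sym]) (by simp [Op.sym])⟩
  | zero => exact ⟨by simpa [Op.sym] using Hm.zero,
      (Rel.of (.zero _)).congr (by simp [Op.sym]) (by simp [Op.sym])⟩
  | smul x e ih =>
    cases h with
    | smul hx h =>
      have e1 : Op.sym k (e.smul x) = C x * Op.sym k e := by simp [Op.sym]
      rw [e1]
      exact ⟨(ih h).1.smul hx, ((ih h).2.lin hx (Rel.of (.zero _))).congr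
        (fun f => by simp [ev, qz_smul, mul_sub]) fun f => by simp [ev, qz_smul, mul_sub]⟩
  | der b e ih =>
    cases h with
    | der _ h =>
      cases k with
      | zero => exact ⟨.zero, (Rel.of (.zero _)).congr
          (fun f => by simp [ev, h.ev_zero, Op.sym]) fun f => by simp [ev, h.ev_zero, Op.sym]⟩
      | succ k =>
        exact ⟨(ih h).1.der b, (((ih h).2.der b).lin W.S.one_mem (Rel.qz_der b (ih h).1)).congr
          (fun f => by simp [ev, Op.sym]) fun f => by simp [ev, Op.sym]⟩
  | add e e' h1 h2 =>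
    cases h with
    | add h h' =>
      have e1 : Op.sym k (e.add e') = Op.sym k e + Op.sym k e' := by simp [Op.sym]
      rw [e1]
      exact ⟨(h1 h).1.add (h2 h').1, ((h1 h).2.lin W.S.one_mem (h2 h').2).congr
        (fun f => by simp only [ev, map_add]; ring) fun f => by simp only [ev, map_add, map_one]; ring⟩

/-- The transfer of operator identities. -/
theorem transfer (hs : Span W.Y) (he : Ok W.S e (k + 1)) (h0 : ∀ f, e.ev W.Y id f = 0)
    (h : M g j n 1 0 P) : W.Er j n k (e.ev W.dl W.i P) := by
  induction k generalizing e with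
  | zero =>
    have h1 := ((he.mono le_rfl).sy (Y := W.Y)).congr (fun f => (h0 f).symm) rfl |>.eq_zero hs
    obtain ⟨e', k1, -, k3⟩ := (Rel.sym he).2
    simpa [h1, k1.ev_zero] using k3 j n P h
  | succ k ih =>
    have h1 := ((he.mono le_rfl).sy (Y := W.Y)).congr (fun f => (h0 f).symm) rfl |>.eq_zero hs
    obtain ⟨e', k1, k2, k3⟩ := (Rel.sym he).2
    have := (k3 j n P h).lin W.S.one_mem (ih k1 fun f => by simpa [h1, h0] using (k2 f).symm).succ
    simpa [h1] using this

end Tw

end Vale.Agent.P354XF
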